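import Mathlib

/-!
# Row 286: martingale kit (shared library)

Discrete time, finite horizon, Mathlib `Filtration ℕ` / `condExp`.

* `mtk_doob`      : Doob's `L^p` maximal inequality for nonnegative submartingales.
* `mtk_garsia`    : Garsia--Neveu lemma for increasing adapted processes.
* `mtk_dual_doob` : `‖∑ E_k V_k‖_q ≤ q ‖∑ V_k‖_q` for nonnegative, not adapted `V_k`.
* `mtk_square`    : square function bound for finite families of real martingales.
-/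

set_option autoImplicit false

open MeasureTheory ProbabilityTheory Filter
open scoped ENNReal NNReal

namespace Claimed.Agent.R286

/-! ## Numeric lemmas -/

/-- Young's inequality in the form `p a^{p-1} b ≤ (p-1) a^p + b^p`. -/
theorem mtk_young (p : ℝ) (hp : 1 ≤ p) (a b : ℝ) (ha : 0 ≤ a) (hb : 0 ≤ b) :
    p * a ^ (p - 1) * b ≤ (p - 1) * a ^ p + b ^ p := by
  have hp0 : 0 < p := by linarith
  have h := Real.geom_mean_le_arith_mean2_weighted (w₁ := (p - 1) / p) (w₂ := 1 / p)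
    (p₁ := a ^ p) (p₂ := b ^ p) (div_nonneg (by linarith) hp0.le) (by positivity)
    (Real.rpow_nonneg ha p) (Real.rpow_nonneg hb p) (by field_simp; ring)
  rw [← Real.rpow_mul ha, ← Real.rpow_mul hb] at h
  have e1 : p * ((p - 1) / p) = p - 1 := by field_simp
  have e2 : p * (1 / p) = 1 := by field_simp
  rw [e1, e2, Real.rpow_one] at h
  have h2 := mul_le_mul_of_nonneg_left h hp0.le
  have e3 : p * ((p - 1) / p * a ^ p + 1 / p * b ^ p) = (p - 1) * a ^ p + b ^ p := by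
    field_simp
  rw [e3] at h2
  linarith [h2]

/-- `x^{q-1} * x = x^q` for `x ≥ 0`, `q > 0`. -/
theorem mtk_rpow_pred_mul (q : ℝ) (hq : 0 < q) (x : ℝ) (hx : 0 ≤ x) :
    x ^ (q - 1) * x = x ^ q := by
  have := Real.rpow_add_one' hx (y := q - 1) (by linarith [hq] : q - 1 + 1 ≠ 0)
  rw [sub_add_cancel] at this
  exact this.symm

/-- `b^q - a^q ≤ q (b - a) b^{q-1}`. -/
theorem mtk_pow_diff (q : ℝ) (hq : 1 ≤ q) (a b : ℝ) (ha : 0 ≤ a) (hb : 0 ≤ b) :
    b ^ q - a ^ q ≤ q * (b - a) * b ^ (q - 1) := by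
  have h := mtk_young q hq b a hb ha
  have e := mtk_rpow_pred_mul q (by linarith) b hb
  nlinarith [h, e]

/-- second Young inequality used for Doob. -/
theorem mtk_young_doob (p : ℝ) (hp : 1 < p) (a b : ℝ) (ha : 0 ≤ a) (hb : 0 ≤ b) :
    p ^ 2 / (p - 1) * a ^ (p - 1) * b ≤ (p - 1) * a ^ p + (p / (p - 1)) ^ p * b ^ p := by
  have hp1 : 0 < p - 1 := by linarith
  have h := mtk_young p hp.le a (p / (p - 1) * b) ha (by positivity)
  rw [Real.mul_rpow (by positivity) hb] at h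
  have e : p * a ^ (p - 1) * (p / (p - 1) * b) = p ^ 2 / (p - 1) * a ^ (p - 1) * b := by
    field_simp
  rw [e] at h
  exact h

/-- Young inequality used for Garsia--Neveu. -/
theorem mtk_young_garsia (q : ℝ) (hq : 1 ≤ q) (A Y : ℝ) (hA : 0 ≤ A) (hY : 0 ≤ Y) :
    q * (q * (Y * A ^ (q - 1))) ≤ (q - 1) * A ^ q + q ^ q * Y ^ q := by
  have h := mtk_young q hq A (q * Y) hA (by positivity)
  rw [Real.mul_rpow (by linarith) hY] at h
  nlinarith [h]

/-! ## Running maximum and the pathwise Doob inequality -/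

/-- running maximum of a sequence. -/
def mtkMax {α : Type*} (x : ℕ → α → ℝ) : ℕ → α → ℝ
  | 0 => x 0
  | (n + 1) => fun ω => max (mtkMax x n ω) (x (n + 1) ω)

theorem mtkMax_zero {α : Type*} (x : ℕ → α → ℝ) (ω : α) : mtkMax x 0 ω = x 0 ω := rfl

theorem mtkMax_succ {α : Type*} (x : ℕ → α → ℝ) (n : ℕ) (ω : α) :
    mtkMax x (n + 1) ω = max (mtkMax x n ω) (x (n + 1) ω) := rfl

theorem mtk_le_max {α : Type*} (x : ℕ → α → ℝ) (n : ℕ) (ω : α) :
    ∀ k ≤ n, x k ω ≤ mtkMax x n ω := by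
  induction n with
  | zero => intro k hk; obtain rfl : k = 0 := by omega
            exact le_rfl
  | succ n ih =>
    intro k hk
    rw [mtkMax_succ]
    rcases Nat.lt_or_ge k (n + 1) with h | h
    · exact (ih k (by omega)).trans (le_max_left _ _)
    · obtain rfl : k = n + 1 := by omega
      exact le_max_right _ _

theorem mtk_max_le {α : Type*} (x : ℕ → α → ℝ) (n : ℕ) (ω : α) (c : ℝ)
    (h : ∀ k ≤ n, x k ω ≤ c) : mtkMax x n ω ≤ c := by
  induction n with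
  | zero => exact h 0 le_rfl
  | succ n ih =>
    rw [mtkMax_succ]
    exact max_le (ih (fun k hk => h k (by omega))) (h (n + 1) le_rfl)

theorem mtk_max_nonneg {α : Type*} (x : ℕ → α → ℝ) (n : ℕ) (ω : α) (h0 : 0 ≤ x 0 ω) :
    0 ≤ mtkMax x n ω := h0.trans (mtk_le_max x n ω 0 (Nat.zero_le _))

theorem mtk_max_mono {α : Type*} (x : ℕ → α → ℝ) (n : ℕ) (ω : α) :
    mtkMax x n ω ≤ mtkMax x (n + 1) ω := le_max_left _ _

theorem mtk_max_le_sum {α : Type*} (x : ℕ → α → ℝ) (n : ℕ) (ω : α) (h0 : ∀ k, 0 ≤ x k ω) :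
    mtkMax x n ω ≤ ∑ k ∈ Finset.range (n + 1), x k ω := by
  apply mtk_max_le
  intro k hk
  exact Finset.single_le_sum (f := fun k => x k ω) (fun i _ => h0 i)
    (Finset.mem_range.mpr (by omega))

/-- pathwise Doob, first half. -/
theorem mtk_path_aux {α : Type*} (p : ℝ) (hp : 1 < p) (x : ℕ → α → ℝ) (ω : α)
    (h0 : ∀ k, 0 ≤ x k ω) (n : ℕ) :
    p * (mtkMax x n ω) ^ p - p ^ 2 / (p - 1) * (mtkMax x n ω) ^ (p - 1) * x n ω
        + p / (p - 1) * (x 0 ω) ^ p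
      ≤ - (p ^ 2 / (p - 1)) *
        ∑ i ∈ Finset.range n, (mtkMax x i ω) ^ (p - 1) * (x (i + 1) ω - x i ω) := by
  have hp1 : 0 < p - 1 := by linarith
  induction n with
  | zero =>
    simp only [Finset.range_zero, Finset.sum_empty, mul_zero, mtkMax_zero]
    have e := mtk_rpow_pred_mul p (by linarith) (x 0 ω) (h0 0)
    have : p * (x 0 ω) ^ p - p ^ 2 / (p - 1) * (x 0 ω) ^ (p - 1) * x 0 ω
        + p / (p - 1) * (x 0 ω) ^ p = 0 := by
      rw [mul_assoc, e]; field_simp; ring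
    exact this.le
  | succ n ih =>
    rw [Finset.sum_range_succ, mul_add]
    set a := mtkMax x n ω with ha
    have ha0 : 0 ≤ a := mtk_max_nonneg x n ω (h0 0)
    set b := x (n + 1) ω with hb
    have hb0 : 0 ≤ b := h0 (n + 1)
    rw [mtkMax_succ, ← ha, ← hb]
    rcases le_total b a with hba | hab
    · rw [max_eq_left hba]
      nlinarith [ih]
    · rw [max_eq_right hab]
      have e := mtk_rpow_pred_mul p (by linarith) b hb0
      have hy := mtk_young p hp.le a b ha0 hb0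
      have e2 : p ^ 2 / (p - 1) * b ^ (p - 1) * b = p ^ 2 / (p - 1) * b ^ p := by
        rw [mul_assoc, e]
      rw [e2]
      have e3 : p ^ 2 / (p - 1) = p + p / (p - 1) := by field_simp; ring
      have hq : 0 ≤ p / (p - 1) := by positivity
      have hy2 := mul_le_mul_of_nonneg_left hy hq
      have e4 : p / (p - 1) * (p * a ^ (p - 1) * b) = p ^ 2 / (p - 1) * (a ^ (p - 1) * b) := by
        field_simp
      have e5 : p / (p - 1) * ((p - 1) * a ^ p + b ^ p) = p * a ^ p + p / (p - 1) * b ^ p := by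
        field_simp
      rw [e4, e5] at hy2
      have : -(p ^ 2 / (p - 1)) * (a ^ (p - 1) * (b - x n ω))
          = -(p ^ 2 / (p - 1) * (a ^ (p - 1) * b)) + p ^ 2 / (p - 1) * a ^ (p - 1) * x n ω := by
        ring
      rw [this]
      rw [e3] at ih hy2 ⊢
      nlinarith [ih, hy2]

/-- **Pathwise Doob inequality** (Acciaio--Beiglböck--Penkner--Schachermayer--Temme). -/
theorem mtk_path_doob {α : Type*} (p : ℝ) (hp : 1 < p) (x : ℕ → α → ℝ) (ω : α)
    (h0 : ∀ k, 0 ≤ x k ω) (n : ℕ) :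
    (mtkMax x n ω) ^ p ≤ (p / (p - 1)) ^ p * (x n ω) ^ p
      - (p ^ 2 / (p - 1)) *
        ∑ i ∈ Finset.range n, (mtkMax x i ω) ^ (p - 1) * (x (i + 1) ω - x i ω) := by
  have hp1 : 0 < p - 1 := by linarith
  have h1 := mtk_path_aux p hp x ω h0 n
  have h2 := mtk_young_doob p hp (mtkMax x n ω) (x n ω) (mtk_max_nonneg x n ω (h0 0)) (h0 n)
  have h3 : 0 ≤ p / (p - 1) * (x 0 ω) ^ p :=
    mul_nonneg (by positivity) (Real.rpow_nonneg (h0 0) p)
  nlinarith [h1, h2, h3]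


/-! ## Measure-theoretic helpers -/

section Meas

variable {Ω : Type*} {m0 : MeasurableSpace Ω} {μ : Measure Ω}

/-- comparison of integrals against a nonnegative test function measurable for `m`. -/
theorem mtk_int_mul_le [IsFiniteMeasure μ] {m : MeasurableSpace Ω} (hm : m ≤ m0) (U Y g : Ω → ℝ)
    (hU : Integrable U μ) (hY : Integrable Y μ)
    (hg : StronglyMeasurable[m] g) (hg0 : ∀ ω, 0 ≤ g ω)
    (hgU : Integrable (fun ω => g ω * U ω) μ) (hgY : Integrable (fun ω => g ω * Y ω) μ)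
    (h : μ[U|m] ≤ᵐ[μ] μ[Y|m]) :
    ∫ ω, g ω * U ω ∂μ ≤ ∫ ω, g ω * Y ω ∂μ := by
  have h1 : μ[g * U|m] =ᵐ[μ] g * μ[U|m] := condExp_mul_of_stronglyMeasurable_left hg hgU hU
  have h2 : μ[g * Y|m] =ᵐ[μ] g * μ[Y|m] := condExp_mul_of_stronglyMeasurable_left hg hgY hY
  have e1 : ∫ ω, g ω * U ω ∂μ = ∫ ω, (μ[g * U|m]) ω ∂μ := (integral_condExp hm).symm
  have e2 : ∫ ω, g ω * Y ω ∂μ = ∫ ω, (μ[g * Y|m]) ω ∂μ := (integral_condExp hm).symm
  rw [e1, e2]
  apply integral_mono_ae integrable_condExp integrable_condExp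
  filter_upwards [h1, h2, h] with ω a1 a2 a3
  rw [a1, a2]
  exact mul_le_mul_of_nonneg_left a3 (hg0 ω)

/-- integrability of `a^{p-1} y` from that of `a^p`, `|y|^p`. -/
theorem mtk_integrable_mul (p : ℝ) (hp : 1 ≤ p) (a y : Ω → ℝ) (ha0 : ∀ ω, 0 ≤ a ω)
    (ham : AEStronglyMeasurable a μ) (hym : AEStronglyMeasurable y μ)
    (ha : Integrable (fun ω => (a ω) ^ p) μ) (hy : Integrable (fun ω => |y ω| ^ p) μ) :
    Integrable (fun ω => (a ω) ^ (p - 1) * y ω) μ := by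
  have hm : AEStronglyMeasurable (fun ω => (a ω) ^ (p - 1) * y ω) μ :=
    ((Real.continuous_rpow_const (by linarith : (0:ℝ) ≤ p - 1)).comp_aestronglyMeasurable ham).mul
      hym
  refine Integrable.mono' ((ha.const_mul (p - 1)).add hy) hm (ae_of_all _ fun ω => ?_)
  have h := mtk_young p hp (a ω) |y ω| (ha0 ω) (abs_nonneg _)
  have h1 : 0 ≤ (a ω) ^ (p - 1) := Real.rpow_nonneg (ha0 ω) _
  rw [Real.norm_eq_abs, abs_mul, abs_of_nonneg h1]
  have h2 : 0 ≤ (a ω) ^ (p - 1) * |y ω| := mul_nonneg h1 (abs_nonneg _)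
  simp only [Pi.add_apply]
  nlinarith [h, h2]

theorem mtk_memLp_integrable (p : ℝ) (hp : 0 < p) (f : Ω → ℝ)
    (hf : MemLp f (ENNReal.ofReal p) μ) : Integrable (fun ω => |f ω| ^ p) μ := by
  have := hf.integrable_norm_rpow (by simpa using hp) ENNReal.ofReal_ne_top
  rw [ENNReal.toReal_ofReal hp.le] at this
  simpa [Real.norm_eq_abs] using this

theorem mtk_integrable_memLp (p : ℝ) (hp : 0 < p) (f : Ω → ℝ) (hfm : AEStronglyMeasurable f μ)
    (hf : Integrable (fun ω => |f ω| ^ p) μ) : MemLp f (ENNReal.ofReal p) μ := by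
  rw [← integrable_norm_rpow_iff hfm (by simpa using hp) ENNReal.ofReal_ne_top,
    ENNReal.toReal_ofReal hp.le]
  simpa [Real.norm_eq_abs] using hf

end Meas

/-! ## Doob's `L^p` inequality -/

section Doob

variable {Ω : Type*} {m0 : MeasurableSpace Ω} {μ : Measure Ω}
  {ℱ : Filtration ℕ m0}

theorem mtk_max_stronglyMeasurable {f : ℕ → Ω → ℝ} (hf : StronglyAdapted ℱ f) (n : ℕ) :
    StronglyMeasurable[ℱ n] (mtkMax f n) := by
  induction n with
  | zero => exact hf 0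
  | succ n ih =>
    have h1 : StronglyMeasurable[ℱ (n + 1)] (mtkMax f n) := ih.mono (ℱ.mono (Nat.le_succ n))
    exact (continuous_fst.max continuous_snd).comp_stronglyMeasurable (h1.prodMk (hf (n + 1)))

/-- all earlier terms of a nonnegative submartingale are in `L^p` if the last one is. -/
theorem mtk_sub_memLp {f : ℕ → Ω → ℝ} (hf : Submartingale f ℱ μ) (h0 : ∀ k ω, 0 ≤ f k ω)
    (p : ℝ) (hp : 1 ≤ p) (n : ℕ) (hn : MemLp (f n) (ENNReal.ofReal p) μ) (k : ℕ) (hk : k ≤ n) :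
    MemLp (f k) (ENNReal.ofReal p) μ := by
  have h1 : MemLp (μ[f n|ℱ k]) (ENNReal.ofReal p) μ :=
    hn.condExp (by simpa using hp)
  refine h1.mono (hf.integrable k).aestronglyMeasurable ?_
  filter_upwards [hf.ae_le_condExp hk] with ω hω
  rw [Real.norm_eq_abs, Real.norm_eq_abs, abs_of_nonneg (h0 k ω)]
  exact hω.trans (le_abs_self _)

theorem mtk_max_integrable {f : ℕ → Ω → ℝ} (hf : StronglyAdapted ℱ f) (h0 : ∀ k ω, 0 ≤ f k ω)
    (p : ℝ) (hp : 0 < p) (n : ℕ) (hn : ∀ k ≤ n, Integrable (fun ω => (f k ω) ^ p) μ) :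
    Integrable (fun ω => (mtkMax f n ω) ^ p) μ := by
  induction n with
  | zero => exact hn 0 le_rfl
  | succ n ih =>
    have h1 := ih (fun k hk => hn k (by omega))
    have h2 := hn (n + 1) le_rfl
    have hm : AEStronglyMeasurable (fun ω => (mtkMax f (n + 1) ω) ^ p) μ :=
      (Real.continuous_rpow_const hp.le).comp_aestronglyMeasurable
        ((mtk_max_stronglyMeasurable hf (n + 1)).mono (ℱ.le _)).aestronglyMeasurable
    refine Integrable.mono' (h1.add h2) hm (ae_of_all _ fun ω => ?_)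
    have ha : 0 ≤ mtkMax f n ω := mtk_max_nonneg f n ω (h0 0 ω)
    have hb : 0 ≤ f (n + 1) ω := h0 _ ω
    rw [Real.norm_eq_abs, abs_of_nonneg (Real.rpow_nonneg (mtk_max_nonneg f _ ω (h0 0 ω)) _),
      mtkMax_succ]
    simp only [Pi.add_apply]
    rcases le_total (mtkMax f n ω) (f (n + 1) ω) with h | h
    · rw [max_eq_right h]; linarith [Real.rpow_nonneg ha p]
    · rw [max_eq_left h]; linarith [Real.rpow_nonneg hb p]

/-- **Doob's `L^p` maximal inequality** for nonnegative submartingales. -/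
theorem mtk_doob [IsFiniteMeasure μ] {f : ℕ → Ω → ℝ} (hf : Submartingale f ℱ μ) (h0 : ∀ k ω, 0 ≤ f k ω)
    (p : ℝ) (hp : 1 < p) (n : ℕ) (hn : MemLp (f n) (ENNReal.ofReal p) μ) :
    Integrable (fun ω => (mtkMax f n ω) ^ p) μ ∧
    ∫ ω, (mtkMax f n ω) ^ p ∂μ ≤ (p / (p - 1)) ^ p * ∫ ω, (f n ω) ^ p ∂μ := by
  have hp0 : 0 < p := by linarith
  have hp1 : 0 < p - 1 := by linarith
  have hLp : ∀ k ≤ n, Integrable (fun ω => (f k ω) ^ p) μ := by
    intro k hk
    have := mtk_memLp_integrable p hp0 (f k) (mtk_sub_memLp hf h0 p hp.le n hn k hk)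
    simpa [abs_of_nonneg (h0 k _)] using this
  have hmaxI : ∀ k ≤ n, Integrable (fun ω => (mtkMax f k ω) ^ p) μ := fun k hk =>
    mtk_max_integrable hf.stronglyAdapted h0 p hp0 k (fun j hj => hLp j (hj.trans hk))
  refine ⟨hmaxI n le_rfl, ?_⟩
  -- the increments terms
  have hterm_int : ∀ i < n, Integrable
      (fun ω => (mtkMax f i ω) ^ (p - 1) * (f (i + 1) ω - f i ω)) μ := by
    intro i hi
    have hd : Integrable (fun ω => |f (i + 1) ω - f i ω| ^ p) μ := by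
      apply mtk_memLp_integrable p hp0
      exact (mtk_sub_memLp hf h0 p hp.le n hn (i + 1) hi).sub
        (mtk_sub_memLp hf h0 p hp.le n hn i hi.le)
    exact mtk_integrable_mul p hp.le _ _ (fun ω => mtk_max_nonneg f i ω (h0 0 ω))
      ((mtk_max_stronglyMeasurable hf.stronglyAdapted i).mono (ℱ.le _)).aestronglyMeasurable
      ((hf.integrable _).sub (hf.integrable _)).aestronglyMeasurable (hmaxI i hi.le) hd
  have hterm_nonneg : ∀ i < n,
      0 ≤ ∫ ω, (mtkMax f i ω) ^ (p - 1) * (f (i + 1) ω - f i ω) ∂μ := by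
    intro i hi
    have hg : StronglyMeasurable[ℱ i] (fun ω => (mtkMax f i ω) ^ (p - 1)) :=
      (Real.continuous_rpow_const hp1.le).comp_stronglyMeasurable
        (mtk_max_stronglyMeasurable hf.stronglyAdapted i)
    have := mtk_int_mul_le (μ := μ) (ℱ.le i) (fun _ => 0) (fun ω => f (i + 1) ω - f i ω)
      (fun ω => (mtkMax f i ω) ^ (p - 1)) (integrable_zero _ _ _)
      ((hf.integrable _).sub (hf.integrable _)) hg
      (fun ω => Real.rpow_nonneg (mtk_max_nonneg f i ω (h0 0 ω)) _)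
      (by simp) (hterm_int i hi)
      (by
        have h1 : μ[(fun _ => (0:ℝ))|ℱ i] = 0 := condExp_zero
        rw [h1]
        exact hf.condExp_sub_nonneg (Nat.le_succ i))
    simpa using this
  have hsum_int : Integrable (fun ω => ∑ i ∈ Finset.range n,
      (mtkMax f i ω) ^ (p - 1) * (f (i + 1) ω - f i ω)) μ :=
    integrable_finsetSum _ (fun i hi => hterm_int i (Finset.mem_range.mp hi))
  have hsum_nonneg : 0 ≤ ∫ ω, ∑ i ∈ Finset.range n,
      (mtkMax f i ω) ^ (p - 1) * (f (i + 1) ω - f i ω) ∂μ := by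
    rw [integral_finsetSum _ (fun i hi => hterm_int i (Finset.mem_range.mp hi))]
    exact Finset.sum_nonneg (fun i hi => hterm_nonneg i (Finset.mem_range.mp hi))
  have hpt : ∫ ω, (mtkMax f n ω) ^ p ∂μ ≤ ∫ ω, ((p / (p - 1)) ^ p * (f n ω) ^ p
      - (p ^ 2 / (p - 1)) * ∑ i ∈ Finset.range n,
        (mtkMax f i ω) ^ (p - 1) * (f (i + 1) ω - f i ω)) ∂μ := by
    apply integral_mono (hmaxI n le_rfl)
      (((hLp n le_rfl).const_mul _).sub (hsum_int.const_mul _))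
    intro ω
    exact mtk_path_doob p hp f ω (fun k => h0 k ω) n
  rw [integral_sub ((hLp n le_rfl).const_mul _) (hsum_int.const_mul _), integral_const_mul,
    integral_const_mul] at hpt
  have : 0 ≤ p ^ 2 / (p - 1) := by positivity
  nlinarith [hpt, mul_nonneg this hsum_nonneg]

end Doob

/-! ## The Garsia--Neveu lemma -/

/-- pathwise inequality behind Garsia--Neveu. -/
theorem mtk_path_garsia (q : ℝ) (hq : 1 ≤ q) (A : ℕ → ℝ) (hA0 : ∀ k, 0 ≤ A k) (T : ℝ) (n : ℕ) :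
    q * (T - A n) * (A n) ^ (q - 1) + (A n) ^ q ≤
      q * (T * (A 0) ^ (q - 1) +
        ∑ k ∈ Finset.range n, (T - A k) * ((A (k + 1)) ^ (q - 1) - (A k) ^ (q - 1))) := by
  induction n with
  | zero =>
    simp only [Finset.range_zero, Finset.sum_empty, add_zero]
    have e := mtk_rpow_pred_mul q (by linarith) (A 0) (hA0 0)
    have h : 0 ≤ (A 0) ^ q := Real.rpow_nonneg (hA0 0) q
    nlinarith [e, h]
  | succ n ih =>
    rw [Finset.sum_range_succ]
    have h := mtk_pow_diff q hq (A n) (A (n + 1)) (hA0 n) (hA0 (n + 1))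
    nlinarith [ih, h]

section Garsia

variable {Ω : Type*} {m0 : MeasurableSpace Ω} {μ : Measure Ω} [IsFiniteMeasure μ]
  {ℱ : Filtration ℕ m0}

/-- **Garsia--Neveu lemma.**  `A` is nonnegative, nondecreasing and adapted;
`E[A_n | F_0] ≤ E[Y | F_0]` and `E[A_n - A_k | F_{k+1}] ≤ E[Y | F_{k+1}]` for `k < n`.
Then `E A_n^q ≤ q^q E Y^q`. -/
theorem mtk_garsia (q : ℝ) (hq : 1 ≤ q) (n : ℕ) (A : ℕ → Ω → ℝ) (Y : Ω → ℝ)
    (hA0 : ∀ k ω, 0 ≤ A k ω) (hmono : ∀ k ω, A k ω ≤ A (k + 1) ω)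
    (hadapt : ∀ k, StronglyMeasurable[ℱ k] (A k))
    (hAq : MemLp (A n) (ENNReal.ofReal q) μ)
    (hY0 : ∀ ω, 0 ≤ Y ω) (hYq : MemLp Y (ENNReal.ofReal q) μ)
    (h0 : μ[A n|ℱ 0] ≤ᵐ[μ] μ[Y|ℱ 0])
    (hk : ∀ k < n, μ[A n - A k|ℱ (k + 1)] ≤ᵐ[μ] μ[Y|ℱ (k + 1)]) :
    ∫ ω, (A n ω) ^ q ∂μ ≤ q ^ q * ∫ ω, (Y ω) ^ q ∂μ := by
  have hq0 : 0 < q := by linarith
  have hq1 : 0 ≤ q - 1 := by linarith
  have hone : (1 : ℝ≥0∞) ≤ ENNReal.ofReal q := by simpa using hq
  have hmono' : ∀ k ≤ n, ∀ ω, A k ω ≤ A n ω := by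
    intro k hkn ω
    exact monotone_nat_of_le_succ (f := fun j => A j ω) (fun j => hmono j ω) hkn
  have hAm : ∀ k, AEStronglyMeasurable (A k) μ := fun k =>
    ((hadapt k).mono (ℱ.le k)).aestronglyMeasurable
  have hAkq : ∀ k ≤ n, MemLp (A k) (ENNReal.ofReal q) μ := by
    intro k hkn
    refine hAq.mono (hAm k) (ae_of_all _ fun ω => ?_)
    rw [Real.norm_eq_abs, Real.norm_eq_abs, abs_of_nonneg (hA0 k ω), abs_of_nonneg (hA0 n ω)]
    exact hmono' k hkn ω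
  have hAkI : ∀ k ≤ n, Integrable (fun ω => (A k ω) ^ q) μ := by
    intro k hkn
    have := mtk_memLp_integrable q hq0 (A k) (hAkq k hkn)
    simpa [abs_of_nonneg (hA0 k _)] using this
  have hYI : Integrable (fun ω => (Y ω) ^ q) μ := by
    have := mtk_memLp_integrable q hq0 Y hYq
    simpa [abs_of_nonneg (hY0 _)] using this
  have hA1 : ∀ k ≤ n, Integrable (A k) μ := fun k hkn => (hAkq k hkn).integrable hone
  have hY1 : Integrable Y μ := hYq.integrable hone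
  -- products
  have hprod : ∀ k ≤ n, ∀ y : Ω → ℝ, MemLp y (ENNReal.ofReal q) μ →
      Integrable (fun ω => (A k ω) ^ (q - 1) * y ω) μ := by
    intro k hkn y hy
    exact mtk_integrable_mul q hq _ _ (hA0 k) (hAm k) hy.aestronglyMeasurable (hAkI k hkn)
      (mtk_memLp_integrable q hq0 y hy)
  have hBm : ∀ k, StronglyMeasurable[ℱ k] (fun ω => (A k ω) ^ (q - 1)) := fun k =>
    (Real.continuous_rpow_const hq1).comp_stronglyMeasurable (hadapt k)
  -- first term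
  have t0 : ∫ ω, (A 0 ω) ^ (q - 1) * A n ω ∂μ ≤ ∫ ω, (A 0 ω) ^ (q - 1) * Y ω ∂μ :=
    mtk_int_mul_le (ℱ.le 0) (A n) Y _ (hA1 n le_rfl) hY1 (hBm 0)
      (fun ω => Real.rpow_nonneg (hA0 0 ω) _) (hprod 0 (Nat.zero_le _) _ hAq)
      (hprod 0 (Nat.zero_le _) _ hYq) h0
  have hdiffI : ∀ k < n, ∀ y : Ω → ℝ, MemLp y (ENNReal.ofReal q) μ →
      Integrable (fun ω => ((A (k + 1) ω) ^ (q - 1) - (A k ω) ^ (q - 1)) * y ω) μ := by
    intro k hkn y hy
    have := (hprod (k + 1) hkn y hy).sub (hprod k hkn.le y hy)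
    refine this.congr (ae_of_all _ fun ω => ?_)
    simp only [Pi.sub_apply]; ring
  have hdI : ∀ k < n, Integrable
      (fun ω => ((A (k + 1) ω) ^ (q - 1) - (A k ω) ^ (q - 1)) * (A n ω - A k ω)) μ :=
    fun k hkn => hdiffI k hkn _ (hAq.sub (hAkq k hkn.le))
  have tk : ∀ k < n, ∫ ω, ((A (k + 1) ω) ^ (q - 1) - (A k ω) ^ (q - 1)) * (A n ω - A k ω) ∂μ ≤
      ∫ ω, ((A (k + 1) ω) ^ (q - 1) - (A k ω) ^ (q - 1)) * Y ω ∂μ := by
    intro k hkn
    exact mtk_int_mul_le (ℱ.le (k + 1)) (fun ω => A n ω - A k ω) Y _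
      ((hA1 n le_rfl).sub (hA1 k hkn.le)) hY1
      ((hBm (k + 1)).sub ((hBm k).mono (ℱ.mono (Nat.le_succ k))))
      (fun ω => sub_nonneg.mpr (Real.rpow_le_rpow (hA0 k ω) (hmono k ω) hq1))
      (hdI k hkn) (hdiffI k hkn _ hYq) (hk k hkn)
  -- integrate the pathwise inequality
  have hRI : Integrable (fun ω => (A 0 ω) ^ (q - 1) * A n ω + ∑ k ∈ Finset.range n,
      ((A (k + 1) ω) ^ (q - 1) - (A k ω) ^ (q - 1)) * (A n ω - A k ω)) μ :=
    (hprod 0 (Nat.zero_le _) _ hAq).add (integrable_finsetSum _ (fun k hk' =>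
      hdI k (Finset.mem_range.mp hk')))
  have s1 : ∫ ω, (A n ω) ^ q ∂μ ≤ q * ∫ ω, ((A 0 ω) ^ (q - 1) * A n ω + ∑ k ∈ Finset.range n,
      ((A (k + 1) ω) ^ (q - 1) - (A k ω) ^ (q - 1)) * (A n ω - A k ω)) ∂μ := by
    rw [← integral_const_mul]
    apply integral_mono (hAkI n le_rfl) (hRI.const_mul q)
    intro ω
    have := mtk_path_garsia q hq (fun k => A k ω) (fun k => hA0 k ω) (A n ω) n
    simp only [sub_self, mul_zero, zero_mul, zero_add] at this
    refine this.trans (le_of_eq ?_)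
    congr 1
    rw [mul_comm (A n ω)]
    congr 1
    exact Finset.sum_congr rfl (fun k _ => mul_comm _ _)
  have s2 : ∫ ω, ((A 0 ω) ^ (q - 1) * A n ω + ∑ k ∈ Finset.range n,
      ((A (k + 1) ω) ^ (q - 1) - (A k ω) ^ (q - 1)) * (A n ω - A k ω)) ∂μ ≤
      ∫ ω, Y ω * (A n ω) ^ (q - 1) ∂μ := by
    rw [integral_add (hprod 0 (Nat.zero_le _) _ hAq) (integrable_finsetSum _ (fun k hk' =>
      hdI k (Finset.mem_range.mp hk'))),
      integral_finsetSum _ (fun k hk' => hdI k (Finset.mem_range.mp hk'))]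
    have e : ∫ ω, Y ω * (A n ω) ^ (q - 1) ∂μ = ∫ ω, (A 0 ω) ^ (q - 1) * Y ω ∂μ +
        ∑ k ∈ Finset.range n, ∫ ω, ((A (k + 1) ω) ^ (q - 1) - (A k ω) ^ (q - 1)) * Y ω ∂μ := by
      rw [← integral_finsetSum _ (fun k hk' => hdiffI k (Finset.mem_range.mp hk') _ hYq),
        ← integral_add (hprod 0 (Nat.zero_le _) _ hYq) (integrable_finsetSum _ (fun k hk' =>
          hdiffI k (Finset.mem_range.mp hk') _ hYq))]
      congr 1
      funext ω
      rw [← Finset.sum_mul, Finset.sum_range_sub (fun k => (A k ω) ^ (q - 1))]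
      ring
    rw [e]
    exact add_le_add t0 (Finset.sum_le_sum (fun k hk' => tk k (Finset.mem_range.mp hk')))
  have hYA : Integrable (fun ω => Y ω * (A n ω) ^ (q - 1)) μ :=
    (hprod n le_rfl _ hYq).congr (ae_of_all _ fun ω => mul_comm _ _)
  have s3 : q * (q * ∫ ω, Y ω * (A n ω) ^ (q - 1) ∂μ) ≤
      (q - 1) * ∫ ω, (A n ω) ^ q ∂μ + q ^ q * ∫ ω, (Y ω) ^ q ∂μ := by
    rw [← integral_const_mul, ← integral_const_mul, ← integral_const_mul, ← integral_const_mul,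
      ← integral_add ((hAkI n le_rfl).const_mul _) (hYI.const_mul _)]
    apply integral_mono ((hYA.const_mul q).const_mul q)
      (((hAkI n le_rfl).const_mul _).add (hYI.const_mul _))
    intro ω
    exact mtk_young_garsia q hq (A n ω) (Y ω) (hA0 n ω) (hY0 ω)
  have s4 : q * ∫ ω, (A n ω) ^ q ∂μ ≤ q * (q * ∫ ω, Y ω * (A n ω) ^ (q - 1) ∂μ) :=
    mul_le_mul_of_nonneg_left (s1.trans (mul_le_mul_of_nonneg_left s2 hq0.le)) hq0.le
  linarith [s3, s4]


/-- Garsia--Neveu for sums of adapted, a.e. nonnegative terms: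
if `E[∑_{k ≤ j ≤ n} w_j | F_k] ≤ E[Y | F_k]` for all `k ≤ n` then
`E (∑_{j ≤ n} w_j)^q ≤ q^q E Y^q`. -/
theorem mtk_garsia_sum (q : ℝ) (hq : 1 ≤ q) (n : ℕ) (w : ℕ → Ω → ℝ) (Y : Ω → ℝ)
    (hw0 : ∀ k, 0 ≤ᵐ[μ] w k) (hadapt : ∀ k, StronglyMeasurable[ℱ k] (w k))
    (hwq : ∀ k ≤ n, MemLp (w k) (ENNReal.ofReal q) μ)
    (hY0 : ∀ ω, 0 ≤ Y ω) (hYq : MemLp Y (ENNReal.ofReal q) μ)
    (hk : ∀ k ≤ n, μ[∑ j ∈ Finset.Ico k (n + 1), w j|ℱ k] ≤ᵐ[μ] μ[Y|ℱ k]) :
    ∫ ω, (∑ j ∈ Finset.range (n + 1), w j ω) ^ q ∂μ ≤ q ^ q * ∫ ω, (Y ω) ^ q ∂μ := by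
  set W : ℕ → Ω → ℝ := fun k ω => max 0 (w k ω) with hWdef
  have hW : ∀ k, W k =ᵐ[μ] w k := by
    intro k
    filter_upwards [hw0 k] with ω hω
    exact max_eq_right hω
  have hWm : ∀ k, StronglyMeasurable[ℱ k] (W k) := fun k =>
    (continuous_const.max continuous_id).comp_stronglyMeasurable (hadapt k)
  set A : ℕ → Ω → ℝ := fun k ω => ∑ j ∈ Finset.range (k + 1), W j ω with hAdef
  have hsumW : ∀ s : Finset ℕ, (∑ j ∈ s, W j) =ᵐ[μ] ∑ j ∈ s, w j := by
    intro s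
    have : ∀ᵐ ω ∂μ, ∀ j ∈ s, W j ω = w j ω := by
      rw [Filter.eventually_all_finset]
      exact fun j _ => hW j
    filter_upwards [this] with ω hω
    rw [Finset.sum_apply, Finset.sum_apply]
    exact Finset.sum_congr rfl hω
  have hAn : A n =ᵐ[μ] fun ω => ∑ j ∈ Finset.range (n + 1), w j ω := by
    filter_upwards [hsumW (Finset.range (n + 1))] with ω hω
    rw [Finset.sum_apply, Finset.sum_apply] at hω
    exact hω
  have hmain := mtk_garsia (μ := μ) (ℱ := ℱ) q hq n A Y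
    (fun k ω => Finset.sum_nonneg (fun j _ => le_max_left _ _))
    (fun k ω => by
      simp only [hAdef]
      rw [Finset.sum_range_succ _ (k + 1)]
      exact le_add_of_nonneg_right (le_max_left _ _))
    (fun k => Finset.stronglyMeasurable_fun_sum _ (fun j hj =>
      (hWm j).mono (ℱ.mono (by have := Finset.mem_range.mp hj; omega))))
    (by
      have : MemLp (fun ω => ∑ j ∈ Finset.range (n + 1), w j ω) (ENNReal.ofReal q) μ :=
        memLp_finsetSum _ (fun j hj => hwq j (by have := Finset.mem_range.mp hj; omega))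
      exact this.ae_eq hAn.symm)
    hY0 hYq
    (by
      have e : A n =ᵐ[μ] ∑ j ∈ Finset.Ico 0 (n + 1), w j := by
        rw [← Finset.range_eq_Ico]
        filter_upwards [hAn] with ω hω
        rw [hω, Finset.sum_apply]
      exact (condExp_congr_ae e).trans_le (hk 0 (Nat.zero_le _)))
    (by
      intro k hkn
      have e : A n - A k =ᵐ[μ] ∑ j ∈ Finset.Ico (k + 1) (n + 1), w j := by
        filter_upwards [hsumW (Finset.Ico (k + 1) (n + 1))] with ω hω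
        rw [← hω, Finset.sum_apply, Finset.sum_Ico_eq_sub _ (by omega : k + 1 ≤ n + 1)]
        rfl
      exact (condExp_congr_ae e).trans_le (hk (k + 1) hkn))
  have e : ∫ ω, (∑ j ∈ Finset.range (n + 1), w j ω) ^ q ∂μ = ∫ ω, (A n ω) ^ q ∂μ := by
    apply integral_congr_ae
    filter_upwards [hAn] with ω hω
    rw [hω]
  rw [e]
  exact hmain

/-- **Dual Doob inequality**: for nonnegative, not necessarily adapted `V_k`,
`E (∑_k E[V_k | F_k])^q ≤ q^q E (∑_k V_k)^q`. -/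
theorem mtk_dual_doob (q : ℝ) (hq : 1 ≤ q) (n : ℕ) (V : ℕ → Ω → ℝ) (hV0 : ∀ k ω, 0 ≤ V k ω)
    (hVq : ∀ k ≤ n, MemLp (V k) (ENNReal.ofReal q) μ) :
    ∫ ω, (∑ k ∈ Finset.range (n + 1), (μ[V k|ℱ k]) ω) ^ q ∂μ ≤
      q ^ q * ∫ ω, (∑ k ∈ Finset.range (n + 1), V k ω) ^ q ∂μ := by
  have hone : (1 : ℝ≥0∞) ≤ ENNReal.ofReal q := by simpa using hq
  have hV1 : ∀ k ≤ n, Integrable (V k) μ := fun k hk => (hVq k hk).integrable hone
  apply mtk_garsia_sum (μ := μ) (ℱ := ℱ) q hq n (fun k => μ[V k|ℱ k])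
    (fun ω => ∑ k ∈ Finset.range (n + 1), V k ω)
    (fun k => condExp_nonneg (ae_of_all _ (hV0 k)))
    (fun k => stronglyMeasurable_condExp)
    (fun k hk => (hVq k hk).condExp hone)
    (fun ω => Finset.sum_nonneg (fun k _ => hV0 k ω))
    (memLp_finsetSum _ (fun j hj => hVq j (by have := Finset.mem_range.mp hj; omega)))
  intro k hkn
  have h1 : μ[∑ j ∈ Finset.Ico k (n + 1), μ[V j|ℱ j]|ℱ k] =ᵐ[μ]
      ∑ j ∈ Finset.Ico k (n + 1), μ[μ[V j|ℱ j]|ℱ k] :=
    condExp_finsetSum (fun j _ => integrable_condExp) _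
  have h2 : ∀ᵐ ω ∂μ, ∀ j ∈ Finset.Ico k (n + 1),
      (μ[μ[V j|ℱ j]|ℱ k]) ω = (μ[V j|ℱ k]) ω := by
    rw [Filter.eventually_all_finset]
    intro j hj
    exact condExp_condExp_of_le (ℱ.mono (Finset.mem_Ico.mp hj).1) (ℱ.le j)
  have h3 : μ[fun ω => ∑ j ∈ Finset.range (n + 1), V j ω|ℱ k] =ᵐ[μ]
      ∑ j ∈ Finset.range (n + 1), μ[V j|ℱ k] := by
    have e : (fun ω => ∑ j ∈ Finset.range (n + 1), V j ω) = ∑ j ∈ Finset.range (n + 1), V j := by
      funext ω; rw [Finset.sum_apply]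
    rw [e]
    exact condExp_finsetSum (fun j hj => hV1 j (by have := Finset.mem_range.mp hj; omega)) _
  have h4 : ∀ᵐ ω ∂μ, ∀ j ∈ Finset.range (n + 1), 0 ≤ (μ[V j|ℱ k]) ω := by
    rw [Filter.eventually_all_finset]
    intro j _
    exact condExp_nonneg (ae_of_all _ (hV0 j))
  filter_upwards [h1, h2, h3, h4] with ω a1 a2 a3 a4
  rw [a1, a3, Finset.sum_apply, Finset.sum_apply, Finset.sum_congr rfl a2]
  apply Finset.sum_le_sum_of_subset_of_nonneg
  · intro j hj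
    exact Finset.mem_range.mpr (Finset.mem_Ico.mp hj).2
  · intro j hj _
    exact a4 j hj

/-- **Compensator bound**: for a nonnegative submartingale `U`,
`E (∑_{j<N} E[U_{j+1} - U_j | F_j])^q ≤ q^q E U_N^q`. -/
theorem mtk_compensator (q : ℝ) (hq : 1 ≤ q) (N : ℕ) {U : ℕ → Ω → ℝ}
    (hU : Submartingale U ℱ μ) (hU0 : ∀ k ω, 0 ≤ U k ω)
    (hUq : MemLp (U N) (ENNReal.ofReal q) μ) :
    ∫ ω, (∑ j ∈ Finset.range N, (μ[U (j + 1) - U j|ℱ j]) ω) ^ q ∂μ ≤
      q ^ q * ∫ ω, (U N ω) ^ q ∂μ := by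
  have hq0 : 0 < q := by linarith
  have hone : (1 : ℝ≥0∞) ≤ ENNReal.ofReal q := by simpa using hq
  rcases Nat.eq_zero_or_pos N with rfl | hN
  · simp only [Finset.range_zero, Finset.sum_empty, Real.zero_rpow hq0.ne', integral_zero]
    exact mul_nonneg (Real.rpow_nonneg hq0.le _)
      (integral_nonneg (fun ω => Real.rpow_nonneg (hU0 0 ω) _))
  obtain ⟨n, rfl⟩ : ∃ n, N = n + 1 := ⟨N - 1, by omega⟩
  apply mtk_garsia_sum (μ := μ) (ℱ := ℱ) q hq n (fun k => μ[U (k + 1) - U k|ℱ k]) (U (n + 1))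
    (fun k => hU.condExp_sub_nonneg (Nat.le_succ k))
    (fun k => stronglyMeasurable_condExp)
    (fun k hk => ((mtk_sub_memLp hU hU0 q hq (n + 1) hUq (k + 1) (by omega)).sub
      (mtk_sub_memLp hU hU0 q hq (n + 1) hUq k (by omega))).condExp hone)
    (hU0 (n + 1)) hUq
  intro k hkn
  have h1 : μ[∑ j ∈ Finset.Ico k (n + 1), μ[U (j + 1) - U j|ℱ j]|ℱ k] =ᵐ[μ]
      ∑ j ∈ Finset.Ico k (n + 1), μ[μ[U (j + 1) - U j|ℱ j]|ℱ k] :=
    condExp_finsetSum (fun j _ => integrable_condExp) _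
  have h2 : ∀ᵐ ω ∂μ, ∀ j ∈ Finset.Ico k (n + 1),
      (μ[μ[U (j + 1) - U j|ℱ j]|ℱ k]) ω = (μ[U (j + 1) - U j|ℱ k]) ω := by
    rw [Filter.eventually_all_finset]
    intro j hj
    exact condExp_condExp_of_le (ℱ.mono (Finset.mem_Ico.mp hj).1) (ℱ.le j)
  have h3 : μ[∑ j ∈ Finset.Ico k (n + 1), (U (j + 1) - U j)|ℱ k] =ᵐ[μ]
      ∑ j ∈ Finset.Ico k (n + 1), μ[U (j + 1) - U j|ℱ k] :=
    condExp_finsetSum (fun j _ => (hU.integrable _).sub (hU.integrable _)) _
  have e : ∑ j ∈ Finset.Ico k (n + 1), (U (j + 1) - U j) = U (n + 1) - U k :=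
    Finset.sum_Ico_sub U (by omega)
  rw [e] at h3
  have h4 : μ[U (n + 1) - U k|ℱ k] ≤ᵐ[μ] μ[U (n + 1)|ℱ k] :=
    condExp_mono ((hU.integrable _).sub (hU.integrable _)) (hU.integrable _)
      (ae_of_all _ fun ω => by simp only [Pi.sub_apply]; linarith [hU0 k ω])
  filter_upwards [h1, h2, h3, h4] with ω a1 a2 a3 a4
  rw [a1, Finset.sum_apply, Finset.sum_congr rfl a2, ← Finset.sum_apply, ← a3]
  exact a4

end Garsia

end Claimed.Agent.R286
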