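import Claimed.Agent.R286.Defs.Gh
import Claimed.Agent.R286.Lib.MartKit

/-!
# Row 286: the planted path law as a genuine probability measure (bridge `Defs/Gh` → Mathlib)

* `ghmK B ls : Kernel (S → ℝ) ((ℕ → ι → ℝ) × S)` : law of (drivers, spin) of one planted path started from the field `z`;
* `GhmNorm B ls` : the only analytic input (`ghD` integrable with integral `1` at every level);
* `ghm_markov`   : `ghmK` is a Markov kernel;
* `ghm_integral` : `∫ P ∂(ghmK B ls z) = ghPath B ls z (curry P)` for integrable `P`.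
-/

set_option autoImplicit false
set_option linter.unusedSectionVars false

namespace Claimed.Agent.R286

open MeasureTheory ProbabilityTheory
open scoped ENNReal NNReal

variable {S ι : Type} [Fintype S] [Fintype ι]

instance ghm_std_prob : IsProbabilityMeasure (ghStd ι) := by
  unfold ghStd; infer_instance

/-! ### measurability -/

theorem ghm_meas_inc (l : GhLv S ι) : Measurable (l.inc) := by
  unfold GhLv.inc
  fun_prop

theorem ghm_meas_add_inc (l : GhLv S ι) :
    Measurable (fun p : (S → ℝ) × (ι → ℝ) => p.1 + l.inc p.2) :=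
  measurable_fst.add ((ghm_meas_inc l).comp measurable_snd)

theorem ghm_meas_F0 (B : GhB S) : Measurable (ghF0 B) := by
  unfold ghF0
  fun_prop

theorem ghm_meas_F (B : GhB S) (ls : List (GhLv S ι)) : Measurable (ghF B ls) := by
  induction ls with
  | nil => exact ghm_meas_F0 B
  | cons l ls ih =>
    have h1 : Measurable (fun p : (S → ℝ) × (ι → ℝ) => ghF B ls (p.1 + l.inc p.2)) :=
      ih.comp (ghm_meas_add_inc l)
    have e : ghF B (l :: ls) = fun z => ghT (ghStd ι) l.m fun ξ => ghF B ls (z + l.inc ξ) := by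
      funext z; rfl
    rw [e]
    unfold ghT
    by_cases hm : l.m = 0
    · simp only [hm, if_true]
      exact (h1.stronglyMeasurable.integral_prod_right' (ν := ghStd ι)).measurable
    · simp only [hm, if_false]
      have h2 : Measurable (fun p : (S → ℝ) × (ι → ℝ) =>
          Real.exp (l.m * ghF B ls (p.1 + l.inc p.2))) := by fun_prop
      have h3 := (h2.stronglyMeasurable.integral_prod_right' (ν := ghStd ι)).measurable
      fun_prop

theorem ghm_meas_D (B : GhB S) (l : GhLv S ι) (ls : List (GhLv S ι)) :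
    Measurable (fun p : (S → ℝ) × (ι → ℝ) => ghD B l ls p.1 p.2) := by
  unfold ghD
  have h1 : Measurable (fun p : (S → ℝ) × (ι → ℝ) => ghF B ls (p.1 + l.inc p.2)) :=
    (ghm_meas_F B ls).comp (ghm_meas_add_inc l)
  have h2 : Measurable (fun p : (S → ℝ) × (ι → ℝ) => ghF B (l :: ls) p.1) :=
    (ghm_meas_F B (l :: ls)).comp measurable_fst
  fun_prop

theorem ghm_meas_Gw (B : GhB S) (s : S) : Measurable (fun z : S → ℝ => ghGw B z s) := by
  unfold ghGw
  fun_prop

theorem ghm_D_pos (B : GhB S) (l : GhLv S ι) (ls : List (GhLv S ι)) (z : S → ℝ) (ξ : ι → ℝ) :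
    0 < ghD B l ls z ξ := Real.exp_pos _

theorem ghm_meas_cons {α : Type} [MeasurableSpace α] :
    Measurable (fun p : α × (ℕ → α) => ghCons p.1 p.2) := by
  rw [measurable_pi_iff]
  intro j
  cases j with
  | zero => exact measurable_fst
  | succ j => exact (measurable_pi_apply j).comp measurable_snd

/-! ### the kernel -/

variable [MeasurableSpace S] [MeasurableSingletonClass S]

/-- the sample space of one planted path: drivers and terminal spin -/
abbrev GhmΩ (S ι : Type) : Type := (ℕ → ι → ℝ) × S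

/-- the terminal Gibbs kernel -/
noncomputable def ghmK0 (B : GhB S) : Kernel (S → ℝ) (GhmΩ S ι) :=
  (Kernel.withDensity (Kernel.const (S → ℝ) (Measure.count : Measure S))
    (fun z s => ((ghGw B z s).toNNReal : ℝ≥0∞))).map (fun s => ((fun _ _ => 0 : ℕ → ι → ℝ), s))

/-- one planted transition -/
noncomputable def ghmStep (B : GhB S) (l : GhLv S ι) (ls : List (GhLv S ι)) :
    Kernel (S → ℝ) (ι → ℝ) :=
  Kernel.withDensity (Kernel.const (S → ℝ) (ghStd ι))
    (fun z ξ => ((ghD B l ls z ξ).toNNReal : ℝ≥0∞))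

/-- **the planted path law**, as a kernel in the starting field -/
noncomputable def ghmK (B : GhB S) : List (GhLv S ι) → Kernel (S → ℝ) (GhmΩ S ι)
  | [] => ghmK0 B
  | l :: ls => ((ghmStep B l ls) ⊗ₖ (Kernel.comap (ghmK B ls)
      (fun p : (S → ℝ) × (ι → ℝ) => p.1 + l.inc p.2) (ghm_meas_add_inc l))).map
      (fun p : (ι → ℝ) × GhmΩ S ι => (ghCons p.1 p.2.1, p.2.2))


instance ghm_step_sfinite (B : GhB S) (l : GhLv S ι) (ls : List (GhLv S ι)) :
    IsSFiniteKernel (ghmStep B l ls) := by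
  unfold ghmStep; infer_instance

instance ghm_K0_sfinite (B : GhB S) : IsSFiniteKernel (ghmK0 (ι := ι) B) := by
  unfold ghmK0; infer_instance

instance ghm_K_sfinite (B : GhB S) (ls : List (GhLv S ι)) : IsSFiniteKernel (ghmK B ls) := by
  cases ls with
  | nil => exact ghm_K0_sfinite B
  | cons l ls => simp only [ghmK]; infer_instance

/-! ### Gibbs weights -/

theorem ghm_Z_pos (B : GhB S) (hB : B.Ok) (z : S → ℝ) :
    0 < ∑ t, B.w t * Real.exp (B.a * z t) := by
  have h0 : ∀ t ∈ Finset.univ, 0 ≤ B.w t * Real.exp (B.a * z t) := fun t _ =>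
    mul_nonneg (hB.nonneg t) (Real.exp_pos _).le
  obtain ⟨t, ht⟩ : ∃ t, 0 < B.w t := by
    by_contra hcon
    push Not at hcon
    have : ∑ s, B.w s ≤ 0 := Finset.sum_nonpos (fun s _ => hcon s)
    rw [hB.sum] at this
    linarith
  exact Finset.sum_pos' h0 ⟨t, Finset.mem_univ t, mul_pos ht (Real.exp_pos _)⟩

theorem ghm_Gw_nonneg (B : GhB S) (hB : B.Ok) (z : S → ℝ) (s : S) : 0 ≤ ghGw B z s := by
  unfold ghGw
  exact div_nonneg (mul_nonneg (hB.nonneg s) (Real.exp_pos _).le) (ghm_Z_pos B hB z).le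

theorem ghm_Gw_sum (B : GhB S) (hB : B.Ok) (z : S → ℝ) : ∑ s, ghGw B z s = 1 := by
  unfold ghGw
  rw [← Finset.sum_div]
  exact div_self (ghm_Z_pos B hB z).ne'

/-! ### integrals against the pieces -/

theorem ghm_meas_Gw' (B : GhB S) :
    Measurable (Function.uncurry fun (z : S → ℝ) (s : S) => (ghGw B z s).toNNReal) := by
  apply measurable_from_prod_countable_left
  intro s
  exact (ghm_meas_Gw B s).real_toNNReal

theorem ghm_meas_D' (B : GhB S) (l : GhLv S ι) (ls : List (GhLv S ι)) :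
    Measurable (Function.uncurry fun (z : S → ℝ) (ξ : ι → ℝ) => (ghD B l ls z ξ).toNNReal) :=
  (ghm_meas_D B l ls).real_toNNReal

theorem ghm_meas_emb : Measurable (fun s : S => (((fun _ _ => 0 : ℕ → ι → ℝ), s) : GhmΩ S ι)) :=
  measurable_const.prodMk measurable_id

theorem ghm_meas_glue :
    Measurable (fun p : (ι → ℝ) × GhmΩ S ι => ((ghCons p.1 p.2.1, p.2.2) : GhmΩ S ι)) :=
  (ghm_meas_cons.comp (measurable_fst.prodMk (measurable_fst.comp measurable_snd))).prodMk
    (measurable_snd.comp measurable_snd)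

theorem ghm_integral_K0 (B : GhB S) (hB : B.Ok) (z : S → ℝ) (P : GhmΩ S ι → ℝ)
    (hP : Measurable P) :
    ∫ ω, P ω ∂(ghmK0 B z) = ∑ s, ghGw B z s * P ((fun _ _ => 0), s) := by
  unfold ghmK0
  rw [Kernel.map_apply _ ghm_meas_emb,
    integral_map_of_stronglyMeasurable ghm_meas_emb hP.stronglyMeasurable,
    Kernel.integral_withDensity (ghm_meas_Gw' B), Kernel.const_apply, integral_count]
  refine Finset.sum_congr rfl fun s _ => ?_
  rw [NNReal.smul_def, Real.coe_toNNReal _ (ghm_Gw_nonneg B hB z s), smul_eq_mul]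

theorem ghm_integral_step (B : GhB S) (l : GhLv S ι) (ls : List (GhLv S ι)) (z : S → ℝ)
    (f : (ι → ℝ) → ℝ) :
    ∫ ξ, f ξ ∂(ghmStep B l ls z) = ∫ ξ, ghD B l ls z ξ * f ξ ∂ghStd ι := by
  unfold ghmStep
  rw [Kernel.integral_withDensity (ghm_meas_D' B l ls), Kernel.const_apply]
  refine integral_congr_ae (ae_of_all _ fun ξ => ?_)
  simp only
  rw [NNReal.smul_def, Real.coe_toNNReal _ (ghm_D_pos B l ls z ξ).le, smul_eq_mul]

/-! ### normalisation -/

/-- the only analytic input: every transition density is integrable with integral `1` -/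
def GhmNorm (B : GhB S) : List (GhLv S ι) → Prop
  | [] => True
  | l :: ls => (∀ z, Integrable (ghD B l ls z) (ghStd ι) ∧ ∫ ξ, ghD B l ls z ξ ∂ghStd ι = 1) ∧
      GhmNorm B ls

theorem ghm_K0_markov (B : GhB S) (hB : B.Ok) : IsMarkovKernel (ghmK0 (ι := ι) B) := by
  refine ⟨fun z => ⟨?_⟩⟩
  unfold ghmK0
  rw [Kernel.map_apply _ ghm_meas_emb, Measure.map_apply ghm_meas_emb MeasurableSet.univ,
    Set.preimage_univ, Kernel.withDensity_apply _ (by
      exact measurable_coe_nnreal_ennreal.comp (ghm_meas_Gw' B)),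
    withDensity_apply _ MeasurableSet.univ, Measure.restrict_univ, Kernel.const_apply,
    lintegral_count]
  have : ∑ s, ((ghGw B z s).toNNReal : ℝ≥0∞) = ENNReal.ofReal (∑ s, ghGw B z s) := by
    rw [ENNReal.ofReal_sum_of_nonneg (fun s _ => ghm_Gw_nonneg B hB z s)]
    rfl
  rw [tsum_fintype, this, ghm_Gw_sum B hB z, ENNReal.ofReal_one]

theorem ghm_step_markov (B : GhB S) (l : GhLv S ι) (ls : List (GhLv S ι))
    (h : ∀ z, Integrable (ghD B l ls z) (ghStd ι) ∧ ∫ ξ, ghD B l ls z ξ ∂ghStd ι = 1) :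
    IsMarkovKernel (ghmStep B l ls) := by
  refine ⟨fun z => ⟨?_⟩⟩
  unfold ghmStep
  rw [Kernel.withDensity_apply _ (by
      exact measurable_coe_nnreal_ennreal.comp (ghm_meas_D' B l ls)),
    withDensity_apply _ MeasurableSet.univ, Measure.restrict_univ, Kernel.const_apply]
  have e : ∫⁻ ξ, ((ghD B l ls z ξ).toNNReal : ℝ≥0∞) ∂ghStd ι
      = ENNReal.ofReal (∫ ξ, ghD B l ls z ξ ∂ghStd ι) := by
    rw [ofReal_integral_eq_lintegral_ofReal (h z).1 (ae_of_all _ fun ξ => (ghm_D_pos B l ls z ξ).le)]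
    rfl
  rw [e, (h z).2, ENNReal.ofReal_one]

theorem ghm_markov (B : GhB S) (hB : B.Ok) (ls : List (GhLv S ι)) (h : GhmNorm B ls) :
    IsMarkovKernel (ghmK B ls) := by
  induction ls with
  | nil => exact ghm_K0_markov B hB
  | cons l ls ih =>
    have := ih h.2
    have := ghm_step_markov B l ls h.1
    simp only [ghmK]
    exact Kernel.IsMarkovKernel.map _ ghm_meas_glue


/-! ### the one-step formula and the identification with `ghPath` -/

/-- one-step decomposition of the path law -/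
theorem ghm_integral_cons (B : GhB S) (l : GhLv S ι) (ls : List (GhLv S ι)) (z : S → ℝ)
    (P : GhmΩ S ι → ℝ) (hPm : Measurable P) (hP : Integrable P (ghmK B (l :: ls) z)) :
    ∫ ω, P ω ∂(ghmK B (l :: ls) z) =
      ∫ ξ, (∫ ω', P (ghCons ξ ω'.1, ω'.2) ∂(ghmK B ls (z + l.inc ξ))) ∂(ghmStep B l ls z) := by
  simp only [ghmK] at hP ⊢
  rw [Kernel.map_apply _ ghm_meas_glue] at hP ⊢
  rw [integral_map_of_stronglyMeasurable ghm_meas_glue hPm.stronglyMeasurable]
  have hP' := (integrable_map_measure hPm.aestronglyMeasurable ghm_meas_glue.aemeasurable).mp hP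
  exact ProbabilityTheory.integral_compProd hP'

theorem ghm_integrable_cons (B : GhB S) (l : GhLv S ι) (ls : List (GhLv S ι)) (z : S → ℝ)
    (P : GhmΩ S ι → ℝ) (hPm : Measurable P) (hP : Integrable P (ghmK B (l :: ls) z)) :
    ∀ᵐ ξ ∂(ghmStep B l ls z),
      Integrable (fun ω' : GhmΩ S ι => P (ghCons ξ ω'.1, ω'.2)) (ghmK B ls (z + l.inc ξ)) := by
  simp only [ghmK] at hP
  rw [Kernel.map_apply _ ghm_meas_glue] at hP
  have hP' := (integrable_map_measure hPm.aestronglyMeasurable ghm_meas_glue.aemeasurable).mp hP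
  exact hP'.ae_of_compProd

theorem ghm_meas_sec (P : GhmΩ S ι → ℝ) (hPm : Measurable P) (ξ : ι → ℝ) :
    Measurable (fun ω' : GhmΩ S ι => P (ghCons ξ ω'.1, ω'.2)) :=
  hPm.comp (ghm_meas_glue.comp (measurable_const.prodMk measurable_id))

/-- **B2**: integrals against the path law are `ghPath` -/
theorem ghm_integral (B : GhB S) (hB : B.Ok) (ls : List (GhLv S ι)) (z : S → ℝ)
    (P : GhmΩ S ι → ℝ) (hPm : Measurable P) (hP : Integrable P (ghmK B ls z)) :
    ∫ ω, P ω ∂(ghmK B ls z) = ghPath B ls z (fun ξ s => P (ξ, s)) := by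
  induction ls generalizing z P with
  | nil => exact ghm_integral_K0 B hB z P hPm
  | cons l ls ih =>
    rw [ghm_integral_cons B l ls z P hPm hP]
    have h1 : ∫ ξ, (∫ ω', P (ghCons ξ ω'.1, ω'.2) ∂(ghmK B ls (z + l.inc ξ))) ∂(ghmStep B l ls z)
        = ∫ ξ, ghPath B ls (z + l.inc ξ) (fun η s => P (ghCons ξ η, s)) ∂(ghmStep B l ls z) := by
      refine integral_congr_ae ?_
      filter_upwards [ghm_integrable_cons B l ls z P hPm hP] with ξ hξ
      exact ih (z + l.inc ξ) _ (ghm_meas_sec P hPm ξ) hξ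
    rw [h1, ghm_integral_step]
    rfl

theorem ghm_integrable_of_bdd (B : GhB S) (hB : B.Ok) (ls : List (GhLv S ι)) (h : GhmNorm B ls)
    (z : S → ℝ) (P : GhmΩ S ι → ℝ) (hPm : Measurable P) (C : ℝ) (hC : ∀ ω, |P ω| ≤ C) :
    Integrable P (ghmK B ls z) := by
  have := ghm_markov B hB ls h
  exact Integrable.of_bound hPm.aestronglyMeasurable C (ae_of_all _ hC)

theorem ghm_integral_bdd (B : GhB S) (hB : B.Ok) (ls : List (GhLv S ι)) (h : GhmNorm B ls)
    (z : S → ℝ) (P : GhmΩ S ι → ℝ) (hPm : Measurable P) (C : ℝ) (hC : ∀ ω, |P ω| ≤ C) :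
    ∫ ω, P ω ∂(ghmK B ls z) = ghPath B ls z (fun ξ s => P (ξ, s)) :=
  ghm_integral B hB ls z P hPm (ghm_integrable_of_bdd B hB ls h z P hPm C hC)

end Claimed.Agent.R286
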