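import Claimed.Agent.R286.Defs.GhBasic
import Claimed.Agent.R286.Lib.GhMeas

/-!
# Row 286: filtration, conditional expectations and martingales of the planted path

`μ = ghmK B ls z` (law of drivers and spin of one planted path, `Lib/GhMeas`).

* `ghmTr t ξ`, `ghmSpl t ξ η` : truncation / splicing of driver sequences;
* `ghmE B ls z t P ξ`  : conditional expectation of the test `P` given the first `t` drivers, as an explicit function;
* `ghm_tower`          : `∫ g(first t drivers) P = ∫ g(first t drivers) E_t P`;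
* `ghmFil N`           : the filtration (first `t` drivers for `t ≤ N`, everything afterwards);
* `ghm_condExp`        : `μ[P | ghmFil N t] = E_t P` a.e.;
* `ghm_martingale`     : `t ↦ ghE B (ls.drop t) Φ (z + ghPre ls ξ t)`, ending at `Φ σ`, is a Mathlib `Martingale`.
-/

set_option autoImplicit false
set_option linter.unusedSectionVars false

namespace Claimed.Agent.R286

open MeasureTheory ProbabilityTheory
open scoped ENNReal NNReal

variable {S ι : Type} [Fintype S] [Fintype ι]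

theorem ghm_norm_of_nn {B : GhB S} (hB : B.Ok) : ∀ {ls : List (GhLv S ι)}, GhNn ls → GhmNorm B ls
  | [], _ => trivial
  | l :: _, h => ⟨fun z => ⟨gh_b_D_integrable hB h.tail l z, gh_b_D_integral hB h.tail l z⟩,
      ghm_norm_of_nn hB h.tail⟩

theorem ghm_nn_drop {ls : List (GhLv S ι)} (h : GhNn ls) (t : ℕ) : GhNn (ls.drop t) :=
  fun l hl => h l (List.mem_of_mem_drop hl)

/-! ### truncation and splicing -/

/-- keep the first `t` drivers -/
def ghmTr (t : ℕ) (ξ : ℕ → ι → ℝ) : ℕ → ι → ℝ := fun j => if j < t then ξ j else 0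

/-- the first `t` drivers of `ξ`, then `η` -/
def ghmSpl (t : ℕ) (ξ η : ℕ → ι → ℝ) : ℕ → ι → ℝ := fun j => if j < t then ξ j else η (j - t)

theorem ghmTr_zero (ξ : ℕ → ι → ℝ) : ghmTr 0 ξ = 0 := by
  funext j; simp [ghmTr]

theorem ghmSpl_zero (ξ η : ℕ → ι → ℝ) : ghmSpl 0 ξ η = η := by
  funext j; simp [ghmSpl]

theorem ghmTr_succ_cons (t : ℕ) (x : ι → ℝ) (ξ : ℕ → ι → ℝ) :
    ghmTr (t + 1) (ghCons x ξ) = ghCons x (ghmTr t ξ) := by
  funext j
  cases j with
  | zero => simp [ghmTr, ghCons]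
  | succ j => simp [ghmTr, ghCons]

theorem ghmSpl_succ_cons (t : ℕ) (x : ι → ℝ) (ξ η : ℕ → ι → ℝ) :
    ghmSpl (t + 1) (ghCons x ξ) η = ghCons x (ghmSpl t ξ η) := by
  funext j
  cases j with
  | zero => simp [ghmSpl, ghCons]
  | succ j => simp [ghmSpl, ghCons]

theorem ghmTr_tr (s t : ℕ) (hst : s ≤ t) (ξ : ℕ → ι → ℝ) : ghmTr s (ghmTr t ξ) = ghmTr s ξ := by
  funext j
  simp only [ghmTr]
  by_cases h : j < s
  · simp [h, lt_of_lt_of_le h hst]
  · simp [h]

theorem ghmSpl_tr (t : ℕ) (ξ η : ℕ → ι → ℝ) : ghmSpl t (ghmTr t ξ) η = ghmSpl t ξ η := by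
  funext j
  simp only [ghmSpl, ghmTr]
  by_cases h : j < t <;> simp [h]

theorem ghmSpl_zero_zero (t : ℕ) : ghmSpl t (0 : ℕ → ι → ℝ) 0 = 0 := by
  funext j
  simp only [ghmSpl]
  by_cases h : j < t <;> simp [h]

theorem ghm_pre_zero (ls : List (GhLv S ι)) (ξ : ℕ → ι → ℝ) : ghPre ls ξ 0 = 0 := by
  simp [ghPre, ghSum]

theorem ghm_pre_nil (ξ : ℕ → ι → ℝ) (t : ℕ) : ghPre ([] : List (GhLv S ι)) ξ t = 0 := by
  simp [ghPre, ghSum]

theorem ghm_pre_succ_cons (l : GhLv S ι) (ls : List (GhLv S ι)) (x : ι → ℝ) (ξ : ℕ → ι → ℝ)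
    (t : ℕ) : ghPre (l :: ls) (ghCons x ξ) (t + 1) = l.inc x + ghPre ls ξ t := by
  simp only [ghPre, List.take_succ_cons, ghSum]
  rfl

theorem ghm_pre_succ (l : GhLv S ι) (ls : List (GhLv S ι)) (ξ : ℕ → ι → ℝ) (t : ℕ) :
    ghPre (l :: ls) ξ (t + 1) = l.inc (ξ 0) + ghPre ls (fun j => ξ (j + 1)) t := by
  simp only [ghPre, List.take_succ_cons, ghSum]

theorem ghm_pre_tr (ls : List (GhLv S ι)) (t : ℕ) (ξ : ℕ → ι → ℝ) :
    ghPre ls (ghmTr t ξ) t = ghPre ls ξ t := by
  induction ls generalizing t ξ with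
  | nil => rw [ghm_pre_nil, ghm_pre_nil]
  | cons l ls ih =>
    cases t with
    | zero => rw [ghm_pre_zero, ghm_pre_zero]
    | succ t =>
      rw [ghm_pre_succ, ghm_pre_succ]
      have e1 : ghmTr (t + 1) ξ 0 = ξ 0 := by simp [ghmTr]
      have e2 : (fun j => ghmTr (t + 1) ξ (j + 1)) = ghmTr t (fun j => ξ (j + 1)) := by
        funext j; simp [ghmTr]
      rw [e1, e2, ih]

/-! ### measurability -/

theorem ghm_meas_tr (t : ℕ) : Measurable (ghmTr (ι := ι) t) := by
  rw [measurable_pi_iff]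
  intro j
  simp only [ghmTr]
  by_cases h : j < t
  · simp only [h, if_true]; exact measurable_pi_apply j
  · simp only [h, if_false]; exact measurable_const

theorem ghm_meas_spl (t : ℕ) :
    Measurable (fun p : (ℕ → ι → ℝ) × (ℕ → ι → ℝ) => ghmSpl t p.1 p.2) := by
  rw [measurable_pi_iff]
  intro j
  simp only [ghmSpl]
  by_cases h : j < t
  · simp only [h, if_true]; exact (measurable_pi_apply j).comp measurable_fst
  · simp only [h, if_false]; exact (measurable_pi_apply (j - t)).comp measurable_snd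

theorem ghm_meas_sum (ls : List (GhLv S ι)) : Measurable (ghSum ls) := by
  induction ls with
  | nil => exact measurable_const
  | cons l ls ih =>
    have e : ghSum (l :: ls) = fun ξ => l.inc (ξ 0) + ghSum ls fun j => ξ (j + 1) := by
      funext ξ; rfl
    rw [e]
    refine ((ghm_meas_inc l).comp (measurable_pi_apply 0)).add (ih.comp ?_)
    rw [measurable_pi_iff]
    exact fun j => measurable_pi_apply (j + 1)

theorem ghm_meas_pre (ls : List (GhLv S ι)) (t : ℕ) : Measurable (fun ξ => ghPre ls ξ t) :=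
  ghm_meas_sum _


/-! ### explicit conditional expectations -/

variable [MeasurableSpace S] [MeasurableSingletonClass S]

/-- conditional expectation of the test `P` given the first `t` drivers -/
noncomputable def ghmE (B : GhB S) (ls : List (GhLv S ι)) (z : S → ℝ) (t : ℕ) (P : GhmΩ S ι → ℝ)
    (ξ : ℕ → ι → ℝ) : ℝ :=
  ∫ ω', P (ghmSpl t ξ ω'.1, ω'.2) ∂(ghmK B (ls.drop t) (z + ghPre ls ξ t))

theorem ghmE_tr (B : GhB S) (ls : List (GhLv S ι)) (z : S → ℝ) (t : ℕ) (P : GhmΩ S ι → ℝ)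
    (ξ : ℕ → ι → ℝ) : ghmE B ls z t P (ghmTr t ξ) = ghmE B ls z t P ξ := by
  unfold ghmE
  simp only [ghmSpl_tr, ghm_pre_tr]

theorem ghm_meas_E (B : GhB S) (ls : List (GhLv S ι)) (z : S → ℝ) (t : ℕ) (P : GhmΩ S ι → ℝ)
    (hPm : Measurable P) : Measurable (ghmE B ls z t P) := by
  have hg : Measurable (fun ξ : ℕ → ι → ℝ => z + ghPre ls ξ t) :=
    measurable_const.add (ghm_meas_pre ls t)
  have hf : Measurable (fun p : (ℕ → ι → ℝ) × GhmΩ S ι => P (ghmSpl t p.1 p.2.1, p.2.2)) :=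
    hPm.comp (((ghm_meas_spl t).comp (measurable_fst.prodMk
      (measurable_fst.comp measurable_snd))).prodMk (measurable_snd.comp measurable_snd))
  have := hf.stronglyMeasurable.integral_kernel_prod_right'
    (κ := Kernel.comap (ghmK B (ls.drop t)) _ hg)
  exact this.measurable

theorem ghmE_abs_le {B : GhB S} (hB : B.Ok) {ls : List (GhLv S ι)} (hn : GhNn ls) (z : S → ℝ)
    (t : ℕ) (P : GhmΩ S ι → ℝ) (C : ℝ) (hC : ∀ ω, |P ω| ≤ C) (ξ : ℕ → ι → ℝ) :
    |ghmE B ls z t P ξ| ≤ C := by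
  have := ghm_markov B hB (ls.drop t) (ghm_norm_of_nn hB (ghm_nn_drop hn t))
  unfold ghmE
  have h := norm_integral_le_of_norm_le_const (μ := ghmK B (ls.drop t) (z + ghPre ls ξ t))
    (f := fun ω' => P (ghmSpl t ξ ω'.1, ω'.2)) (C := C) (ae_of_all _ fun ω' => hC _)
  simpa using h

theorem ghmE_zero (B : GhB S) (ls : List (GhLv S ι)) (z : S → ℝ) (P : GhmΩ S ι → ℝ)
    (ξ : ℕ → ι → ℝ) : ghmE B ls z 0 P ξ = ∫ ω, P ω ∂(ghmK B ls z) := by
  unfold ghmE
  simp only [ghmSpl_zero, ghm_pre_zero, add_zero, List.drop_zero]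

theorem ghmE_succ_cons (B : GhB S) (l : GhLv S ι) (ls : List (GhLv S ι)) (z : S → ℝ) (t : ℕ)
    (P : GhmΩ S ι → ℝ) (x : ι → ℝ) (ξ : ℕ → ι → ℝ) :
    ghmE B (l :: ls) z (t + 1) P (ghCons x ξ) =
      ghmE B ls (z + l.inc x) t (fun ω' => P (ghCons x ω'.1, ω'.2)) ξ := by
  unfold ghmE
  simp only [ghmSpl_succ_cons, ghm_pre_succ_cons, List.drop_succ_cons, add_assoc]

/-- **tower / Markov property** of the planted path -/
theorem ghm_tower {B : GhB S} (hB : B.Ok) {ls : List (GhLv S ι)} (hn : GhNn ls) (z : S → ℝ)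
    (t : ℕ) (g : (ℕ → ι → ℝ) → ℝ) (hgm : Measurable g) (Cg : ℝ) (hg : ∀ ξ, |g ξ| ≤ Cg)
    (P : GhmΩ S ι → ℝ) (hPm : Measurable P) (C : ℝ) (hC : ∀ ω, |P ω| ≤ C) :
    ∫ ω, g (ghmTr t ω.1) * P ω ∂(ghmK B ls z) =
      ∫ ω, g (ghmTr t ω.1) * ghmE B ls z t P ω.1 ∂(ghmK B ls z) := by
  induction t generalizing ls z g P with
  | zero =>
    have := ghm_markov B hB ls (ghm_norm_of_nn hB hn)
    simp only [ghmTr_zero, ghmE_zero]
    rw [integral_const_mul, integral_const]
    simp
  | succ t ih =>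
    cases ls with
    | nil =>
      have hm1 : Measurable (fun ω : GhmΩ S ι => g (ghmTr (t + 1) ω.1) * P ω) :=
        (hgm.comp ((ghm_meas_tr _).comp measurable_fst)).mul hPm
      have hm2 : Measurable (fun ω : GhmΩ S ι =>
          g (ghmTr (t + 1) ω.1) * ghmE B [] z (t + 1) P ω.1) :=
        (hgm.comp ((ghm_meas_tr _).comp measurable_fst)).mul
          ((ghm_meas_E B [] z (t + 1) P hPm).comp measurable_fst)
      have e0 : ghmK B ([] : List (GhLv S ι)) = ghmK0 B := rfl
      rw [e0, ghm_integral_K0 B hB z _ hm1, ghm_integral_K0 B hB z _ hm2]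
      have e1 : ghmE B [] z (t + 1) P (fun _ _ => 0) = ∑ s, ghGw B z s * P ((fun _ _ => 0), s) := by
        unfold ghmE
        simp only [List.drop_nil, ghm_pre_nil, add_zero]
        have hm3 : Measurable (fun ω' : GhmΩ S ι =>
            P (ghmSpl (t + 1) (fun _ _ => 0) ω'.1, ω'.2)) :=
          hPm.comp (((ghm_meas_spl (t + 1)).comp
            (measurable_const.prodMk measurable_fst)).prodMk measurable_snd)
        rw [e0, ghm_integral_K0 B hB z _ hm3]
        have : ghmSpl (t + 1) (fun _ _ => 0 : ℕ → ι → ℝ) (fun _ _ => 0) = fun _ _ => 0 :=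
          ghmSpl_zero_zero (t + 1)
        simp only [this]
      simp only [e1]
      rw [← Finset.sum_mul, ghm_Gw_sum B hB z, one_mul, Finset.mul_sum]
      exact Finset.sum_congr rfl fun s _ => by ring
    | cons l ls =>
      have hnorm := ghm_norm_of_nn hB hn
      have hm1 : Measurable (fun ω : GhmΩ S ι => g (ghmTr (t + 1) ω.1) * P ω) :=
        (hgm.comp ((ghm_meas_tr _).comp measurable_fst)).mul hPm
      have hm2 : Measurable (fun ω : GhmΩ S ι =>
          g (ghmTr (t + 1) ω.1) * ghmE B (l :: ls) z (t + 1) P ω.1) :=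
        (hgm.comp ((ghm_meas_tr _).comp measurable_fst)).mul
          ((ghm_meas_E B (l :: ls) z (t + 1) P hPm).comp measurable_fst)
      have hCg : 0 ≤ Cg := (abs_nonneg _).trans (hg 0)
      have hb1 : ∀ ω : GhmΩ S ι, |g (ghmTr (t + 1) ω.1) * P ω| ≤ Cg * C := fun ω => by
        rw [abs_mul]; exact mul_le_mul (hg _) (hC _) (abs_nonneg _) hCg
      have hb2 : ∀ ω : GhmΩ S ι,
          |g (ghmTr (t + 1) ω.1) * ghmE B (l :: ls) z (t + 1) P ω.1| ≤ Cg * C := fun ω => by
        rw [abs_mul]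
        exact mul_le_mul (hg _) (ghmE_abs_le hB hn z (t + 1) P C hC _) (abs_nonneg _) hCg
      rw [ghm_integral_cons B l ls z _ hm1
          (ghm_integrable_of_bdd B hB _ hnorm z _ hm1 _ hb1),
        ghm_integral_cons B l ls z _ hm2 (ghm_integrable_of_bdd B hB _ hnorm z _ hm2 _ hb2)]
      refine integral_congr_ae (ae_of_all _ fun x => ?_)
      simp only [ghmTr_succ_cons, ghmE_succ_cons]
      exact ih hn.tail (z + l.inc x) (fun η => g (ghCons x η))
        (hgm.comp (ghm_meas_cons.comp (measurable_const.prodMk measurable_id)))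
        (fun η => hg _) (fun ω' => P (ghCons x ω'.1, ω'.2)) (ghm_meas_sec P hPm x) (fun ω' => hC _)


/-! ### the filtration -/

/-- the σ-algebra of the first `t` drivers -/
@[instance_reducible] def ghmSig (S ι : Type) [MeasurableSpace S] (t : ℕ) : MeasurableSpace (GhmΩ S ι) :=
  MeasurableSpace.comap (fun ω : GhmΩ S ι => ghmTr t ω.1) inferInstance

theorem ghmSig_le (t : ℕ) : ghmSig S ι t ≤ (inferInstance : MeasurableSpace (GhmΩ S ι)) :=
  ((ghm_meas_tr t).comp measurable_fst).comap_le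

theorem ghmSig_mono {s t : ℕ} (hst : s ≤ t) : ghmSig S ι s ≤ ghmSig S ι t := by
  unfold ghmSig
  have : (fun ω : GhmΩ S ι => ghmTr s ω.1) = (ghmTr s) ∘ (fun ω : GhmΩ S ι => ghmTr t ω.1) := by
    funext ω; simp [ghmTr_tr s t hst]
  rw [this, ← MeasurableSpace.comap_comp]
  exact MeasurableSpace.comap_mono (ghm_meas_tr s).comap_le

/-- **the filtration** of a planted path with `N` levels: the first `t` drivers for `t ≤ N`, everything
(in particular the terminal spin) for `t > N` -/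
def ghmFil (S ι : Type) [Fintype S] [Fintype ι] [MeasurableSpace S] [MeasurableSingletonClass S]
    (N : ℕ) :
    Filtration ℕ (inferInstance : MeasurableSpace (GhmΩ S ι)) where
  seq t := if t ≤ N then ghmSig S ι t else inferInstance
  mono' := by
    intro s t hst
    by_cases ht : t ≤ N
    · have hs : s ≤ N := hst.trans ht
      simp only [hs, ht, if_true]
      exact ghmSig_mono hst
    · simp only [ht, if_false]
      by_cases hs : s ≤ N
      · simp only [hs, if_true]; exact ghmSig_le s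
      · simp only [hs, if_false]; exact le_rfl
  le' := by
    intro t
    by_cases ht : t ≤ N
    · simp only [ht, if_true]; exact ghmSig_le t
    · simp only [ht, if_false]; exact le_rfl

theorem ghmFil_of_le {N t : ℕ} (ht : t ≤ N) : ghmFil S ι N t = ghmSig S ι t := if_pos ht

theorem ghmFil_of_lt {N t : ℕ} (ht : N < t) :
    ghmFil S ι N t = (inferInstance : MeasurableSpace (GhmΩ S ι)) := if_neg (not_le.mpr ht)

/-- a function of the first `t` drivers is measurable for `ghmSig t` -/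
theorem ghm_sig_meas (t : ℕ) (h : (ℕ → ι → ℝ) → ℝ) (hh : Measurable h) :
    Measurable[ghmSig S ι t] (fun ω : GhmΩ S ι => h (ghmTr t ω.1)) :=
  hh.comp (comap_measurable _)

/-- **B3**: the conditional expectation given the first `t` drivers is `ghmE` -/
theorem ghm_condExp_sig {B : GhB S} (hB : B.Ok) {ls : List (GhLv S ι)} (hn : GhNn ls) (z : S → ℝ)
    (t : ℕ) (P : GhmΩ S ι → ℝ) (hPm : Measurable P) (C : ℝ) (hC : ∀ ω, |P ω| ≤ C) :
    (ghmK B ls z)[P|ghmSig S ι t] =ᵐ[ghmK B ls z] fun ω => ghmE B ls z t P ω.1 := by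
  have hnorm := ghm_norm_of_nn hB hn
  have := ghm_markov B hB ls hnorm
  have hEm : Measurable (fun ω : GhmΩ S ι => ghmE B ls z t P ω.1) :=
    (ghm_meas_E B ls z t P hPm).comp measurable_fst
  have hEi : Integrable (fun ω : GhmΩ S ι => ghmE B ls z t P ω.1) (ghmK B ls z) :=
    ghm_integrable_of_bdd B hB ls hnorm z _ hEm C (fun ω => ghmE_abs_le hB hn z t P C hC _)
  have hPi : Integrable P (ghmK B ls z) := ghm_integrable_of_bdd B hB ls hnorm z _ hPm C hC
  symm
  refine ae_eq_condExp_of_forall_setIntegral_eq (ghmSig_le t) hPi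
    (fun s _ _ => hEi.integrableOn) ?_ ?_
  · intro s hs _
    obtain ⟨s', hs', rfl⟩ := MeasurableSpace.measurableSet_comap.mp hs
    have hsm : MeasurableSet ((fun ω : GhmΩ S ι => ghmTr t ω.1) ⁻¹' s') :=
      ((ghm_meas_tr t).comp measurable_fst) hs'
    rw [← integral_indicator hsm, ← integral_indicator hsm]
    have key := ghm_tower hB hn z t (s'.indicator fun _ => (1 : ℝ))
      (measurable_const.indicator hs') 1
      (fun ξ => by
        by_cases h : ξ ∈ s' <;> simp [h]) P hPm C hC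
    have e1 : ∀ F : GhmΩ S ι → ℝ, ((fun ω : GhmΩ S ι => ghmTr t ω.1) ⁻¹' s').indicator F
        = fun ω => (s'.indicator fun _ => (1 : ℝ)) (ghmTr t ω.1) * F ω := by
      intro F
      funext ω
      by_cases h : ghmTr t ω.1 ∈ s'
      · simp [Set.indicator, h]
      · simp [Set.indicator, h]
    rw [e1, e1]
    exact key.symm
  · have e : (fun ω : GhmΩ S ι => ghmE B ls z t P ω.1)
        = fun ω => ghmE B ls z t P (ghmTr t ω.1) := by
      funext ω; rw [ghmE_tr]
    rw [e]
    exact (ghm_sig_meas t _ (ghm_meas_E B ls z t P hPm)).stronglyMeasurable.aestronglyMeasurable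

theorem ghm_condExp {B : GhB S} (hB : B.Ok) {ls : List (GhLv S ι)} (hn : GhNn ls) (z : S → ℝ)
    {N t : ℕ} (ht : t ≤ N) (P : GhmΩ S ι → ℝ) (hPm : Measurable P) (C : ℝ)
    (hC : ∀ ω, |P ω| ≤ C) :
    (ghmK B ls z)[P|ghmFil S ι N t] =ᵐ[ghmK B ls z] fun ω => ghmE B ls z t P ω.1 := by
  rw [ghmFil_of_le ht]
  exact ghm_condExp_sig hB hn z t P hPm C hC

/-! ### the martingale of conditional means -/

theorem ghm_path_spin (B : GhB S) (ls : List (GhLv S ι)) (z : S → ℝ) (Φ : S → ℝ) :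
    ghPath B ls z (fun _ s => Φ s) = ghE B ls Φ z := by
  induction ls generalizing z with
  | nil => rfl
  | cons l ls ih =>
    simp only [ghPath, ghE]
    refine integral_congr_ae (ae_of_all _ fun ξ => ?_)
    simp only
    rw [ih]

theorem ghmE_spin {B : GhB S} (hB : B.Ok) {ls : List (GhLv S ι)} (hn : GhNn ls) (z : S → ℝ)
    (t : ℕ) (Φ : S → ℝ) (ξ : ℕ → ι → ℝ) :
    ghmE B ls z t (fun ω => Φ ω.2) ξ = ghE B (ls.drop t) Φ (z + ghPre ls ξ t) := by
  unfold ghmE
  have hΦ : Measurable (fun ω : GhmΩ S ι => Φ ω.2) := (measurable_of_finite Φ).comp measurable_snd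
  rw [ghm_integral_bdd B hB _ (ghm_norm_of_nn hB (ghm_nn_drop hn t)) _ _ hΦ
    (∑ s, |Φ s|) (fun ω => Finset.single_le_sum (f := fun s => |Φ s|) (fun s _ => abs_nonneg _)
      (Finset.mem_univ ω.2))]
  exact ghm_path_spin B _ _ Φ

/-- the process of planted conditional means of the spin observable `Φ` -/
noncomputable def ghmM (B : GhB S) (ls : List (GhLv S ι)) (z : S → ℝ) (Φ : S → ℝ) (t : ℕ)
    (ω : GhmΩ S ι) : ℝ :=
  if t ≤ ls.length then ghE B (ls.drop t) Φ (z + ghPre ls ω.1 t) else Φ ω.2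

/-- **the conditional means form a martingale** (ending at `Φ σ` at time `length + 1`) -/
theorem ghm_martingale {B : GhB S} (hB : B.Ok) {ls : List (GhLv S ι)} (hn : GhNn ls) (z : S → ℝ)
    (Φ : S → ℝ) : Martingale (ghmM B ls z Φ) (ghmFil S ι ls.length) (ghmK B ls z) := by
  have hnorm := ghm_norm_of_nn hB hn
  have := ghm_markov B hB ls hnorm
  have hΦ : Measurable (fun ω : GhmΩ S ι => Φ ω.2) := (measurable_of_finite Φ).comp measurable_snd
  have hΦb : ∀ ω : GhmΩ S ι, |Φ ω.2| ≤ ∑ s, |Φ s| := fun ω =>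
    Finset.single_le_sum (f := fun s => |Φ s|) (fun s _ => abs_nonneg _) (Finset.mem_univ ω.2)
  have hΦi : Integrable (fun ω : GhmΩ S ι => Φ ω.2) (ghmK B ls z) :=
    ghm_integrable_of_bdd B hB ls hnorm z _ hΦ _ hΦb
  refine (martingale_condExp (fun ω : GhmΩ S ι => Φ ω.2) (ghmFil S ι ls.length)
    (ghmK B ls z)).congr ?_ ?_
  · intro t
    by_cases ht : t ≤ ls.length
    · rw [ghmFil_of_le ht]
      have e : ghmM B ls z Φ t = fun ω => ghmE B ls z t (fun ω => Φ ω.2) (ghmTr t ω.1) := by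
        funext ω
        rw [ghmE_tr, ghmE_spin hB hn]
        simp [ghmM, ht]
      rw [e]
      exact (ghm_sig_meas t _ (ghm_meas_E B ls z t _ hΦ)).stronglyMeasurable
    · rw [ghmFil_of_lt (not_le.mp ht)]
      have e : ghmM B ls z Φ t = fun ω => Φ ω.2 := by
        funext ω; simp [ghmM, ht]
      rw [e]
      exact hΦ.stronglyMeasurable
  · intro t
    by_cases ht : t ≤ ls.length
    · filter_upwards [ghm_condExp hB hn z ht _ hΦ _ hΦb] with ω hω
      rw [hω, ghmE_spin hB hn]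
      simp [ghmM, ht]
    · have e : ghmM B ls z Φ t = fun ω => Φ ω.2 := by
        funext ω; simp [ghmM, ht]
      rw [e, ghmFil_of_lt (not_le.mp ht)]
      rw [condExp_of_stronglyMeasurable le_rfl hΦ.stronglyMeasurable hΦi]

end Claimed.Agent.R286
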