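import Mathlib

/-!
# Helly's selection theorem (row 286, paper-free box)

* `sk_helly_countable` : diagonal extraction on a countable index set.
* `sk_helly`           : a uniformly bounded sequence of monotone functions `ℝ → ℝ` has a
                         subsequence converging at EVERY point to a monotone function.
* `sk_helly_on`        : the same for functions monotone on a set `s`.
* `sk_helly_L1`        : in addition the subsequence converges in `L¹(s, μ)` when `μ s < ∞`.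
-/

set_option autoImplicit false
open MeasureTheory Filter Topology Set

namespace Claimed.Agent.R286

/-- Diagonal extraction: a uniformly bounded sequence of real functions on a countable type has a
pointwise convergent subsequence. -/
theorem sk_helly_countable {ι : Type*} [Countable ι] (f : ℕ → ι → ℝ) (a b : ℝ)
    (hbd : ∀ n i, f n i ∈ Icc a b) :
    ∃ (φ : ℕ → ℕ) (g : ι → ℝ), StrictMono φ ∧ (∀ i, g i ∈ Icc a b) ∧
      ∀ i, Tendsto (fun k => f (φ k) i) atTop (𝓝 (g i)) := by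
  have hK : IsCompact (Set.pi univ (fun _ : ι => Icc a b)) :=
    isCompact_univ_pi (fun _ => isCompact_Icc)
  obtain ⟨g, hg, φ, hφ, hlim⟩ := hK.tendsto_subseq (x := f) (fun n i _ => hbd n i)
  refine ⟨φ, g, hφ, fun i => hg i (mem_univ i), fun i => ?_⟩
  exact (tendsto_pi_nhds.1 hlim) i

/-- **Helly's selection theorem**, everywhere-convergent form. -/
theorem sk_helly (f : ℕ → ℝ → ℝ) (a b : ℝ) (hm : ∀ n, Monotone (f n))
    (hbd : ∀ n x, f n x ∈ Icc a b) :
    ∃ (φ : ℕ → ℕ) (g : ℝ → ℝ), StrictMono φ ∧ Monotone g ∧ (∀ x, g x ∈ Icc a b) ∧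
      ∀ x, Tendsto (fun k => f (φ k) x) atTop (𝓝 (g x)) := by
  -- first extraction: rationals
  obtain ⟨φ₁, g₁, hφ₁, hg₁, hlim₁⟩ :=
    sk_helly_countable (fun n (q : ℚ) => f n (q : ℝ)) a b (fun n q => hbd n q)
  have hg₁m : Monotone g₁ := by
    intro p q hpq
    exact le_of_tendsto_of_tendsto' (hlim₁ p) (hlim₁ q)
      (fun k => hm _ (by exact_mod_cast hpq))
  -- the right-continuous envelope
  set F : ℝ → ℝ := fun x => ⨅ q : {q : ℚ // x < (q : ℝ)}, g₁ q with hF
  have hne : ∀ x : ℝ, Nonempty {q : ℚ // x < (q : ℝ)} := fun x => by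
    obtain ⟨q, hq⟩ := exists_rat_gt x
    exact ⟨⟨q, hq⟩⟩
  have hbdd : ∀ x : ℝ, BddBelow (range fun q : {q : ℚ // x < (q : ℝ)} => g₁ q) := fun x =>
    ⟨a, by rintro _ ⟨q, rfl⟩; exact (hg₁ q).1⟩
  have hFle : ∀ (x : ℝ) (q : ℚ), x < (q : ℝ) → F x ≤ g₁ q := fun x q hq =>
    ciInf_le (hbdd x) (⟨q, hq⟩ : {q : ℚ // x < (q : ℝ)})
  have hleF : ∀ (x : ℝ) (q : ℚ), (q : ℝ) ≤ x → g₁ q ≤ F x := fun x q hq => by
    have := hne x
    refine le_ciInf fun p => hg₁m ?_
    have : (q : ℝ) < (p.1 : ℝ) := lt_of_le_of_lt hq p.2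
    exact_mod_cast this.le
  have hFm : Monotone F := by
    intro x y hxy
    have := hne y
    exact le_ciInf fun p => hFle x p.1 (lt_of_le_of_lt hxy p.2)
  -- convergence at continuity points of `F`
  have hcont : ∀ x, ContinuousAt F x → Tendsto (fun k => f (φ₁ k) x) atTop (𝓝 (F x)) := by
    intro x hx
    rw [Metric.tendsto_atTop]
    intro ε hε
    obtain ⟨δ, hδ, hδF⟩ := Metric.continuousAt_iff.1 hx (ε / 2) (half_pos hε)
    obtain ⟨q₁, hq₁a, hq₁b⟩ := exists_rat_btwn (show x - δ / 2 < x by linarith)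
    obtain ⟨q₂, hq₂a, hq₂b⟩ := exists_rat_btwn (show x < x + δ / 2 by linarith)
    have h1 : F x - ε / 2 < g₁ q₁ := by
      have hd : dist (x - δ / 2) x < δ := by
        rw [Real.dist_eq, abs_lt]; constructor <;> linarith
      have := hδF hd
      rw [Real.dist_eq, abs_lt] at this
      have h2 := hFle (x - δ / 2) q₁ hq₁a
      linarith [this.1]
    have h2 : g₁ q₂ < F x + ε / 2 := by
      have hd : dist (x + δ / 2) x < δ := by
        rw [Real.dist_eq, abs_lt]; constructor <;> linarith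
      have := hδF hd
      rw [Real.dist_eq, abs_lt] at this
      have h2 := hleF (x + δ / 2) q₂ hq₂b.le
      linarith [this.2]
    have e1 : ∀ᶠ k in atTop, F x - ε / 2 < f (φ₁ k) (q₁ : ℝ) :=
      (hlim₁ q₁).eventually (lt_mem_nhds h1)
    have e2 : ∀ᶠ k in atTop, f (φ₁ k) (q₂ : ℝ) < F x + ε / 2 :=
      (hlim₁ q₂).eventually (gt_mem_nhds h2)
    obtain ⟨N, hN⟩ := eventually_atTop.1 (e1.and e2)
    refine ⟨N, fun k hk => ?_⟩
    obtain ⟨u1, u2⟩ := hN k hk
    have m1 := hm (φ₁ k) hq₁b.le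
    have m2 := hm (φ₁ k) hq₂a.le
    rw [Real.dist_eq, abs_lt]
    constructor <;> linarith
  -- second extraction: the countably many discontinuities
  have hC : Set.Countable {x | ¬ContinuousAt F x} := hFm.countable_not_continuousAt
  have : Countable {x | ¬ContinuousAt F x} := hC.to_subtype
  obtain ⟨φ₂, g₂, hφ₂, hg₂, hlim₂⟩ :=
    sk_helly_countable (fun k (x : {x | ¬ContinuousAt F x}) => f (φ₁ k) (x : ℝ)) a b
      (fun k x => hbd _ _)
  classical
  set g : ℝ → ℝ := fun x => if h : ¬ContinuousAt F x then g₂ ⟨x, h⟩ else F x with hg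
  have hlim : ∀ x, Tendsto (fun k => f (φ₁ (φ₂ k)) x) atTop (𝓝 (g x)) := by
    intro x
    by_cases h : ¬ContinuousAt F x
    · have : g x = g₂ ⟨x, h⟩ := by simp only [hg, dif_pos h]
      rw [this]
      exact hlim₂ ⟨x, h⟩
    · have : g x = F x := by simp only [hg, dif_neg h]
      rw [this]
      exact (hcont x (not_not.1 h)).comp hφ₂.tendsto_atTop
  refine ⟨φ₁ ∘ φ₂, g, hφ₁.comp hφ₂, ?_, ?_, hlim⟩
  · intro x y hxy
    exact le_of_tendsto_of_tendsto' (hlim x) (hlim y) (fun k => hm _ hxy)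
  · intro x
    exact isClosed_Icc.mem_of_tendsto (hlim x) (Eventually.of_forall fun k => hbd _ _)

/-- Helly's selection theorem for functions that are monotone on a set `s`. -/
theorem sk_helly_on (s : Set ℝ) (f : ℕ → ℝ → ℝ) (a b : ℝ) (hm : ∀ n, MonotoneOn (f n) s)
    (hbd : ∀ n, ∀ x ∈ s, f n x ∈ Icc a b) :
    ∃ (φ : ℕ → ℕ) (g : ℝ → ℝ), StrictMono φ ∧ Monotone g ∧ (∀ x ∈ s, g x ∈ Icc a b) ∧
      ∀ x ∈ s, Tendsto (fun k => f (φ k) x) atTop (𝓝 (g x)) := by
  rcases s.eq_empty_or_nonempty with rfl | ⟨x₀, hx₀⟩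
  · exact ⟨id, fun _ => 0, strictMono_id, monotone_const, by simp, by simp⟩
  have hab : a ≤ b := (hbd 0 x₀ hx₀).1.trans (hbd 0 x₀ hx₀).2
  have hext : ∀ n, ∃ G : ℝ → ℝ, Monotone G ∧ EqOn (f n) G s := fun n =>
    (hm n).exists_monotone_extension
      ⟨a, by rintro _ ⟨x, hx, rfl⟩; exact (hbd n x hx).1⟩
      ⟨b, by rintro _ ⟨x, hx, rfl⟩; exact (hbd n x hx).2⟩
  choose G hGm hGe using hext
  obtain ⟨φ, g, hφ, hgm, hgb, hlim⟩ :=
    sk_helly (fun n x => max a (min b (G n x))) a b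
      (fun n x y hxy => max_le_max le_rfl (min_le_min le_rfl (hGm n hxy)))
      (fun n x => ⟨le_max_left _ _, max_le hab (min_le_left _ _)⟩)
  refine ⟨φ, g, hφ, hgm, fun x _ => hgb x, fun x hx => ?_⟩
  have : ∀ k, f (φ k) x = max a (min b (G (φ k) x)) := fun k => by
    rw [← hGe (φ k) hx, min_eq_right (hbd _ x hx).2, max_eq_right (hbd _ x hx).1]
  simp only [this]
  exact hlim x

/-- Helly's selection theorem with `L¹` convergence on a set of finite measure. -/
theorem sk_helly_L1 (μ : Measure ℝ) (s : Set ℝ) (hs : MeasurableSet s) (hμ : μ s ≠ ⊤)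
    (f : ℕ → ℝ → ℝ) (a b : ℝ) (hm : ∀ n, MonotoneOn (f n) s)
    (hbd : ∀ n, ∀ x ∈ s, f n x ∈ Icc a b) :
    ∃ (φ : ℕ → ℕ) (g : ℝ → ℝ), StrictMono φ ∧ Monotone g ∧ (∀ x ∈ s, g x ∈ Icc a b) ∧
      (∀ x ∈ s, Tendsto (fun k => f (φ k) x) atTop (𝓝 (g x))) ∧
      Tendsto (fun k => ∫ x in s, |f (φ k) x - g x| ∂μ) atTop (𝓝 0) := by
  obtain ⟨φ, g, hφ, hgm, hgb, hlim⟩ := sk_helly_on s f a b hm hbd
  refine ⟨φ, g, hφ, hgm, hgb, hlim, ?_⟩
  have hfin : IsFiniteMeasure (μ.restrict s) := ⟨by simpa using hμ.lt_top⟩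
  have key := tendsto_integral_of_dominated_convergence (μ := μ.restrict s)
    (F := fun k x => |f (φ k) x - g x|) (f := fun _ => (0 : ℝ)) (fun _ => b - a)
    (fun k => ((aemeasurable_restrict_of_monotoneOn hs (hm (φ k))).sub
      hgm.measurable.aemeasurable).abs.aestronglyMeasurable)
    (integrable_const _)
    (fun k => (ae_restrict_iff' hs).2 (Eventually.of_forall fun x hx => by
      have h1 := hbd (φ k) x hx
      have h2 := hgb x hx
      rw [Real.norm_eq_abs, abs_abs, abs_le]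
      constructor <;> linarith [h1.1, h1.2, h2.1, h2.2]))
    ((ae_restrict_iff' hs).2 (Eventually.of_forall fun x hx => by
      have := ((hlim x hx).sub_const (g x)).abs
      simpa using this))
  simpa using key

end Claimed.Agent.R286
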