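import Mathlib

/-!
# Row 286, library: monotone-limit toolbox and envelope (Danskin) lemma.  Mathlib only.

Complements `R286/Lib/Helly.lean` (`sk_helly`, uniformly bounded form).

* `r286_helly`            Helly selection for POINTWISE bounded monotone functions (locally bounded
                          cumulative functions on `[0,∞)`), convergence at every point
* `r286_mono_intervalIntegrable`, `r286_mono_L1`   a.e. convergence => `L¹(a,b)` convergence
* `r286_polya`            monotone `g n → F` pointwise, `F` continuous => uniform on `[a,b]`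
* `r286_L1_pointwise`, `r286_L1_unif`   `L¹` limit => pointwise at continuity points / loc. uniform
* `r286_quantile_tendsto` convergence of generalised inverses
* `r286_rightLim_eq`      `F = rightLim F` at continuity points of `rightLim F`
* `r286_danskin_lip/_deriv/_le/_ge`   envelope lemma: value function of a minimum is Lipschitz, its
                          derivative is the partial derivative at ANY minimiser; integrated bounds
-/

set_option autoImplicit false

open Filter Topology Set MeasureTheory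
open scoped Interval NNReal

namespace Claimed.Agent.R286

/-- Diagonal extraction: a pointwise bounded sequence of real functions on a countable type has a
subsequence that converges at every point. -/
theorem r286_helly_diag {ι : Type*} [Countable ι] (f : ℕ → ι → ℝ)
    (hb : ∀ i, ∃ M, ∀ n, |f n i| ≤ M) :
    ∃ φ : ℕ → ℕ, StrictMono φ ∧ ∃ G : ι → ℝ,
      ∀ i, Tendsto (fun n => f (φ n) i) atTop (𝓝 (G i)) := by
  choose M hM using hb
  let x : ℕ → (∀ i, Icc (-(M i)) (M i)) := fun n i => ⟨f n i, abs_le.mp (hM i n)⟩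
  obtain ⟨a, φ, hφ, ha⟩ := CompactSpace.tendsto_subseq x
  refine ⟨φ, hφ, fun i => (a i : ℝ), fun i => ?_⟩
  have h1 := tendsto_pi_nhds.mp ha i
  exact (continuous_subtype_val.tendsto _).comp h1

/-- A pointwise limit of monotone functions is monotone. -/
theorem r286_helly_mono_lim {g : ℕ → ℝ → ℝ} {F : ℝ → ℝ} (hm : ∀ n, Monotone (g n))
    (h : ∀ x, Tendsto (fun n => g n x) atTop (𝓝 (F x))) : Monotone F := fun x y hxy =>
  le_of_tendsto_of_tendsto' (h x) (h y) fun n => hm n hxy

/-- Core of Helly: monotone functions that converge at all rationals converge at every continuity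
point of the left-sup envelope of the rational limits. -/
theorem r286_helly_core (g : ℕ → ℝ → ℝ) (hm : ∀ n, Monotone (g n)) (G : ℚ → ℝ)
    (hG : ∀ q : ℚ, Tendsto (fun n => g n (q : ℝ)) atTop (𝓝 (G q))) :
    ∃ F₀ : ℝ → ℝ, Monotone F₀ ∧
      ∀ x, ContinuousAt F₀ x → Tendsto (fun n => g n x) atTop (𝓝 (F₀ x)) := by
  have hGm : Monotone G := fun p q hpq =>
    le_of_tendsto_of_tendsto' (hG p) (hG q) fun n => hm n (by exact_mod_cast hpq)
  let S : ℝ → Set ℝ := fun x => G '' {q : ℚ | (q : ℝ) < x}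
  have hSne : ∀ x, (S x).Nonempty := fun x => by
    obtain ⟨q, hq⟩ := exists_rat_lt x
    exact ⟨G q, q, hq, rfl⟩
  have hSbd : ∀ x, BddAbove (S x) := fun x => by
    obtain ⟨q₀, hq₀⟩ := exists_rat_gt x
    refine ⟨G q₀, ?_⟩
    rintro _ ⟨q, hq, rfl⟩
    exact hGm (by exact_mod_cast (lt_trans hq hq₀).le)
  refine ⟨fun x => sSup (S x), ?_, ?_⟩
  · intro x y hxy
    refine csSup_le_csSup (hSbd y) (hSne x) ?_
    rintro _ ⟨q, hq, rfl⟩
    exact ⟨q, lt_of_lt_of_le hq hxy, rfl⟩
  · intro x hx
    rw [Metric.tendsto_atTop]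
    intro ε hε
    -- lower rational
    obtain ⟨_, ⟨p, hp, rfl⟩, hpε⟩ := exists_lt_of_lt_csSup (hSne x)
      (show sSup (S x) - ε / 2 < sSup (S x) by linarith)
    -- upper rational
    have hx' := Metric.continuousAt_iff.mp hx (ε / 2) (by linarith)
    obtain ⟨δ, hδ, hδx⟩ := hx'
    obtain ⟨q, hq1, hq2⟩ := exists_rat_btwn (show x < x + δ / 2 by linarith)
    have hy : sSup (S (x + δ / 2)) < sSup (S x) + ε / 2 := by
      have := hδx (x := x + δ / 2) (by
        rw [Real.dist_eq]; rw [abs_lt]; constructor <;> linarith)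
      rw [Real.dist_eq, abs_lt] at this
      linarith [this.2]
    have hGq : G q < sSup (S x) + ε / 2 :=
      lt_of_le_of_lt (le_csSup (hSbd _) ⟨q, hq2, rfl⟩) hy
    have e1 := Metric.tendsto_atTop.mp (hG p) (ε / 2) (by linarith)
    have e2 := Metric.tendsto_atTop.mp (hG q) (ε / 2) (by linarith)
    obtain ⟨N1, hN1⟩ := e1
    obtain ⟨N2, hN2⟩ := e2
    refine ⟨max N1 N2, fun n hn => ?_⟩
    have a1 := hN1 n (le_trans (le_max_left _ _) hn)
    have a2 := hN2 n (le_trans (le_max_right _ _) hn)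
    rw [Real.dist_eq, abs_lt] at a1 a2
    have b1 : g n p ≤ g n x := hm n (le_of_lt hp)
    have b2 : g n x ≤ g n q := hm n (le_of_lt hq1)
    rw [Real.dist_eq, abs_lt]
    constructor <;> linarith [a1.1, a2.2]

/-- **Helly's selection theorem** (everywhere convergent form): a pointwise bounded sequence of
monotone functions `ℝ → ℝ` has a subsequence converging at EVERY point, to a monotone function. -/
theorem r286_helly (f : ℕ → ℝ → ℝ) (hm : ∀ n, Monotone (f n))
    (hb : ∀ x, ∃ M, ∀ n, |f n x| ≤ M) :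
    ∃ φ : ℕ → ℕ, StrictMono φ ∧ ∃ F : ℝ → ℝ, Monotone F ∧
      ∀ x, Tendsto (fun n => f (φ n) x) atTop (𝓝 (F x)) := by
  obtain ⟨φ₁, hφ₁, G, hG⟩ := r286_helly_diag (fun n (q : ℚ) => f n (q : ℝ)) fun q => hb q
  obtain ⟨F₀, hF₀, hconv⟩ := r286_helly_core (fun n => f (φ₁ n)) (fun n => hm _) G hG
  have hD : {x | ¬ ContinuousAt F₀ x}.Countable := hF₀.countable_not_continuousAt
  have : Countable {x | ¬ ContinuousAt F₀ x} := hD.to_subtype
  obtain ⟨φ₂, hφ₂, G₂, hG₂⟩ := r286_helly_diag
    (fun n (x : {x | ¬ ContinuousAt F₀ x}) => f (φ₁ n) (x : ℝ)) fun x => by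
      obtain ⟨M, hM⟩ := hb x
      exact ⟨M, fun n => hM _⟩
  classical
  let F : ℝ → ℝ := fun x => if h : ContinuousAt F₀ x then F₀ x else G₂ ⟨x, h⟩
  have hF : ∀ x, Tendsto (fun n => f ((φ₁ ∘ φ₂) n) x) atTop (𝓝 (F x)) := by
    intro x
    by_cases h : ContinuousAt F₀ x
    · simp only [F, h, dif_pos]
      exact (hconv x h).comp hφ₂.tendsto_atTop
    · simp only [F, h, dif_neg, not_false_eq_true]
      exact hG₂ ⟨x, h⟩
  exact ⟨φ₁ ∘ φ₂, hφ₁.comp hφ₂, F, r286_helly_mono_lim (fun n => hm _) hF, hF⟩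

/-- A function monotone and bounded on an open interval is interval integrable. -/
theorem r286_mono_intervalIntegrable {g : ℝ → ℝ} {a b M : ℝ} (hab : a ≤ b)
    (hm : MonotoneOn g (Ioo a b)) (hbd : ∀ x ∈ Ioo a b, |g x| ≤ M) :
    IntervalIntegrable g volume a b := by
  rw [intervalIntegrable_iff_integrableOn_Ioo_of_le hab]
  refine ⟨(aemeasurable_restrict_of_monotoneOn measurableSet_Ioo hm).aestronglyMeasurable,
    HasFiniteIntegral.restrict_of_bounded M (by simp) ?_⟩
  rw [ae_restrict_iff' measurableSet_Ioo]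
  exact Eventually.of_forall fun x hx => by simpa using hbd x hx

/-- Dominated convergence for monotone functions: a.e. convergence on `(a,b)` of uniformly bounded
monotone functions implies `L¹(a,b)` convergence. -/
theorem r286_mono_L1 (g : ℕ → ℝ → ℝ) (F : ℝ → ℝ) {a b M : ℝ} (hab : a ≤ b)
    (hm : ∀ n, MonotoneOn (g n) (Ioo a b)) (hbd : ∀ n, ∀ x ∈ Ioo a b, |g n x| ≤ M)
    (h : ∀ᵐ x, x ∈ Ioo a b → Tendsto (fun n => g n x) atTop (𝓝 (F x))) :
    Tendsto (fun n => ∫ x in a..b, |g n x - F x|) atTop (𝓝 0) := by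
  have hIoc : ∀ᵐ x : ℝ, x ∈ Ι a b → x ∈ Ioo a b := by
    have : ∀ᵐ x : ℝ, x ≠ b := by simp [ae_iff, measure_singleton]
    filter_upwards [this] with x hx hxI
    rw [uIoc_of_le hab] at hxI
    exact ⟨hxI.1, lt_of_le_of_ne hxI.2 hx⟩
  have hres : (volume : Measure ℝ).restrict (Ι a b) = volume.restrict (Ioo a b) := by
    rw [uIoc_of_le hab, restrict_Ioo_eq_restrict_Ioc]
  have hgm : ∀ n, AEStronglyMeasurable (g n) (volume.restrict (Ι a b)) := fun n => by
    rw [hres]
    exact (aemeasurable_restrict_of_monotoneOn measurableSet_Ioo (hm n)).aestronglyMeasurable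
  have hFm : AEStronglyMeasurable F (volume.restrict (Ι a b)) := by
    refine aestronglyMeasurable_of_tendsto_ae atTop hgm ?_
    rw [ae_restrict_iff' measurableSet_uIoc]
    filter_upwards [h, hIoc] with x hx hxI hxm using hx (hxI hxm)
  have key := intervalIntegral.tendsto_integral_filter_of_dominated_convergence
    (μ := volume) (a := a) (b := b) (l := atTop)
    (F := fun n x => |g n x - F x|) (f := fun _ => (0 : ℝ)) (fun _ => 2 * M)
    (Eventually.of_forall fun n => ((hgm n).sub hFm).norm)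
    (Eventually.of_forall fun n => by
      filter_upwards [h, hIoc] with x hx hxI hxm
      have hxo := hxI hxm
      have h1 : |F x| ≤ M := le_of_tendsto (hx hxo).abs
        (Eventually.of_forall fun k => hbd k x hxo)
      have h2 := hbd n x hxo
      rw [Real.norm_eq_abs, abs_abs]
      calc |g n x - F x| ≤ |g n x| + |F x| := abs_sub _ _
        _ ≤ 2 * M := by linarith)
    intervalIntegrable_const
    (by
      filter_upwards [h, hIoc] with x hx hxI hxm
      have := ((hx (hxI hxm)).sub_const (F x)).abs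
      simpa using this)
  simpa using key

/-- **Pólya's lemma**: monotone functions converging pointwise on `[a,b]` to a continuous function
converge uniformly on `[a,b]`. -/
theorem r286_polya (g : ℕ → ℝ → ℝ) (F : ℝ → ℝ) {a b : ℝ}
    (hm : ∀ n, MonotoneOn (g n) (Icc a b)) (hF : ContinuousOn F (Icc a b))
    (h : ∀ x ∈ Icc a b, Tendsto (fun n => g n x) atTop (𝓝 (F x))) :
    TendstoUniformlyOn g F atTop (Icc a b) := by
  rcases lt_or_ge b a with hba | hab
  · rw [Icc_eq_empty (not_le.mpr hba)]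
    exact tendstoUniformlyOn_empty
  have hFm : MonotoneOn F (Icc a b) := fun x hx y hy hxy =>
    le_of_tendsto_of_tendsto' (h x hx) (h y hy) fun n => hm n hx hy hxy
  rw [Metric.tendstoUniformlyOn_iff]
  intro ε hε
  have huc : UniformContinuousOn F (Icc a b) :=
    isCompact_Icc.uniformContinuousOn_of_continuous hF
  obtain ⟨δ, hδ, hδF⟩ := Metric.uniformContinuousOn_iff.mp huc (ε / 2) (by linarith)
  -- partition
  obtain ⟨k, hk⟩ := exists_nat_gt ((b - a) / δ)
  have hk0 : (0 : ℝ) < k := lt_of_le_of_lt (div_nonneg (by linarith) hδ.le) hk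
  set w : ℝ := (b - a) / k with hw
  have hw0 : 0 ≤ w := div_nonneg (by linarith) hk0.le
  have hwδ : w < δ := by
    rw [hw, div_lt_iff₀ hk0]
    rw [div_lt_iff₀ hδ] at hk
    linarith
  have hwk : w * k = b - a := by rw [hw]; field_simp
  let t : ℕ → ℝ := fun i => a + i * w
  have htmem : ∀ i ≤ k, t i ∈ Icc a b := fun i hi => by
    have hi' : (i : ℝ) ≤ k := by exact_mod_cast hi
    constructor
    · simp only [t]; nlinarith [mul_nonneg (Nat.cast_nonneg (α := ℝ) i) hw0]
    · simp only [t]; nlinarith [mul_le_mul_of_nonneg_right hi' hw0]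
  have hev : ∀ᶠ n in atTop, ∀ i ∈ Finset.range (k + 1), dist (g n (t i)) (F (t i)) < ε / 2 := by
    rw [Filter.eventually_all_finset]
    intro i hi
    have hi' : i ≤ k := Nat.lt_succ_iff.mp (Finset.mem_range.mp hi)
    exact Metric.tendsto_nhds.mp (h _ (htmem i hi')) (ε / 2) (by linarith)
  filter_upwards [hev] with n hn x hx
  -- locate x
  rcases eq_or_lt_of_le hw0 with hw00 | hwpos
  · -- w = 0 : a = b
    have hab' : b = a := by nlinarith [hwk, hw00]
    have hxa : x = a := le_antisymm (hab' ▸ hx.2) hx.1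
    have := hn 0 (by simp)
    simp only [t, Nat.cast_zero, zero_mul, add_zero] at this
    rw [hxa, dist_comm]
    linarith
  obtain ⟨i, hi1, hi2, hik⟩ : ∃ i : ℕ, t i ≤ x ∧ x ≤ t (i + 1) ∧ i + 1 ≤ k := by
    by_cases hxb : x = b
    · obtain ⟨j, hj⟩ : ∃ j, k = j + 1 := Nat.exists_eq_succ_of_ne_zero (by
        intro h0; rw [h0] at hk0; simp at hk0)
      refine ⟨j, ?_, ?_, hj.ge⟩
      · have : (k : ℝ) = j + 1 := by exact_mod_cast hj
        simp only [t]; rw [hxb]; nlinarith
      · have : (k : ℝ) = j + 1 := by exact_mod_cast hj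
        simp only [t]; push_cast; rw [hxb]; nlinarith
    · have hxlt : x < b := lt_of_le_of_ne hx.2 hxb
      refine ⟨⌊(x - a) / w⌋₊, ?_, ?_, ?_⟩
      · have := Nat.floor_le (div_nonneg (sub_nonneg.mpr hx.1) hw0)
        rw [le_div_iff₀ hwpos] at this
        simp only [t]; linarith
      · have := (Nat.lt_floor_add_one ((x - a) / w)).le
        rw [div_le_iff₀ hwpos] at this
        simp only [t]; push_cast; linarith
      · have h1 : (x - a) / w < k := by
          rw [div_lt_iff₀ hwpos]; nlinarith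
        have := (Nat.floor_lt (div_nonneg (sub_nonneg.mpr hx.1) hw0)).mpr h1
        omega
  have m1 := htmem i (by omega)
  have m2 := htmem (i + 1) hik
  have c1 := hn i (Finset.mem_range.mpr (by omega))
  have c2 := hn (i + 1) (Finset.mem_range.mpr (by omega))
  have hdist : dist (t i) (t (i + 1)) < δ := by
    rw [Real.dist_eq]; simp only [t]; push_cast
    rw [abs_lt]; constructor <;> linarith
  have c3 := hδF _ m1 _ m2 hdist
  rw [Real.dist_eq, abs_lt] at c1 c2 c3
  have g1 : g n (t i) ≤ g n x := hm n m1 hx hi1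
  have g2 : g n x ≤ g n (t (i + 1)) := hm n hx m2 hi2
  have f1 : F (t i) ≤ F x := hFm m1 hx hi1
  have f2 : F x ≤ F (t (i + 1)) := hFm hx m2 hi2
  rw [Real.dist_eq, abs_lt]
  constructor <;> linarith [c1.1, c1.2, c2.1, c2.2, c3.1, c3.2]

/-- `L¹` convergence of monotone functions gives pointwise convergence at every continuity point of
the limit (interior of the interval). -/
theorem r286_L1_pointwise (g : ℕ → ℝ → ℝ) (F : ℝ → ℝ) {α β x : ℝ} (hx : x ∈ Ioo α β)
    (hm : ∀ n, MonotoneOn (g n) (Ioo α β))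
    (hint : ∀ n, IntervalIntegrable (fun y => g n y - F y) volume α β)
    (hL1 : Tendsto (fun n => ∫ y in α..β, |g n y - F y|) atTop (𝓝 0))
    (hF : ContinuousAt F x) :
    Tendsto (fun n => g n x) atTop (𝓝 (F x)) := by
  rw [Metric.tendsto_atTop]
  intro ε hε
  obtain ⟨δ₀, hδ₀, hδF⟩ := Metric.continuousAt_iff.mp hF (ε / 2) (by linarith)
  -- a radius that stays inside the interval and inside the continuity window
  set δ : ℝ := min (δ₀ / 2) (min ((x - α) / 2) ((β - x) / 2)) with hδdef
  have hδ : 0 < δ := lt_min (by linarith) (lt_min (by linarith [hx.1]) (by linarith [hx.2]))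
  have hδ1 : δ ≤ δ₀ / 2 := min_le_left _ _
  have hδ2 : δ ≤ (x - α) / 2 := le_trans (min_le_right _ _) (min_le_left _ _)
  have hδ3 : δ ≤ (β - x) / 2 := le_trans (min_le_right _ _) (min_le_right _ _)
  have hαβ : α ≤ β := (lt_trans hx.1 hx.2).le
  obtain ⟨N, hN⟩ := Metric.tendsto_atTop.mp hL1 (δ * (ε / 2)) (by positivity)
  refine ⟨N, fun n hn => ?_⟩
  have hI := hN n hn
  rw [Real.dist_eq, sub_zero] at hI
  have hI' : ∫ y in α..β, |g n y - F y| < δ * (ε / 2) := lt_of_le_of_lt (le_abs_self _) hI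
  have habsint : IntervalIntegrable (fun y => |g n y - F y|) volume α β := (hint n).abs
  have hnonneg : 0 ≤ᵐ[volume.restrict (Ioc α β)] fun y => |g n y - F y| :=
    Eventually.of_forall fun y => abs_nonneg _
  have hFy : ∀ y, |y - x| ≤ δ → |F y - F x| < ε / 2 := fun y hy => by
    have := hδF (x := y) (by rw [Real.dist_eq]; linarith)
    rwa [Real.dist_eq] at this
  rw [Real.dist_eq, abs_lt]
  constructor
  · -- lower bound: use the window [x-δ, x]
    by_contra hcon
    rw [not_lt] at hcon
    have hsub : ∫ y in (x - δ)..x, |g n y - F y| ≤ ∫ y in α..β, |g n y - F y| :=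
      intervalIntegral.integral_mono_interval (by linarith) (by linarith) hx.2.le hnonneg habsint
    have hlow : ∫ y in (x - δ)..x, (ε / 2 : ℝ) ≤ ∫ y in (x - δ)..x, |g n y - F y| := by
      refine intervalIntegral.integral_mono_on (by linarith) intervalIntegrable_const
        (habsint.mono_set ?_) ?_
      · rw [uIcc_of_le (by linarith), uIcc_of_le hαβ]
        exact Icc_subset_Icc (by linarith) hx.2.le
      · intro y hy
        have hyI : y ∈ Ioo α β := ⟨by linarith [hy.1], lt_of_le_of_lt hy.2 hx.2⟩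
        have h1 : g n y ≤ g n x := hm n hyI hx hy.2
        have h2 := abs_lt.mp (hFy y (by rw [abs_le]; constructor <;> linarith [hy.1, hy.2]))
        have h3 : F y - g n y ≤ |g n y - F y| := by rw [abs_sub_comm]; exact le_abs_self _
        linarith [h2.1]
    rw [intervalIntegral.integral_const, smul_eq_mul] at hlow
    have : x - (x - δ) = δ := by ring
    rw [this] at hlow
    linarith
  · by_contra hcon
    rw [not_lt] at hcon
    have hsub : ∫ y in x..(x + δ), |g n y - F y| ≤ ∫ y in α..β, |g n y - F y| :=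
      intervalIntegral.integral_mono_interval hx.1.le (by linarith) (by linarith) hnonneg habsint
    have hlow : ∫ y in x..(x + δ), (ε / 2 : ℝ) ≤ ∫ y in x..(x + δ), |g n y - F y| := by
      refine intervalIntegral.integral_mono_on (by linarith) intervalIntegrable_const
        (habsint.mono_set ?_) ?_
      · rw [uIcc_of_le (by linarith), uIcc_of_le hαβ]
        exact Icc_subset_Icc hx.1.le (by linarith)
      · intro y hy
        have hyI : y ∈ Ioo α β := ⟨lt_of_lt_of_le hx.1 hy.1, by linarith [hy.2]⟩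
        have h1 : g n x ≤ g n y := hm n hx hyI hy.1
        have h2 := abs_lt.mp (hFy y (by rw [abs_le]; constructor <;> linarith [hy.1, hy.2]))
        have h3 : g n y - F y ≤ |g n y - F y| := le_abs_self _
        linarith [h2.2]
    rw [intervalIntegral.integral_const, smul_eq_mul] at hlow
    have : x + δ - x = δ := by ring
    rw [this] at hlow
    linarith

/-- Convergence of generalised inverses (quantiles): if `A n → U` pointwise, `U < v` left of `t₀`,
`v < U` right of `t₀`, and `R n` is any generalised inverse value of `A n` at level `v`, then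
`R n → t₀`. -/
theorem r286_quantile_tendsto (A : ℕ → ℝ → ℝ) (U : ℝ → ℝ) (R : ℕ → ℝ) {v t₀ : ℝ}
    (hlo : ∀ t < t₀, U t < v) (hhi : ∀ t, t₀ < t → v < U t)
    (hA : ∀ t, Tendsto (fun n => A n t) atTop (𝓝 (U t)))
    (h1 : ∀ n t, A n t < v → t ≤ R n) (h2 : ∀ n t, v < A n t → R n ≤ t) :
    Tendsto R atTop (𝓝 t₀) := by
  rw [Metric.tendsto_atTop']
  intro ε hε
  have e1 : ∀ᶠ n in atTop, A n (t₀ - ε / 2) < v :=
    (hA _).eventually_lt_const (hlo _ (by linarith))
  have e2 : ∀ᶠ n in atTop, v < A n (t₀ + ε / 2) :=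
    (hA _).eventually_const_lt (hhi _ (by linarith))
  obtain ⟨N, hN⟩ := eventually_atTop.mp (e1.and e2)
  refine ⟨N, fun n hn => ?_⟩
  obtain ⟨a1, a2⟩ := hN n hn.le
  have b1 := h1 n _ a1
  have b2 := h2 n _ a2
  rw [Real.dist_eq, abs_lt]
  constructor <;> linarith

/-- If the right-continuous modification of a monotone function is continuous at `t`, the function
agrees with it at `t`. -/
theorem r286_rightLim_eq {F : ℝ → ℝ} (hF : Monotone F) {t : ℝ}
    (hc : ContinuousAt (Function.rightLim F) t) : F t = Function.rightLim F t := by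
  refine le_antisymm (hF.le_rightLim le_rfl) ?_
  -- rightLim F s ≤ F t for s < t, let s ↑ t
  have h1 : ∀ s, s < t → Function.rightLim F s ≤ F t := fun s hs => hF.rightLim_le hs
  have h2 : Tendsto (Function.rightLim F) (𝓝[<] t) (𝓝 (Function.rightLim F t)) :=
    hc.tendsto.mono_left nhdsWithin_le_nhds
  exact le_of_tendsto h2 (eventually_nhdsWithin_of_forall fun s hs => h1 s hs)

/-- `L¹(α,β)` convergence of monotone functions to a function continuous on `(α,β)` is uniform on
every compact subinterval of `(α,β)`. -/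
theorem r286_L1_unif (g : ℕ → ℝ → ℝ) (F : ℝ → ℝ) {α β a b : ℝ} (hαa : α < a) (hbβ : b < β)
    (hm : ∀ n, MonotoneOn (g n) (Ioo α β))
    (hint : ∀ n, IntervalIntegrable (fun y => g n y - F y) volume α β)
    (hL1 : Tendsto (fun n => ∫ y in α..β, |g n y - F y|) atTop (𝓝 0))
    (hF : ContinuousOn F (Ioo α β)) :
    TendstoUniformlyOn g F atTop (Icc a b) := by
  have hsub : Icc a b ⊆ Ioo α β := fun x hx =>
    ⟨lt_of_lt_of_le hαa hx.1, lt_of_le_of_lt hx.2 hbβ⟩
  refine r286_polya g F (fun n => (hm n).mono hsub) (hF.mono hsub) fun x hx => ?_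
  exact r286_L1_pointwise g F (hsub hx) hm hint hL1
    (hF.continuousAt (isOpen_Ioo.mem_nhds (hsub hx)))

section danskin

variable {Z : Type*} (obj d : ℝ → Z → ℝ) (Φ : ℝ → ℝ) {a b L : ℝ}

/-- Envelope lemma, Lipschitz part: a pointwise minimum of functions with uniformly bounded
derivative is Lipschitz. -/
theorem r286_danskin_lip
    (hder : ∀ z, ∀ t ∈ Icc a b, HasDerivWithinAt (fun s => obj s z) (d t z) (Icc a b) t)
    (hL : ∀ z, ∀ t ∈ Icc a b, |d t z| ≤ L)
    (hle : ∀ t ∈ Icc a b, ∀ z, Φ t ≤ obj t z)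
    (hmin : ∀ t ∈ Icc a b, ∃ z, obj t z = Φ t) :
    LipschitzOnWith (Real.toNNReal L) Φ (Icc a b) := by
  have hobj : ∀ z, ∀ s ∈ Icc a b, ∀ t ∈ Icc a b, |obj t z - obj s z| ≤ L * |t - s| := by
    intro z s hs t ht
    have := (convex_Icc a b).norm_image_sub_le_of_norm_hasDerivWithin_le
      (f := fun s => obj s z) (f' := fun t => d t z) (C := L)
      (fun x hx => hder z x hx) (fun x hx => by simpa using hL z x hx) hs ht
    simpa [Real.norm_eq_abs] using this
  have hone : ∀ s ∈ Icc a b, ∀ t ∈ Icc a b, Φ t - Φ s ≤ L * |t - s| := by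
    intro s hs t ht
    obtain ⟨z, hz⟩ := hmin s hs
    have h1 := hle t ht z
    have h2 := (abs_le.mp (hobj z s hs t ht)).2
    linarith
  refine LipschitzOnWith.of_dist_le_mul fun s hs t ht => ?_
  have hL0 : 0 ≤ L := le_trans (abs_nonneg _) (hL (hmin s hs).choose s hs)
  rw [Real.coe_toNNReal L hL0, Real.dist_eq, Real.dist_eq, abs_le]
  constructor
  · have := hone s hs t ht
    rw [abs_sub_comm] at this
    linarith
  · exact hone t ht s hs

/-- Envelope lemma, derivative part: where the minimum value is differentiable, its derivative is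
the partial derivative of the objective at ANY minimiser. -/
theorem r286_danskin_deriv
    (hder : ∀ z, ∀ t ∈ Icc a b, HasDerivWithinAt (fun s => obj s z) (d t z) (Icc a b) t)
    (hle : ∀ t ∈ Icc a b, ∀ z, Φ t ≤ obj t z)
    {t : ℝ} (ht : t ∈ Ioo a b) (hΦ : DifferentiableAt ℝ Φ t) {z : Z} (hz : obj t z = Φ t) :
    deriv Φ t = d t z := by
  have hnhds : Icc a b ∈ 𝓝 t := Icc_mem_nhds ht.1 ht.2
  have h1 : HasDerivAt (fun s => obj s z) (d t z) t :=
    (hder z t (Ioo_subset_Icc_self ht)).hasDerivAt hnhds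
  have h2 : HasDerivAt (fun s => obj s z - Φ s) (d t z - deriv Φ t) t := h1.sub hΦ.hasDerivAt
  have hloc : IsLocalMin (fun s => obj s z - Φ s) t := by
    filter_upwards [hnhds] with s hs
    have := hle s hs z
    simp only [hz, sub_self]
    linarith
  have := hloc.hasDerivAt_eq_zero h2
  linarith

/-- Integrated envelope inequality (upper bound): it is enough to bound the partial derivative at
ONE minimiser for each time. -/
theorem r286_danskin_le (hab : a ≤ b)
    (hder : ∀ z, ∀ t ∈ Icc a b, HasDerivWithinAt (fun s => obj s z) (d t z) (Icc a b) t)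
    (hL : ∀ z, ∀ t ∈ Icc a b, |d t z| ≤ L)
    (hle : ∀ t ∈ Icc a b, ∀ z, Φ t ≤ obj t z)
    (hmin : ∀ t ∈ Icc a b, ∃ z, obj t z = Φ t)
    (bound : ℝ → ℝ) (hint : IntervalIntegrable bound volume a b)
    (hbound : ∀ t ∈ Ioo a b, ∃ z, obj t z = Φ t ∧ d t z ≤ bound t) :
    Φ b - Φ a ≤ ∫ t in a..b, bound t := by
  have hlip := r286_danskin_lip obj d Φ hder hL hle hmin
  have hac : AbsolutelyContinuousOnInterval Φ a b := by
    apply LipschitzOnWith.absolutelyContinuousOnInterval (K := Real.toNNReal L)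
    rwa [uIcc_of_le hab]
  rw [← hac.integral_deriv_eq_sub]
  refine intervalIntegral.integral_mono_ae_restrict hab hac.intervalIntegrable_deriv hint ?_
  have hne : ∀ᵐ x : ℝ, x ≠ a ∧ x ≠ b := by
    have h1 : ∀ᵐ x : ℝ, x ≠ a := by simp [ae_iff, measure_singleton]
    have h2 : ∀ᵐ x : ℝ, x ≠ b := by simp [ae_iff, measure_singleton]
    filter_upwards [h1, h2] with x hx1 hx2 using ⟨hx1, hx2⟩
  rw [Filter.EventuallyLE, ae_restrict_iff' measurableSet_Icc]
  filter_upwards [hac.ae_differentiableAt, hne] with t ht hne htI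
  have htI' : t ∈ Ioo a b := ⟨lt_of_le_of_ne htI.1 (Ne.symm hne.1), lt_of_le_of_ne htI.2 hne.2⟩
  obtain ⟨z, hz, hzb⟩ := hbound t htI'
  rw [r286_danskin_deriv obj d Φ hder hle htI' (ht (by rwa [uIcc_of_le hab])) hz]
  exact hzb

/-- Integrated envelope inequality (lower bound). -/
theorem r286_danskin_ge (hab : a ≤ b)
    (hder : ∀ z, ∀ t ∈ Icc a b, HasDerivWithinAt (fun s => obj s z) (d t z) (Icc a b) t)
    (hL : ∀ z, ∀ t ∈ Icc a b, |d t z| ≤ L)
    (hle : ∀ t ∈ Icc a b, ∀ z, Φ t ≤ obj t z)
    (hmin : ∀ t ∈ Icc a b, ∃ z, obj t z = Φ t)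
    (bound : ℝ → ℝ) (hint : IntervalIntegrable bound volume a b)
    (hbound : ∀ t ∈ Ioo a b, ∃ z, obj t z = Φ t ∧ bound t ≤ d t z) :
    ∫ t in a..b, bound t ≤ Φ b - Φ a := by
  have hlip := r286_danskin_lip obj d Φ hder hL hle hmin
  have hac : AbsolutelyContinuousOnInterval Φ a b := by
    apply LipschitzOnWith.absolutelyContinuousOnInterval (K := Real.toNNReal L)
    rwa [uIcc_of_le hab]
  rw [← hac.integral_deriv_eq_sub]
  refine intervalIntegral.integral_mono_ae_restrict hab hint hac.intervalIntegrable_deriv ?_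
  have hne : ∀ᵐ x : ℝ, x ≠ a ∧ x ≠ b := by
    have h1 : ∀ᵐ x : ℝ, x ≠ a := by simp [ae_iff, measure_singleton]
    have h2 : ∀ᵐ x : ℝ, x ≠ b := by simp [ae_iff, measure_singleton]
    filter_upwards [h1, h2] with x hx1 hx2 using ⟨hx1, hx2⟩
  rw [Filter.EventuallyLE, ae_restrict_iff' measurableSet_Icc]
  filter_upwards [hac.ae_differentiableAt, hne] with t ht hne htI
  have htI' : t ∈ Ioo a b := ⟨lt_of_le_of_ne htI.1 (Ne.symm hne.1), lt_of_le_of_ne htI.2 hne.2⟩
  obtain ⟨z, hz, hzb⟩ := hbound t htI'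
  rw [r286_danskin_deriv obj d Φ hder hle htI' (ht (by rwa [uIcc_of_le hab])) hz]
  exact hzb

end danskin

end Claimed.Agent.R286
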