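import Claimed.Agent.R286.Defs.GhBasic
import Claimed.Agent.R286.Lib.GhMeas

/-!
# Row 286: the positive tree laws as genuine probability measures

* `ghmT B ls rep : Kernel (Fin q → S → ℝ) ((ℕ → Fin q → ι → ℝ) × (Fin q → S))` : the tree law of `Defs/Gh` (`ghNu`) as a kernel
  in the revealed fields;
* `ghmt_markov`   : it is a Markov kernel (`B.Ok`, masses `≥ 0`);
* `ghmt_integral` : `∫ P ∂(ghmT B ls rep G) = ghNu B ls rep G (curry P)`;
* `ghmt_nu`       : the same for `GhTree.nu`.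
-/

set_option autoImplicit false
set_option linter.unusedSectionVars false

namespace Claimed.Agent.R286

open MeasureTheory ProbabilityTheory
open scoped ENNReal NNReal

variable {S ι : Type} [Fintype S] [Fintype ι] {q : ℕ}

/-- sample space of a tree law with `q` labels -/
abbrev GhmTΩ (S ι : Type) (q : ℕ) : Type := (ℕ → Fin q → ι → ℝ) × (Fin q → S)

/-- the standard drivers of `q` labels -/
noncomputable abbrev ghmStdQ (ι : Type) [Fintype ι] (q : ℕ) : Measure (Fin q → ι → ℝ) :=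
  Measure.pi fun _ : Fin q => ghStd ι

/-! ### measurability -/

theorem ghmt_meas_DT (B : GhB S) (l : GhLv S ι) (ls : List (GhLv S ι)) (r : Fin q → Fin q) :
    Measurable (fun p : (Fin q → S → ℝ) × (Fin q → ι → ℝ) => ghDT B l ls r p.1 p.2) := by
  unfold ghDT
  refine Finset.measurable_prod _ fun a _ => ?_
  by_cases h : r a = a
  · simp only [h, if_true]
    have h1 : Measurable (fun p : (Fin q → S → ℝ) × (Fin q → ι → ℝ) => (p.1 a, p.2 a)) :=
      ((measurable_pi_apply a).comp measurable_fst).prodMk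
        ((measurable_pi_apply a).comp measurable_snd)
    exact (ghm_meas_D B l ls).comp h1
  · simp only [h, if_false]
    exact measurable_const

theorem ghmt_DT_pos (B : GhB S) (l : GhLv S ι) (ls : List (GhLv S ι)) (r : Fin q → Fin q)
    (G : Fin q → S → ℝ) (W : Fin q → ι → ℝ) : 0 < ghDT B l ls r G W := by
  unfold ghDT
  refine Finset.prod_pos fun a _ => ?_
  by_cases h : r a = a
  · simp only [h, if_true]; exact ghm_D_pos B l ls _ _
  · simp only [h, if_false]; exact one_pos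

theorem ghmt_meas_next (l : GhLv S ι) (r : Fin q → Fin q) :
    Measurable (fun p : (Fin q → S → ℝ) × (Fin q → ι → ℝ) =>
      (fun a => p.1 a + l.inc (p.2 (r a)) : Fin q → S → ℝ)) := by
  rw [measurable_pi_iff]
  intro a
  exact ((measurable_pi_apply a).comp measurable_fst).add
    ((ghm_meas_inc l).comp ((measurable_pi_apply (r a)).comp measurable_snd))

theorem ghmt_meas_eff (r : Fin q → Fin q) :
    Measurable (fun W : Fin q → ι → ℝ => (fun a => W (r a) : Fin q → ι → ℝ)) := by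
  rw [measurable_pi_iff]
  exact fun a => measurable_pi_apply (r a)

variable [MeasurableSpace S] [MeasurableSingletonClass S]

theorem ghmt_meas_glue (r : Fin q → Fin q) :
    Measurable (fun p : (Fin q → ι → ℝ) × GhmTΩ S ι q =>
      ((ghCons (fun a => p.1 (r a)) p.2.1, p.2.2) : GhmTΩ S ι q)) :=
  (ghm_meas_cons.comp (((ghmt_meas_eff r).comp measurable_fst).prodMk
    (measurable_fst.comp measurable_snd))).prodMk (measurable_snd.comp measurable_snd)

theorem ghmt_meas_emb (r : Fin q → Fin q) :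
    Measurable (fun σ : Fin q → S =>
      (((fun _ _ _ => 0 : ℕ → Fin q → ι → ℝ), fun a => σ (r a)) : GhmTΩ S ι q)) :=
  measurable_const.prodMk (measurable_of_finite _)

theorem ghmt_meas_GwP (B : GhB S) :
    Measurable (Function.uncurry fun (G : Fin q → S → ℝ) (σ : Fin q → S) =>
      (∏ a, ghGw B (G a) (σ a)).toNNReal) := by
  apply measurable_from_prod_countable_left
  intro σ
  refine Measurable.real_toNNReal (Finset.measurable_prod _ fun a _ => ?_)
  exact (ghm_meas_Gw B (σ a)).comp (measurable_pi_apply a)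

/-! ### the kernels -/

/-- terminal draw -/
noncomputable def ghmT0 (B : GhB S) (r : Fin q → Fin q) :
    Kernel (Fin q → S → ℝ) (GhmTΩ S ι q) :=
  (Kernel.withDensity (Kernel.const (Fin q → S → ℝ) (Measure.count : Measure (Fin q → S)))
    (fun G σ => ((∏ a, ghGw B (G a) (σ a)).toNNReal : ℝ≥0∞))).map
    (fun σ => ((fun _ _ _ => 0 : ℕ → Fin q → ι → ℝ), fun a => σ (r a)))

/-- one revelation of the tree -/
noncomputable def ghmTStep (B : GhB S) (l : GhLv S ι) (ls : List (GhLv S ι)) (r : Fin q → Fin q) :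
    Kernel (Fin q → S → ℝ) (Fin q → ι → ℝ) :=
  Kernel.withDensity (Kernel.const (Fin q → S → ℝ) (ghmStdQ ι q))
    (fun G W => ((ghDT B l ls r G W).toNNReal : ℝ≥0∞))

/-- **the positive tree law** as a kernel in the revealed fields -/
noncomputable def ghmT (B : GhB S) : List (GhLv S ι) → (ℕ → Fin q → Fin q) →
    Kernel (Fin q → S → ℝ) (GhmTΩ S ι q)
  | [], rep => ghmT0 B (rep 0)
  | l :: ls, rep => ((ghmTStep B l ls (rep 0)) ⊗ₖ (Kernel.comap (ghmT B ls fun t => rep (t + 1))
      (fun p : (Fin q → S → ℝ) × (Fin q → ι → ℝ) =>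
        (fun a => p.1 a + l.inc (p.2 (rep 0 a)) : Fin q → S → ℝ)) (ghmt_meas_next l (rep 0)))).map
      (fun p : (Fin q → ι → ℝ) × GhmTΩ S ι q => (ghCons (fun a => p.1 (rep 0 a)) p.2.1, p.2.2))

instance ghmt_step_sfinite (B : GhB S) (l : GhLv S ι) (ls : List (GhLv S ι)) (r : Fin q → Fin q) :
    IsSFiniteKernel (ghmTStep B l ls r) := by
  unfold ghmTStep; infer_instance

instance ghmt_T0_sfinite (B : GhB S) (r : Fin q → Fin q) :
    IsSFiniteKernel (ghmT0 (ι := ι) B r) := by
  unfold ghmT0; infer_instance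

instance ghmt_T_sfinite (B : GhB S) (ls : List (GhLv S ι)) (rep : ℕ → Fin q → Fin q) :
    IsSFiniteKernel (ghmT B ls rep) := by
  cases ls with
  | nil => exact ghmt_T0_sfinite B _
  | cons l ls => simp only [ghmT]; infer_instance


/-! ### normalisations -/

theorem ghmt_GwP_nonneg {B : GhB S} (hB : B.Ok) (G : Fin q → S → ℝ) (σ : Fin q → S) :
    0 ≤ ∏ a, ghGw B (G a) (σ a) := Finset.prod_nonneg fun _ _ => ghm_Gw_nonneg B hB _ _

theorem ghmt_GwP_sum {B : GhB S} (hB : B.Ok) (G : Fin q → S → ℝ) :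
    ∑ σ : Fin q → S, ∏ a, ghGw B (G a) (σ a) = 1 := by
  have h := Finset.prod_univ_sum (fun _ : Fin q => (Finset.univ : Finset S))
    (fun a s => ghGw B (G a) s)
  rw [Fintype.piFinset_univ] at h
  rw [← h]
  exact Finset.prod_eq_one fun a _ => ghm_Gw_sum B hB (G a)

theorem ghmt_DT_eq (B : GhB S) (l : GhLv S ι) (ls : List (GhLv S ι)) (r : Fin q → Fin q)
    (G : Fin q → S → ℝ) (W : Fin q → ι → ℝ) :
    ghDT B l ls r G W =
      ∏ a, (if r a = a then ghD B l ls (G a) else fun _ => 1) (W a) := by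
  unfold ghDT
  refine Finset.prod_congr rfl fun a _ => ?_
  by_cases h : r a = a <;> simp [h]

theorem ghmt_DT_integrable {B : GhB S} (hB : B.Ok) {ls : List (GhLv S ι)} (hn : GhNn ls)
    (l : GhLv S ι) (r : Fin q → Fin q) (G : Fin q → S → ℝ) :
    Integrable (ghDT B l ls r G) (ghmStdQ ι q) := by
  have e : ghDT B l ls r G = fun W =>
      ∏ a, (if r a = a then ghD B l ls (G a) else fun _ => 1) (W a) := by
    funext W; exact ghmt_DT_eq B l ls r G W
  rw [e]
  refine Integrable.fintype_prod (μ := fun _ : Fin q => ghStd ι) fun a => ?_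
  by_cases h : r a = a
  · simp only [h, if_true]; exact gh_b_D_integrable hB hn l (G a)
  · simp only [h, if_false]; exact integrable_const _

theorem ghmt_DT_integral {B : GhB S} (hB : B.Ok) {ls : List (GhLv S ι)} (hn : GhNn ls)
    (l : GhLv S ι) (r : Fin q → Fin q) (G : Fin q → S → ℝ) :
    ∫ W, ghDT B l ls r G W ∂(ghmStdQ ι q) = 1 := by
  simp_rw [ghmt_DT_eq B l ls r G]
  rw [integral_fintype_prod_eq_prod (μ := fun _ : Fin q => ghStd ι)]
  refine Finset.prod_eq_one fun a _ => ?_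
  by_cases h : r a = a
  · simp only [h, if_true]; exact gh_b_D_integral hB hn l (G a)
  · simp only [h, if_false]; simp

/-! ### integrals against the pieces -/

theorem ghmt_integral_T0 {B : GhB S} (hB : B.Ok) (r : Fin q → Fin q) (G : Fin q → S → ℝ)
    (P : GhmTΩ S ι q → ℝ) (hP : Measurable P) :
    ∫ ω, P ω ∂(ghmT0 B r G) =
      ∑ σ : Fin q → S, (∏ a, ghGw B (G a) (σ a)) * P ((fun _ _ _ => 0), fun a => σ (r a)) := by
  unfold ghmT0
  rw [Kernel.map_apply _ (ghmt_meas_emb r),
    integral_map_of_stronglyMeasurable (ghmt_meas_emb r) hP.stronglyMeasurable,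
    Kernel.integral_withDensity (ghmt_meas_GwP B), Kernel.const_apply, integral_count]
  refine Finset.sum_congr rfl fun σ _ => ?_
  rw [NNReal.smul_def, Real.coe_toNNReal _ (ghmt_GwP_nonneg hB G σ), smul_eq_mul]

theorem ghmt_integral_step (B : GhB S) (l : GhLv S ι) (ls : List (GhLv S ι)) (r : Fin q → Fin q)
    (G : Fin q → S → ℝ) (f : (Fin q → ι → ℝ) → ℝ) :
    ∫ W, f W ∂(ghmTStep B l ls r G) = ∫ W, ghDT B l ls r G W * f W ∂(ghmStdQ ι q) := by
  unfold ghmTStep
  rw [Kernel.integral_withDensity (ghmt_meas_DT B l ls r).real_toNNReal, Kernel.const_apply]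
  refine integral_congr_ae (ae_of_all _ fun W => ?_)
  simp only
  rw [NNReal.smul_def, Real.coe_toNNReal _ (ghmt_DT_pos B l ls r G W).le, smul_eq_mul]

theorem ghmt_T0_markov {B : GhB S} (hB : B.Ok) (r : Fin q → Fin q) :
    IsMarkovKernel (ghmT0 (ι := ι) B r) := by
  refine ⟨fun G => ⟨?_⟩⟩
  unfold ghmT0
  rw [Kernel.map_apply _ (ghmt_meas_emb r), Measure.map_apply (ghmt_meas_emb r) MeasurableSet.univ,
    Set.preimage_univ, Kernel.withDensity_apply _ (by
      exact measurable_coe_nnreal_ennreal.comp (ghmt_meas_GwP B)),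
    withDensity_apply _ MeasurableSet.univ, Measure.restrict_univ, Kernel.const_apply,
    lintegral_count]
  have : ∑ σ : Fin q → S, ((∏ a, ghGw B (G a) (σ a)).toNNReal : ℝ≥0∞)
      = ENNReal.ofReal (∑ σ : Fin q → S, ∏ a, ghGw B (G a) (σ a)) := by
    rw [ENNReal.ofReal_sum_of_nonneg (fun σ _ => ghmt_GwP_nonneg hB G σ)]
    rfl
  rw [tsum_fintype, this, ghmt_GwP_sum hB G, ENNReal.ofReal_one]

theorem ghmt_step_markov {B : GhB S} (hB : B.Ok) {ls : List (GhLv S ι)} (hn : GhNn ls)
    (l : GhLv S ι) (r : Fin q → Fin q) : IsMarkovKernel (ghmTStep B l ls r) := by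
  refine ⟨fun G => ⟨?_⟩⟩
  unfold ghmTStep
  rw [Kernel.withDensity_apply _ (by
      exact measurable_coe_nnreal_ennreal.comp (ghmt_meas_DT B l ls r).real_toNNReal),
    withDensity_apply _ MeasurableSet.univ, Measure.restrict_univ, Kernel.const_apply]
  have e : ∫⁻ W, ((ghDT B l ls r G W).toNNReal : ℝ≥0∞) ∂(ghmStdQ ι q)
      = ENNReal.ofReal (∫ W, ghDT B l ls r G W ∂(ghmStdQ ι q)) := by
    rw [ofReal_integral_eq_lintegral_ofReal (ghmt_DT_integrable hB hn l r G)
      (ae_of_all _ fun W => (ghmt_DT_pos B l ls r G W).le)]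
    rfl
  rw [e, ghmt_DT_integral hB hn l r G, ENNReal.ofReal_one]

/-- **B1**: the tree law is a probability law -/
theorem ghmt_markov {B : GhB S} (hB : B.Ok) {ls : List (GhLv S ι)} (hn : GhNn ls)
    (rep : ℕ → Fin q → Fin q) : IsMarkovKernel (ghmT B ls rep) := by
  induction ls generalizing rep with
  | nil => exact ghmt_T0_markov hB _
  | cons l ls ih =>
    have := ih hn.tail (fun t => rep (t + 1))
    have := ghmt_step_markov hB hn.tail l (rep 0)
    simp only [ghmT]
    exact Kernel.IsMarkovKernel.map _ (ghmt_meas_glue (rep 0))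

/-! ### identification with `ghNu` -/

theorem ghmt_integral_cons (B : GhB S) (l : GhLv S ι) (ls : List (GhLv S ι))
    (rep : ℕ → Fin q → Fin q) (G : Fin q → S → ℝ)
    (P : GhmTΩ S ι q → ℝ) (hPm : Measurable P) (hP : Integrable P (ghmT B (l :: ls) rep G)) :
    ∫ ω, P ω ∂(ghmT B (l :: ls) rep G) =
      ∫ W, (∫ ω', P (ghCons (fun a => W (rep 0 a)) ω'.1, ω'.2)
        ∂(ghmT B ls (fun t => rep (t + 1)) (fun a => G a + l.inc (W (rep 0 a)))))
        ∂(ghmTStep B l ls (rep 0) G) := by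
  simp only [ghmT] at hP ⊢
  rw [Kernel.map_apply _ (ghmt_meas_glue (rep 0))] at hP ⊢
  rw [integral_map_of_stronglyMeasurable (ghmt_meas_glue (rep 0)) hPm.stronglyMeasurable]
  have hP' := (integrable_map_measure hPm.aestronglyMeasurable
    (ghmt_meas_glue (rep 0)).aemeasurable).mp hP
  exact ProbabilityTheory.integral_compProd hP'

theorem ghmt_integrable_cons (B : GhB S) (l : GhLv S ι) (ls : List (GhLv S ι))
    (rep : ℕ → Fin q → Fin q) (G : Fin q → S → ℝ)
    (P : GhmTΩ S ι q → ℝ) (hPm : Measurable P) (hP : Integrable P (ghmT B (l :: ls) rep G)) :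
    ∀ᵐ W ∂(ghmTStep B l ls (rep 0) G),
      Integrable (fun ω' : GhmTΩ S ι q => P (ghCons (fun a => W (rep 0 a)) ω'.1, ω'.2))
        (ghmT B ls (fun t => rep (t + 1)) (fun a => G a + l.inc (W (rep 0 a)))) := by
  simp only [ghmT] at hP
  rw [Kernel.map_apply _ (ghmt_meas_glue (rep 0))] at hP
  have hP' := (integrable_map_measure hPm.aestronglyMeasurable
    (ghmt_meas_glue (rep 0)).aemeasurable).mp hP
  exact hP'.ae_of_compProd

theorem ghmt_meas_sec (P : GhmTΩ S ι q → ℝ) (hPm : Measurable P) (x : Fin q → ι → ℝ) :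
    Measurable (fun ω' : GhmTΩ S ι q => P (ghCons x ω'.1, ω'.2)) :=
  hPm.comp ((ghm_meas_cons.comp (measurable_const.prodMk measurable_fst)).prodMk measurable_snd)

/-- **B2**: integrals against the tree law are `ghNu` -/
theorem ghmt_integral {B : GhB S} (hB : B.Ok) (ls : List (GhLv S ι)) (rep : ℕ → Fin q → Fin q)
    (G : Fin q → S → ℝ) (P : GhmTΩ S ι q → ℝ) (hPm : Measurable P)
    (hP : Integrable P (ghmT B ls rep G)) :
    ∫ ω, P ω ∂(ghmT B ls rep G) = ghNu B ls rep G (fun η σ => P (η, σ)) := by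
  induction ls generalizing rep G P with
  | nil => exact ghmt_integral_T0 hB _ G P hPm
  | cons l ls ih =>
    rw [ghmt_integral_cons B l ls rep G P hPm hP]
    have h1 : ∫ W, (∫ ω', P (ghCons (fun a => W (rep 0 a)) ω'.1, ω'.2)
        ∂(ghmT B ls (fun t => rep (t + 1)) (fun a => G a + l.inc (W (rep 0 a)))))
        ∂(ghmTStep B l ls (rep 0) G)
        = ∫ W, ghNu B ls (fun t => rep (t + 1)) (fun a => G a + l.inc (W (rep 0 a)))
          (fun η σ => P (ghCons (fun a => W (rep 0 a)) η, σ)) ∂(ghmTStep B l ls (rep 0) G) := by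
      refine integral_congr_ae ?_
      filter_upwards [ghmt_integrable_cons B l ls rep G P hPm hP] with W hW
      exact ih _ _ _ (ghmt_meas_sec P hPm _) hW
    rw [h1, ghmt_integral_step]
    rfl

theorem ghmt_integrable_of_bdd {B : GhB S} (hB : B.Ok) {ls : List (GhLv S ι)} (hn : GhNn ls)
    (rep : ℕ → Fin q → Fin q) (G : Fin q → S → ℝ) (P : GhmTΩ S ι q → ℝ) (hPm : Measurable P)
    (C : ℝ) (hC : ∀ ω, |P ω| ≤ C) : Integrable P (ghmT B ls rep G) := by
  have := ghmt_markov hB hn rep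
  exact Integrable.of_bound hPm.aestronglyMeasurable C (ae_of_all _ hC)

theorem ghmt_integral_bdd {B : GhB S} (hB : B.Ok) {ls : List (GhLv S ι)} (hn : GhNn ls)
    (rep : ℕ → Fin q → Fin q) (G : Fin q → S → ℝ) (P : GhmTΩ S ι q → ℝ) (hPm : Measurable P)
    (C : ℝ) (hC : ∀ ω, |P ω| ≤ C) :
    ∫ ω, P ω ∂(ghmT B ls rep G) = ghNu B ls rep G (fun η σ => P (η, σ)) :=
  ghmt_integral hB ls rep G P hPm (ghmt_integrable_of_bdd hB hn rep G P hPm C hC)

/-- the law of a tree from the root field `z` -/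
noncomputable def GhTree.law (T : GhTree q) (B : GhB S) (ls : List (GhLv S ι)) (z : S → ℝ) :
    Measure (GhmTΩ S ι q) := ghmT B ls T.rep (fun _ => z)

theorem ghmt_law_prob {B : GhB S} (hB : B.Ok) {ls : List (GhLv S ι)} (hn : GhNn ls)
    (T : GhTree q) (z : S → ℝ) : IsProbabilityMeasure (T.law B ls z) := by
  have := ghmt_markov hB hn T.rep
  unfold GhTree.law
  infer_instance

theorem ghmt_nu {B : GhB S} (hB : B.Ok) (ls : List (GhLv S ι)) (T : GhTree q) (z : S → ℝ)
    (P : GhmTΩ S ι q → ℝ) (hPm : Measurable P) (hP : Integrable P (T.law B ls z)) :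
    T.nu B ls z (fun η σ => P (η, σ)) = ∫ ω, P ω ∂(T.law B ls z) :=
  (ghmt_integral hB ls T.rep _ P hPm hP).symm

theorem ghmt_nu_bdd {B : GhB S} (hB : B.Ok) {ls : List (GhLv S ι)} (hn : GhNn ls) (T : GhTree q)
    (z : S → ℝ) (P : GhmTΩ S ι q → ℝ) (hPm : Measurable P) (C : ℝ) (hC : ∀ ω, |P ω| ≤ C) :
    T.nu B ls z (fun η σ => P (η, σ)) = ∫ ω, P ω ∂(T.law B ls z) :=
  (ghmt_integral_bdd hB hn T.rep _ P hPm C hC).symm

end Claimed.Agent.R286
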