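import Mathlib

/-!
# Row 286, library: SMOOTH EXTENSION FROM A CLOSED INTERVAL      (OWNER helper68; prefix `sxt_`; Mathlib only)

* `sxt_borel`   : BOREL'S LEMMA.  Every sequence of reals is the jet at `0` of a `C^∞` function.
* `sxt_borel2`  : two prescribed jets at two points.
* `sxt_flat_contDiff` : a function which is `C^∞` on `[a,b]` (one-sided at the ends) and flat at both ends, extended by `0`, is `C^∞` on the line.
* `sxt_extend`  : **`ContDiffOn ℝ ∞ f (Icc a b)` implies that `f` coincides on `[a,b]` with a function which is `C^∞` on the line.**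
-/

set_option autoImplicit false

namespace Claimed.Agent.R286

open Set Filter Topology

/-! ## 1. flat functions -/

/-- `C^∞` on `[a,b]`, all one-sided derivatives vanish at both ends -/
def SxtFlat (h : ℝ → ℝ) (a b : ℝ) : Prop :=
  ContDiffOn ℝ (⊤ : ℕ∞) h (Icc a b) ∧
    ∀ k : ℕ, iteratedDerivWithin k h (Icc a b) a = 0 ∧ iteratedDerivWithin k h (Icc a b) b = 0

theorem sxt_eqns_cite : True := by
  have := @SxtFlat.eq_1
  trivial

theorem sxt_flat_deriv {h : ℝ → ℝ} {a b : ℝ} (hab : a < b) (H : SxtFlat h a b) :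
    SxtFlat (derivWithin h (Icc a b)) a b := by
  refine ⟨H.1.derivWithin (uniqueDiffOn_Icc hab) (by simp), fun k => ?_⟩
  have := H.2 (k + 1)
  rw [iteratedDerivWithin_succ'] at this
  exact this

theorem sxt_flat_hasDeriv {h : ℝ → ℝ} {a b : ℝ} (hab : a < b) (H : SxtFlat h a b) (x : ℝ) :
    HasDerivAt ((Icc a b).indicator h) ((Icc a b).indicator (derivWithin h (Icc a b)) x) x := by
  have hd : ∀ y ∈ Icc a b, HasDerivWithinAt h (derivWithin h (Icc a b) y) (Icc a b) y := fun y hy =>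
    ((H.1.differentiableOn (by simp)) y hy).hasDerivWithinAt
  have ha0 : h a = 0 := by simpa using (H.2 0).1
  have hb0 : h b = 0 := by simpa using (H.2 0).2
  have ha1 : derivWithin h (Icc a b) a = 0 := by
    have := (H.2 1).1
    rwa [iteratedDerivWithin_one] at this
  have hb1 : derivWithin h (Icc a b) b = 0 := by
    have := (H.2 1).2
    rwa [iteratedDerivWithin_one] at this
  have hamem : a ∈ Icc a b := ⟨le_rfl, hab.le⟩
  have hbmem : b ∈ Icc a b := ⟨hab.le, le_rfl⟩
  rcases lt_trichotomy x a with hx | hx | hx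
  · -- left of the interval
    have hx' : x ∉ Icc a b := fun h' => absurd h'.1 (not_le.2 hx)
    rw [indicator_of_notMem hx']
    apply (hasDerivAt_const x (0:ℝ)).congr_of_eventuallyEq
    filter_upwards [Iio_mem_nhds hx] with y hy
    exact indicator_of_notMem (fun h' => absurd h'.1 (not_le.2 hy)) _
  · subst hx
    rw [indicator_of_mem hamem, ha1]
    have h1 : HasDerivWithinAt ((Icc x b).indicator h) 0 (Iic x) x := by
      apply (hasDerivWithinAt_const x (Iic x) (0:ℝ)).congr
      · intro y hy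
        rcases (show y ≤ x from hy).eq_or_lt with h' | h'
        · rw [h', indicator_of_mem hamem, ha0]
        · exact indicator_of_notMem (fun h'' => absurd h''.1 (not_le.2 h')) _
      · rw [indicator_of_mem hamem, ha0]
    have h2 : HasDerivWithinAt ((Icc x b).indicator h) 0 (Ici x) x := by
      have h3 : HasDerivWithinAt ((Icc x b).indicator h) 0 (Icc x b) x := by
        have := hd x hamem
        rw [ha1] at this
        exact this.congr (fun y hy => indicator_of_mem hy _) (indicator_of_mem hamem _)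
      exact h3.mono_of_mem_nhdsWithin (Icc_mem_nhdsGE hab)
    have := h1.union h2
    rwa [Iic_union_Ici, hasDerivWithinAt_univ] at this
  · rcases lt_trichotomy x b with hxb | hxb | hxb
    · have hx' : x ∈ Icc a b := ⟨hx.le, hxb.le⟩
      rw [indicator_of_mem hx']
      apply ((hd x hx').hasDerivAt (Icc_mem_nhds hx hxb)).congr_of_eventuallyEq
      filter_upwards [Icc_mem_nhds hx hxb] with y hy
      exact indicator_of_mem hy _
    · subst hxb
      rw [indicator_of_mem hbmem, hb1]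
      have h1 : HasDerivWithinAt ((Icc a x).indicator h) 0 (Ici x) x := by
        apply (hasDerivWithinAt_const x (Ici x) (0:ℝ)).congr
        · intro y hy
          rcases (show x ≤ y from hy).eq_or_lt with h' | h'
          · rw [← h', indicator_of_mem hbmem, hb0]
          · exact indicator_of_notMem (fun h'' => absurd h''.2 (not_le.2 h')) _
        · rw [indicator_of_mem hbmem, hb0]
      have h2 : HasDerivWithinAt ((Icc a x).indicator h) 0 (Iic x) x := by
        have h3 : HasDerivWithinAt ((Icc a x).indicator h) 0 (Icc a x) x := by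
          have := hd x hbmem
          rw [hb1] at this
          exact this.congr (fun y hy => indicator_of_mem hy _) (indicator_of_mem hbmem _)
        exact h3.mono_of_mem_nhdsWithin (Icc_mem_nhdsLE hab)
      have := h2.union h1
      rwa [Iic_union_Ici, hasDerivWithinAt_univ] at this
    · have hx' : x ∉ Icc a b := fun h' => absurd h'.2 (not_le.2 hxb)
      rw [indicator_of_notMem hx']
      apply (hasDerivAt_const x (0:ℝ)).congr_of_eventuallyEq
      filter_upwards [Ioi_mem_nhds hxb] with y hy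
      exact indicator_of_notMem (fun h' => absurd h'.2 (not_le.2 hy)) _

theorem sxt_flat_contDiff_nat {a b : ℝ} (hab : a < b) (n : ℕ) :
    ∀ h : ℝ → ℝ, SxtFlat h a b → ContDiff ℝ n ((Icc a b).indicator h) := by
  induction n with
  | zero =>
    intro h H
    rw [Nat.cast_zero, contDiff_zero]
    exact continuous_iff_continuousAt.2 (fun x => (sxt_flat_hasDeriv hab H x).continuousAt)
  | succ n ih =>
    intro h H
    have e : ((n + 1 : ℕ) : WithTop ℕ∞) = (n : WithTop ℕ∞) + 1 := by norm_cast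
    rw [e, contDiff_succ_iff_deriv]
    refine ⟨fun x => (sxt_flat_hasDeriv hab H x).differentiableAt, fun h' => by simp at h', ?_⟩
    have e2 : deriv ((Icc a b).indicator h) = (Icc a b).indicator (derivWithin h (Icc a b)) :=
      funext fun x => (sxt_flat_hasDeriv hab H x).deriv
    rw [e2]
    exact ih _ (sxt_flat_deriv hab H)

/-- a flat function extended by zero is smooth -/
theorem sxt_flat_contDiff {a b : ℝ} (hab : a < b) {h : ℝ → ℝ} (H : SxtFlat h a b) :
    ContDiff ℝ (⊤ : ℕ∞) ((Icc a b).indicator h) :=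
  contDiff_infty.2 (fun n => sxt_flat_contDiff_nat hab n h H)

/-! ## 2. Borel's lemma -/

/-- the bump: `1` on `[-1,1]`, `0` outside `(-2,2)` -/
noncomputable def sxtBump : ContDiffBump (0:ℝ) := ⟨1, 2, one_pos, one_lt_two⟩

/-- `y ↦ y^n ψ(y)` -/
noncomputable def sxtPhi (n : ℕ) (y : ℝ) : ℝ := y ^ n * sxtBump y

theorem sxt_eqns_cite2 : True := by
  have := @sxtBump.eq_1
  have := @sxtPhi.eq_1
  trivial

theorem sxt_phi_contDiff (n : ℕ) : ContDiff ℝ (⊤ : ℕ∞) (sxtPhi n) :=
  (contDiff_id.pow n).mul sxtBump.contDiff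

theorem sxt_phi_supp (n : ℕ) : HasCompactSupport (sxtPhi n) :=
  (sxtBump.hasCompactSupport).mul_left

theorem sxt_phi_bdd (n k : ℕ) : ∃ C : ℝ, ∀ y, |iteratedDeriv k (sxtPhi n) y| ≤ C := by
  have h1 : Continuous (iteratedFDeriv ℝ k (sxtPhi n)) :=
    (sxt_phi_contDiff n).continuous_iteratedFDeriv (by exact_mod_cast le_top)
  obtain ⟨C, hC⟩ := h1.bounded_above_of_compact_support ((sxt_phi_supp n).iteratedFDeriv k)
  refine ⟨C, fun y => ?_⟩
  rw [← Real.norm_eq_abs, ← norm_iteratedFDeriv_eq_norm_iteratedDeriv]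
  exact hC y

theorem sxt_phi_jet (n k : ℕ) : iteratedDeriv k (sxtPhi n) 0 = if k = n then (n.factorial : ℝ) else 0 := by
  have h : sxtPhi n =ᶠ[𝓝 0] fun y => y ^ n := by
    filter_upwards [sxtBump.eventuallyEq_one] with y hy
    simp only [sxtPhi, hy, Pi.one_apply, mul_one]
  rw [h.iteratedDeriv_eq k, iteratedDeriv_fun_pow_zero]
  split_ifs <;> simp

theorem sxt_term_deriv (A L : ℝ) (n k : ℕ) (x : ℝ) :
    iteratedDeriv k (fun x => A * sxtPhi n (L * x)) x = A * (L ^ k * iteratedDeriv k (sxtPhi n) (L * x)) := by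
  rw [iteratedDeriv_const_mul_field,
    iteratedDeriv_comp_const_mul ((sxt_phi_contDiff n).of_le (by exact_mod_cast le_top)) L]

/-- **BOREL'S LEMMA** -/
theorem sxt_borel (c : ℕ → ℝ) : ∃ g : ℝ → ℝ, ContDiff ℝ (⊤ : ℕ∞) g ∧ ∀ k, iteratedDeriv k g 0 = c k := by
  choose C hC using sxt_phi_bdd
  have hC0 : ∀ n k, 0 ≤ C n k := fun n k => le_trans (abs_nonneg _) (hC n k 0)
  obtain ⟨M, hM⟩ : ∃ M : ℕ → ℝ, M = fun n => ∑ k ∈ Finset.range n, C n k := ⟨_, rfl⟩
  have hM0 : ∀ n, 0 ≤ M n := fun n => by rw [hM]; exact Finset.sum_nonneg (fun k _ => hC0 n k)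
  obtain ⟨L, hL⟩ : ∃ L : ℕ → ℝ, L = fun n => 1 + |c n| * M n * 2 ^ n := ⟨_, rfl⟩
  have hL1 : ∀ n, 1 ≤ L n := fun n => by
    rw [hL]
    have := mul_nonneg (mul_nonneg (abs_nonneg (c n)) (hM0 n)) (pow_nonneg (zero_le_two (α := ℝ)) n)
    simp only
    linarith
  have hLpos : ∀ n, 0 < L n := fun n => lt_of_lt_of_le one_pos (hL1 n)
  obtain ⟨A, hA⟩ : ∃ A : ℕ → ℝ, A = fun n => c n / (n.factorial * L n ^ n) := ⟨_, rfl⟩
  obtain ⟨F, hF⟩ : ∃ F : ℕ → ℝ → ℝ, F = fun n x => A n * sxtPhi n (L n * x) := ⟨_, rfl⟩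
  have hFd : ∀ n k x, iteratedDeriv k (F n) x = A n * (L n ^ k * iteratedDeriv k (sxtPhi n) (L n * x)) := by
    intro n k x
    rw [hF]
    exact sxt_term_deriv _ _ _ _ _
  have hFc : ∀ n, ContDiff ℝ (⊤ : ℕ∞) (F n) := by
    intro n
    rw [hF]
    exact contDiff_const.mul ((sxt_phi_contDiff n).comp (contDiff_const.mul contDiff_id))
  obtain ⟨v, hv⟩ : ∃ v : ℕ → ℕ → ℝ, v = fun k n => |A n| * (L n ^ k * C n k) := ⟨_, rfl⟩
  have hv0 : ∀ k n, 0 ≤ v k n := fun k n => by
    rw [hv]
    exact mul_nonneg (abs_nonneg _) (mul_nonneg (pow_nonneg (hLpos n).le k) (hC0 n k))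
  have hbound : ∀ (k n : ℕ) (x : ℝ), ‖iteratedFDeriv ℝ k (F n) x‖ ≤ v k n := by
    intro k n x
    rw [norm_iteratedFDeriv_eq_norm_iteratedDeriv, hFd, hv, Real.norm_eq_abs, abs_mul, abs_mul,
      abs_of_nonneg (pow_nonneg (hLpos n).le k)]
    exact mul_le_mul_of_nonneg_left (mul_le_mul_of_nonneg_left (hC n k _) (pow_nonneg (hLpos n).le k))
      (abs_nonneg _)
  have hsmall : ∀ k n, k < n → v k n ≤ (1 / 2) ^ n := by
    intro k n hkn
    have h1 : |c n| * C n k * 2 ^ n ≤ L n := by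
      have h0 : C n k ≤ M n := by
        rw [hM]
        exact Finset.single_le_sum (f := fun j => C n j) (fun j _ => hC0 n j) (Finset.mem_range.2 hkn)
      have h2 : |c n| * C n k * 2 ^ n ≤ |c n| * M n * 2 ^ n :=
        mul_le_mul_of_nonneg_right (mul_le_mul_of_nonneg_left h0 (abs_nonneg _)) (by positivity)
      rw [hL]
      simp only
      linarith
    have h3 : L n ^ (k + 1) ≤ L n ^ n := pow_le_pow_right₀ (hL1 n) hkn
    have hf : (1:ℝ) ≤ n.factorial := by exact_mod_cast Nat.succ_le_of_lt (Nat.factorial_pos n)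
    have hLn : 0 < L n ^ n := pow_pos (hLpos n) n
    have hAn : |A n| = |c n| / (n.factorial * L n ^ n) := by
      rw [hA]
      simp only
      rw [abs_div, abs_of_pos (by positivity : (0:ℝ) < n.factorial * L n ^ n)]
    rw [hv]
    simp only
    rw [hAn, div_mul_eq_mul_div, div_le_iff₀ (by positivity)]
    have h4 : |c n| * (L n ^ k * C n k) * 2 ^ n ≤ L n ^ n := by
      calc |c n| * (L n ^ k * C n k) * 2 ^ n = L n ^ k * (|c n| * C n k * 2 ^ n) := by ring
        _ ≤ L n ^ k * L n := mul_le_mul_of_nonneg_left h1 (pow_nonneg (hLpos n).le k)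
        _ = L n ^ (k + 1) := by ring
        _ ≤ L n ^ n := h3
    have h5 : (1 / 2 : ℝ) ^ n * 2 ^ n = 1 := by rw [← mul_pow]; norm_num
    have h6 : (0:ℝ) < (1 / 2) ^ n := by positivity
    calc |c n| * (L n ^ k * C n k) = (1 / 2) ^ n * 2 ^ n * (|c n| * (L n ^ k * C n k)) := by rw [h5, one_mul]
      _ = (1 / 2) ^ n * (|c n| * (L n ^ k * C n k) * 2 ^ n) := by ring
      _ ≤ (1 / 2) ^ n * L n ^ n := mul_le_mul_of_nonneg_left h4 h6.le
      _ ≤ (1 / 2) ^ n * (n.factorial * L n ^ n) := by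
          apply mul_le_mul_of_nonneg_left _ h6.le
          nlinarith
  have hsum : ∀ k, Summable (v k) := by
    intro k
    apply Summable.of_norm_bounded_eventually_nat summable_geometric_two
    filter_upwards [eventually_gt_atTop k] with n hn
    rw [Real.norm_eq_abs, abs_of_nonneg (hv0 k n)]
    exact hsmall k n hn
  refine ⟨fun x => ∑' n, F n x, contDiff_tsum hFc (fun k _ => hsum k) (fun k n x _ => hbound k n x), ?_⟩
  intro k
  have h1 := iteratedFDeriv_tsum_apply (N := ⊤) hFc (fun k _ => hsum k) (fun k n x _ => hbound k n x)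
    (k := k) le_top 0
  have h2 : Summable fun n => iteratedFDeriv ℝ k (F n) 0 :=
    Summable.of_norm_bounded (hsum k) (fun n => hbound k n 0)
  rw [iteratedDeriv_eq_iteratedFDeriv, h1, ContinuousMultilinearMap.tsum_eval h2]
  have h3 : ∀ n, (iteratedFDeriv ℝ k (F n) 0) (fun _ => 1) = if n = k then c k else 0 := by
    intro n
    rw [← iteratedDeriv_eq_iteratedFDeriv, hFd, mul_zero, sxt_phi_jet]
    by_cases hnk : n = k
    · subst hnk
      rw [if_pos rfl, if_pos rfl, hA]
      simp only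
      have := (hLpos n).ne'
      have hf : (n.factorial : ℝ) ≠ 0 := by exact_mod_cast Nat.factorial_ne_zero n
      field_simp
    · rw [if_neg (fun h => hnk h.symm), if_neg hnk]
      ring
  simp only [h3]
  rw [tsum_ite_eq]

/-- Borel's lemma at a point -/
theorem sxt_borel_at (x0 : ℝ) (c : ℕ → ℝ) :
    ∃ g : ℝ → ℝ, ContDiff ℝ (⊤ : ℕ∞) g ∧ ∀ k, iteratedDeriv k g x0 = c k := by
  obtain ⟨g, hg, hk⟩ := sxt_borel c
  refine ⟨fun x => g (x - x0), hg.comp (contDiff_id.sub contDiff_const), fun k => ?_⟩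
  rw [iteratedDeriv_comp_sub_const]
  simp only [sub_self, hk]

/-- two prescribed jets -/
theorem sxt_borel2 {a b : ℝ} (hab : a < b) (c d : ℕ → ℝ) :
    ∃ G : ℝ → ℝ, ContDiff ℝ (⊤ : ℕ∞) G ∧ (∀ k, iteratedDeriv k G a = c k) ∧ ∀ k, iteratedDeriv k G b = d k := by
  obtain ⟨g1, hg1, hk1⟩ := sxt_borel_at a c
  obtain ⟨g2, hg2, hk2⟩ := sxt_borel_at b d
  obtain ⟨χ, hχ⟩ : ∃ χ : ℝ → ℝ, χ = fun x => Real.smoothTransition (3 * (x - a) / (b - a) - 1) := ⟨_, rfl⟩
  have hba : 0 < b - a := sub_pos.2 hab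
  have hχc : ContDiff ℝ (⊤ : ℕ∞) χ := by
    rw [hχ]
    exact Real.smoothTransition.contDiff.comp
      (((contDiff_const.mul (contDiff_id.sub contDiff_const)).div_const _).sub contDiff_const)
  have hχ0 : ∀ x, x < a + (b - a) / 3 → χ x = 0 := by
    intro x hx
    rw [hχ]
    apply Real.smoothTransition.zero_of_nonpos
    rw [sub_nonpos, div_le_one hba]
    linarith
  have hχ1 : ∀ x, a + 2 * (b - a) / 3 < x → χ x = 1 := by
    intro x hx
    rw [hχ]
    apply Real.smoothTransition.one_of_one_le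
    rw [le_sub_iff_add_le, le_div_iff₀ hba]
    linarith
  refine ⟨fun x => (1 - χ x) * g1 x + χ x * g2 x, ((contDiff_const.sub hχc).mul hg1).add (hχc.mul hg2), ?_, ?_⟩
  · intro k
    have h : (fun x => (1 - χ x) * g1 x + χ x * g2 x) =ᶠ[𝓝 a] g1 := by
      filter_upwards [Iio_mem_nhds (show a < a + (b - a) / 3 by linarith)] with x hx
      rw [hχ0 x hx]; ring
    rw [h.iteratedDeriv_eq k, hk1]
  · intro k
    have h : (fun x => (1 - χ x) * g1 x + χ x * g2 x) =ᶠ[𝓝 b] g2 := by
      filter_upwards [Ioi_mem_nhds (show a + 2 * (b - a) / 3 < b by linarith)] with x hx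
      rw [hχ1 x hx]; ring
    rw [h.iteratedDeriv_eq k, hk2]

/-! ## 3. the extension theorem -/

/-- **SMOOTH EXTENSION**: a function which is `C^∞` on a closed interval (one-sided at the ends) is the restriction of a function which is
`C^∞` on the line. -/
theorem sxt_extend {f : ℝ → ℝ} {a b : ℝ} (hab : a < b) (hf : ContDiffOn ℝ (⊤ : ℕ∞) f (Icc a b)) :
    ∃ g : ℝ → ℝ, ContDiff ℝ (⊤ : ℕ∞) g ∧ ∀ x ∈ Icc a b, g x = f x := by
  obtain ⟨G, hG, hGa, hGb⟩ := sxt_borel2 hab (fun k => iteratedDerivWithin k f (Icc a b) a)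
    (fun k => iteratedDerivWithin k f (Icc a b) b)
  have hu := uniqueDiffOn_Icc hab
  have hamem : a ∈ Icc a b := ⟨le_rfl, hab.le⟩
  have hbmem : b ∈ Icc a b := ⟨hab.le, le_rfl⟩
  have hk : ∀ k : ℕ, ((k : ℕ∞) : WithTop ℕ∞) ≤ ((⊤ : ℕ∞) : WithTop ℕ∞) := fun k => by exact_mod_cast le_top
  have H : SxtFlat (f - G) a b := by
    refine ⟨hf.sub hG.contDiffOn, fun k => ⟨?_, ?_⟩⟩
    · rw [iteratedDerivWithin_sub hamem hu ((hf a hamem).of_le (hk k)) ((hG.contDiffAt.contDiffWithinAt).of_le (hk k)),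
        iteratedDerivWithin_eq_iteratedDeriv hu (hG.contDiffAt.of_le (hk k)) hamem, hGa, sub_self]
    · rw [iteratedDerivWithin_sub hbmem hu ((hf b hbmem).of_le (hk k)) ((hG.contDiffAt.contDiffWithinAt).of_le (hk k)),
        iteratedDerivWithin_eq_iteratedDeriv hu (hG.contDiffAt.of_le (hk k)) hbmem, hGb, sub_self]
  refine ⟨fun x => (Icc a b).indicator (f - G) x + G x, (sxt_flat_contDiff hab H).add hG, fun x hx => ?_⟩
  simp only [indicator_of_mem hx, Pi.sub_apply, sub_add_cancel]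

/-- the hypothesis in the form "`C^r` for every `r`" -/
theorem sxt_extend' {f : ℝ → ℝ} {a b : ℝ} (hab : a < b) (hf : ∀ r : ℕ, ContDiffOn ℝ r f (Icc a b)) :
    ∃ g : ℝ → ℝ, ContDiff ℝ (⊤ : ℕ∞) g ∧ ∀ x ∈ Icc a b, g x = f x :=
  sxt_extend hab (contDiffOn_infty.2 hf)

end Claimed.Agent.R286
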