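import Mathlib

/-!
# Row 286, Lib/MartW : martingale inequalities by measurable weights      (owner helper203; prefix `mt_`, def `mtMax`)      Mathlib only, no sorry

Box MART of LL Lemma "Residual blocks and integrated increments" (06-global.tex, (global-grid), (global-dual-doob)).
Discrete time, `ℱ : Filtration ℕ m0`, Mathlib's `μ[· | ℱ k]`, real exponents, finite measure; all bounds for the `q`-th powers of the `L^q` norms.
* `mt_garsia_weights`  Garsia's lemma without filtration (comparison against the weights `A_{j+1}^(q-1) - A_j^(q-1)`).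
* `mt_garsia_neveu`    conditional form.
* `mt_dual_doob`       `∫ (∑ₖ μ[V k | ℱ k])^q ≤ q^q ∫ (∑ₖ V k)^q`,  `V k ≥ 0` a.e., not adapted, `q ≥ 1`.
* `mt_doob_Lp`, `mt_doob_Lp_norm`   Doob `L^p` for nonnegative submartingales / Banach valued martingales.
* `mt_square_fn`       `∫ (∑ₖ ‖M (k+1) - M k‖²)^q ≤ (16 q)^q ∫ (‖M n - M 0‖²)^q`,  Hilbert valued, dimension free, `q ≥ 1`.
-/

set_option autoImplicit false
open MeasureTheory Filter Finset
open scoped ENNReal NNReal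

namespace Claimed.Agent.R286.MT

/-! ### Real-variable lemmas -/

/-- Young's inequality in the form used everywhere below. -/
lemma mt_young {q a b : ℝ} (hq : 1 < q) (ha : 0 ≤ a) (hb : 0 ≤ b) :
    a ^ (q - 1) * b ≤ (1 - 1 / q) * a ^ q + b ^ q / q := by
  have hq0 : 0 < q := by linarith
  have h := Real.geom_mean_le_arith_mean2_weighted (w₁ := 1 - 1 / q) (w₂ := 1 / q)
    (p₁ := a ^ q) (p₂ := b ^ q) (by
      have : 1 / q ≤ 1 := by rw [div_le_one hq0]; exact hq.le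
      linarith) (by positivity) (by positivity) (by positivity) (by ring)
  have h1 : (a ^ q) ^ (1 - 1 / q) = a ^ (q - 1) := by
    rw [← Real.rpow_mul ha]; congr 1; field_simp
  have h2 : (b ^ q) ^ (1 / q) = b := by
    rw [← Real.rpow_mul hb]; rw [mul_one_div_cancel hq0.ne']; exact Real.rpow_one b
  rw [h1, h2] at h
  calc a ^ (q - 1) * b ≤ (1 - 1 / q) * a ^ q + 1 / q * b ^ q := h
    _ = (1 - 1 / q) * a ^ q + b ^ q / q := by ring

lemma mt_rpow_pred_mul {q x : ℝ} (hq : 1 < q) (hx : 0 ≤ x) : x ^ (q - 1) * x = x ^ q := by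
  rcases hx.eq_or_lt with rfl | hx
  · rw [Real.zero_rpow (by linarith : q ≠ 0)]; simp
  · rw [← Real.rpow_add_one hx.ne']; congr 1; ring

/-- tangent line inequality `x^q - y^q ≤ q x^(q-1) (x-y)`. -/
lemma mt_rpow_sub_le {q x y : ℝ} (hq : 1 < q) (hx : 0 ≤ x) (hy : 0 ≤ y) :
    x ^ q - y ^ q ≤ q * (x ^ (q - 1) * (x - y)) := by
  have hq0 : 0 < q := by linarith
  have h := mt_young hq hx hy
  have h2 := mt_rpow_pred_mul hq hx
  have h3 : q * (x ^ (q - 1) * y) ≤ (q - 1) * x ^ q + y ^ q := by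
    have := mul_le_mul_of_nonneg_left h hq0.le
    calc q * (x ^ (q - 1) * y) ≤ q * ((1 - 1 / q) * x ^ q + y ^ q / q) := this
      _ = (q - 1) * x ^ q + y ^ q := by field_simp
  nlinarith [h3, h2]

/-- the inequality behind Doob's `L^p` bound. -/
lemma mt_rpow_doob_step {p x y : ℝ} (hp : 1 < p) (hx : 0 ≤ x) (hy : 0 ≤ y) :
    (1 - 1 / p) * (x ^ p - y ^ p) ≤ (x ^ (p - 1) - y ^ (p - 1)) * x := by
  have h := mt_young hp hy hx
  have h2 := mt_rpow_pred_mul hp hx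
  have : (x ^ (p - 1) - y ^ (p - 1)) * x = x ^ p - y ^ (p - 1) * x := by rw [sub_mul, h2]
  rw [this]
  have e : x ^ p / p = (1 / p) * x ^ p := by ring
  rw [e] at h
  nlinarith [h]

/-- Abel summation identity. -/
lemma mt_abel_id (A φ : ℕ → ℝ) (c : ℝ) (h0 : φ 0 = 0) (m : ℕ) :
    ∑ j ∈ range m, (φ (j + 1) - φ j) * (c - A j)
      = ∑ k ∈ range m, (A (k + 1) - A k) * φ (k + 1) + φ m * (c - A m) := by
  induction m with
  | zero => simp [h0]
  | succ m ih => rw [sum_range_succ, sum_range_succ, ih]; ring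

/-- the pointwise inequality of Garsia's lemma. -/
lemma mt_abel {q : ℝ} (hq : 1 < q) (A : ℕ → ℝ) (h0 : A 0 = 0) (hmono : Monotone A) (n : ℕ) :
    A n ^ q ≤ q * ∑ j ∈ range n, (A (j + 1) ^ (q - 1) - A j ^ (q - 1)) * (A n - A j) := by
  have hnn : ∀ j, 0 ≤ A j := fun j => h0 ▸ hmono (Nat.zero_le j)
  have hid := mt_abel_id A (fun j => A j ^ (q - 1)) (A n)
    (by simp only [h0]; exact Real.zero_rpow (by linarith)) n
  rw [hid, sub_self, mul_zero, add_zero, mul_sum]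
  have htel : A n ^ q = ∑ k ∈ range n, (A (k + 1) ^ q - A k ^ q) := by
    rw [sum_range_sub (fun k => A k ^ q), h0, Real.zero_rpow (by linarith), sub_zero]
  rw [htel]
  refine sum_le_sum fun k _ => ?_
  have := mt_rpow_sub_le hq (hnn (k + 1)) (hnn k)
  calc A (k + 1) ^ q - A k ^ q ≤ q * (A (k + 1) ^ (q - 1) * (A (k + 1) - A k)) := this
    _ = q * ((A (k + 1) - A k) * A (k + 1) ^ (q - 1)) := by ring

/-- closing algebra. -/
lemma mt_close {q X G c : ℝ} (hq : 1 < q) (hX : 0 ≤ X) (hG : 0 ≤ G) (hc : 0 ≤ c)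
    (h : X ≤ c * (X ^ (1 - 1 / q) * G ^ (1 / q))) : X ≤ c ^ q * G := by
  have hq0 : 0 < q := by linarith
  rcases hX.eq_or_lt with rfl | hXpos
  · positivity
  have hpos : 0 < X ^ (1 - 1 / q) := Real.rpow_pos_of_pos hXpos _
  have hsplit : X = X ^ (1 - 1 / q) * X ^ (1 / q) := by
    rw [← Real.rpow_add hXpos]; simp
  have h1 : X ^ (1 / q) ≤ c * G ^ (1 / q) := by
    have : X ^ (1 - 1 / q) * X ^ (1 / q) ≤ X ^ (1 - 1 / q) * (c * G ^ (1 / q)) := by
      calc X ^ (1 - 1 / q) * X ^ (1 / q) = X := hsplit.symm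
        _ ≤ c * (X ^ (1 - 1 / q) * G ^ (1 / q)) := h
        _ = X ^ (1 - 1 / q) * (c * G ^ (1 / q)) := by ring
    exact le_of_mul_le_mul_left this hpos
  have h2 := Real.rpow_le_rpow (by positivity) h1 hq0.le
  rw [← Real.rpow_mul hX, one_div_mul_cancel hq0.ne', Real.rpow_one,
    Real.mul_rpow hc (by positivity), ← Real.rpow_mul hG, one_div_mul_cancel hq0.ne',
    Real.rpow_one] at h2
  exact h2


/-! ### Integrability and Hölder -/

variable {Ω : Type*} {m0 : MeasurableSpace Ω} {μ : Measure Ω}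

lemma mt_integrable_abs_rpow {q : ℝ} (hq : 0 < q) {a : Ω → ℝ}
    (ha : MemLp a (ENNReal.ofReal q) μ) : Integrable (fun ω => |a ω| ^ q) μ := by
  have := ha.integrable_norm_rpow (by simp [hq]) (by simp)
  simpa [ENNReal.toReal_ofReal hq.le] using this

lemma mt_integrable_rpow {q : ℝ} (hq : 0 < q) {a : Ω → ℝ} (ha0 : 0 ≤ᵐ[μ] a)
    (ha : MemLp a (ENNReal.ofReal q) μ) : Integrable (fun ω => a ω ^ q) μ := by
  refine (mt_integrable_abs_rpow hq ha).congr ?_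
  filter_upwards [ha0] with ω h
  rw [abs_of_nonneg h]

lemma mt_integrable_rpow_mul {q : ℝ} (hq : 1 < q) {a g : Ω → ℝ}
    (ha : MemLp a (ENNReal.ofReal q) μ) (hg : MemLp g (ENNReal.ofReal q) μ) :
    Integrable (fun ω => a ω ^ (q - 1) * g ω) μ := by
  have hq0 : 0 < q := by linarith
  have h1 := mt_integrable_abs_rpow hq0 ha
  have h2 := mt_integrable_abs_rpow hq0 hg
  refine Integrable.mono' ((h1.const_mul (1 - 1 / q)).add (h2.div_const q)) ?_ ?_
  · exact ((ha.1.aemeasurable.pow_const _).mul hg.1.aemeasurable).aestronglyMeasurable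
  · filter_upwards with ω
    rw [Real.norm_eq_abs, abs_mul]
    calc |a ω ^ (q - 1)| * |g ω| ≤ |a ω| ^ (q - 1) * |g ω| := by
          gcongr; exact Real.abs_rpow_le_abs_rpow _ _
      _ ≤ _ := mt_young hq (abs_nonneg _) (abs_nonneg _)

lemma mt_memLp_rpow_pred {q : ℝ} (hq : 1 < q) {a : Ω → ℝ} (ha0 : 0 ≤ᵐ[μ] a)
    (ha : MemLp a (ENNReal.ofReal q) μ) :
    MemLp (fun ω => a ω ^ (q - 1)) (ENNReal.ofReal (q / (q - 1))) μ := by
  have hq0 : 0 < q := by linarith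
  have hq1 : 0 < q - 1 := by linarith
  have hqq : 0 < q / (q - 1) := by positivity
  rw [← integrable_norm_rpow_iff (ha.1.aemeasurable.pow_const _).aestronglyMeasurable
    (by simp [hqq]) (by simp), ENNReal.toReal_ofReal hqq.le]
  refine (mt_integrable_rpow hq0 ha0 ha).congr ?_
  filter_upwards [ha0] with ω h
  rw [Real.norm_eq_abs, abs_of_nonneg (Real.rpow_nonneg h _), ← Real.rpow_mul h]
  congr 1; field_simp

lemma mt_holder {q : ℝ} (hq : 1 < q) {a g : Ω → ℝ} (ha0 : 0 ≤ᵐ[μ] a) (hg0 : 0 ≤ᵐ[μ] g)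
    (ha : MemLp a (ENNReal.ofReal q) μ) (hg : MemLp g (ENNReal.ofReal q) μ) :
    ∫ ω, a ω ^ (q - 1) * g ω ∂μ
      ≤ (∫ ω, a ω ^ q ∂μ) ^ (1 - 1 / q) * (∫ ω, g ω ^ q ∂μ) ^ (1 / q) := by
  have hq0 : 0 < q := by linarith
  have hq1 : 0 < q - 1 := by linarith
  have hconj : (q / (q - 1)).HolderConjugate q := by
    have := (Real.HolderConjugate.conjExponent hq).symm
    simpa [Real.conjExponent] using this
  have h := integral_mul_le_Lp_mul_Lq_of_nonneg hconj (μ := μ)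
    (f := fun ω => a ω ^ (q - 1)) (g := g)
    (by filter_upwards [ha0] with ω h using Real.rpow_nonneg h _) hg0
    (mt_memLp_rpow_pred hq ha0 ha) hg
  have e1 : ∫ ω, (a ω ^ (q - 1)) ^ (q / (q - 1)) ∂μ = ∫ ω, a ω ^ q ∂μ := by
    refine integral_congr_ae ?_
    filter_upwards [ha0] with ω h
    rw [← Real.rpow_mul h]; congr 1; field_simp
  have e2 : 1 / (q / (q - 1)) = 1 - 1 / q := by field_simp
  rw [e1, e2] at h
  exact h

/-! ### Garsia's lemma, weight form -/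

/-- **Garsia's lemma**, in a form without any filtration: the only probabilistic input is the
comparison of the two integrals against the weights `A_{j+1}^{q-1} - A_j^{q-1}`. -/
theorem mt_garsia_weights {q : ℝ} (hq : 1 < q) (n : ℕ) (A : ℕ → Ω → ℝ) (γ : Ω → ℝ)
    (hA0 : ∀ᵐ ω ∂μ, A 0 ω = 0) (hAm : ∀ᵐ ω ∂μ, Monotone (fun j => A j ω))
    (hAq : ∀ j ≤ n, MemLp (A j) (ENNReal.ofReal q) μ)
    (hγ0 : 0 ≤ᵐ[μ] γ) (hγq : MemLp γ (ENNReal.ofReal q) μ)
    (hw : ∀ j < n, ∫ ω, (A (j + 1) ω ^ (q - 1) - A j ω ^ (q - 1)) * (A n ω - A j ω) ∂μ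
        ≤ ∫ ω, (A (j + 1) ω ^ (q - 1) - A j ω ^ (q - 1)) * γ ω ∂μ) :
    ∫ ω, A n ω ^ q ∂μ ≤ q ^ q * ∫ ω, γ ω ^ q ∂μ := by
  have hq0 : 0 < q := by linarith
  have hAnn : ∀ j, 0 ≤ᵐ[μ] A j := fun j => by
    filter_upwards [hA0, hAm] with ω h0 hm
    have := hm (Nat.zero_le j)
    simp only [h0] at this
    exact this
  have hint : ∀ j < n, ∀ (g : Ω → ℝ), MemLp g (ENNReal.ofReal q) μ →
      Integrable (fun ω => (A (j + 1) ω ^ (q - 1) - A j ω ^ (q - 1)) * g ω) μ :=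
    fun j hj g hg => by
    have := (mt_integrable_rpow_mul hq (hAq (j + 1) hj) hg).sub
      (mt_integrable_rpow_mul hq (hAq j hj.le) hg)
    refine this.congr ?_
    filter_upwards with ω
    simp only [Pi.sub_apply]; ring
  have hintd : ∀ j < n,
      Integrable (fun ω => (A (j + 1) ω ^ (q - 1) - A j ω ^ (q - 1)) * (A n ω - A j ω)) μ :=
    fun j hj => hint j hj _ ((hAq n le_rfl).sub (hAq j hj.le))
  refine mt_close hq (integral_nonneg_of_ae ?_) (integral_nonneg_of_ae ?_) hq0.le ?_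
  · filter_upwards [hAnn n] with ω h using Real.rpow_nonneg h _
  · filter_upwards [hγ0] with ω h using Real.rpow_nonneg h _
  calc ∫ ω, A n ω ^ q ∂μ
      ≤ ∫ ω, q * ∑ j ∈ range n, (A (j + 1) ω ^ (q - 1) - A j ω ^ (q - 1)) * (A n ω - A j ω) ∂μ := by
        refine integral_mono_ae (mt_integrable_rpow hq0 (hAnn n) (hAq n le_rfl)) ?_ ?_
        · exact (integrable_finsetSum _ fun j hj => hintd j (mem_range.1 hj)).const_mul q
        · filter_upwards [hA0, hAm] with ω h0 hm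
          exact mt_abel hq (fun j => A j ω) h0 hm n
    _ = q * ∑ j ∈ range n, ∫ ω, (A (j + 1) ω ^ (q - 1) - A j ω ^ (q - 1)) * (A n ω - A j ω) ∂μ := by
        rw [integral_const_mul, integral_finsetSum _ fun j hj => hintd j (mem_range.1 hj)]
    _ ≤ q * ∑ j ∈ range n, ∫ ω, (A (j + 1) ω ^ (q - 1) - A j ω ^ (q - 1)) * γ ω ∂μ := by
        exact mul_le_mul_of_nonneg_left (sum_le_sum fun j hj => hw j (mem_range.1 hj)) hq0.le
    _ = q * ∫ ω, A n ω ^ (q - 1) * γ ω ∂μ := by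
        rw [← integral_finsetSum _ fun j hj => hint j (mem_range.1 hj) _ hγq]
        congr 1
        refine integral_congr_ae ?_
        filter_upwards [hA0] with ω h0
        rw [← sum_mul, sum_range_sub (fun j => A j ω ^ (q - 1)), h0,
          Real.zero_rpow (by linarith), sub_zero]
    _ ≤ q * ((∫ ω, A n ω ^ q ∂μ) ^ (1 - 1 / q) * (∫ ω, γ ω ^ q ∂μ) ^ (1 / q)) := by
        gcongr
        exact mt_holder hq (hAnn n) hγ0 (hAq n le_rfl) hγq

/-! ### Weights and conditional expectations -/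

lemma mt_integral_mul_condExp {m : MeasurableSpace Ω} (hm : m ≤ m0) [SigmaFinite (μ.trim hm)]
    {w V : Ω → ℝ} (hw : StronglyMeasurable[m] w) (hV : Integrable V μ)
    (hwV : Integrable (fun ω => w ω * V ω) μ) :
    ∫ ω, w ω * (μ[V | m]) ω ∂μ = ∫ ω, w ω * V ω ∂μ := by
  have h := condExp_mul_of_stronglyMeasurable_left (μ := μ) hw hwV hV
  rw [← integral_condExp hm (f := fun ω => w ω * V ω)]
  refine integral_congr_ae ?_
  filter_upwards [h] with ω hω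
  have : (μ[fun ω => w ω * V ω | m]) ω = (μ[w * V | m]) ω := rfl
  rw [this, hω]; rfl

lemma mt_weight_meas {m : MeasurableSpace Ω} {a b : Ω → ℝ} (r : ℝ)
    (ha : StronglyMeasurable[m] a) (hb : StronglyMeasurable[m] b) :
    StronglyMeasurable[m] (fun ω => a ω ^ r - b ω ^ r) :=
  ((ha.measurable.pow_const r).sub (hb.measurable.pow_const r)).stronglyMeasurable

lemma mt_weight_integrable {q : ℝ} (hq : 1 < q) {a b g : Ω → ℝ}
    (ha : MemLp a (ENNReal.ofReal q) μ) (hb : MemLp b (ENNReal.ofReal q) μ)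
    (hg : MemLp g (ENNReal.ofReal q) μ) :
    Integrable (fun ω => (a ω ^ (q - 1) - b ω ^ (q - 1)) * g ω) μ := by
  refine ((mt_integrable_rpow_mul hq ha hg).sub (mt_integrable_rpow_mul hq hb hg)).congr ?_
  filter_upwards with ω
  simp only [Pi.sub_apply]; ring

lemma mt_memLp_integrable [IsFiniteMeasure μ] {q : ℝ} (hq : 1 ≤ q) {g : Ω → ℝ}
    (hg : MemLp g (ENNReal.ofReal q) μ) : Integrable g μ :=
  hg.integrable (by rw [← ENNReal.ofReal_one]; exact ENNReal.ofReal_le_ofReal hq)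

/-- **Garsia--Neveu lemma**, conditional form.  `𝒢 j` is any sub-σ-algebra for which `A j` and
`A (j+1)` are measurable (`𝒢 j = ℱ (j+1)` for adapted `A`, `𝒢 j = ℱ j` for predictable `A`). -/
theorem mt_garsia_neveu [IsFiniteMeasure μ] (𝒢 : ℕ → MeasurableSpace Ω) (h𝒢 : ∀ j, 𝒢 j ≤ m0)
    {q : ℝ} (hq : 1 < q) (n : ℕ) (A : ℕ → Ω → ℝ) (γ : Ω → ℝ)
    (hA0 : ∀ᵐ ω ∂μ, A 0 ω = 0) (hAm : ∀ᵐ ω ∂μ, Monotone (fun j => A j ω))
    (hAq : ∀ j, MemLp (A j) (ENNReal.ofReal q) μ)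
    (hAl : ∀ j < n, StronglyMeasurable[𝒢 j] (A j))
    (hAr : ∀ j < n, StronglyMeasurable[𝒢 j] (A (j + 1)))
    (hγ0 : 0 ≤ᵐ[μ] γ) (hγq : MemLp γ (ENNReal.ofReal q) μ)
    (hc : ∀ j < n, μ[fun ω => A n ω - A j ω | 𝒢 j] ≤ᵐ[μ] μ[γ | 𝒢 j]) :
    ∫ ω, A n ω ^ q ∂μ ≤ q ^ q * ∫ ω, γ ω ^ q ∂μ := by
  refine mt_garsia_weights hq n A γ hA0 hAm (fun j _ => hAq j) hγ0 hγq fun j hj => ?_
  have hwm := mt_weight_meas (q - 1) (hAr j hj) (hAl j hj)
  have hd : MemLp (fun ω => A n ω - A j ω) (ENNReal.ofReal q) μ := (hAq n).sub (hAq j)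
  rw [← mt_integral_mul_condExp (h𝒢 j) hwm (mt_memLp_integrable hq.le hd)
      (mt_weight_integrable hq (hAq _) (hAq _) hd),
    ← mt_integral_mul_condExp (h𝒢 j) hwm (mt_memLp_integrable hq.le hγq)
      (mt_weight_integrable hq (hAq _) (hAq _) hγq)]
  have hq' : (1 : ℝ≥0∞) ≤ ENNReal.ofReal q := by
    rw [← ENNReal.ofReal_one]; exact ENNReal.ofReal_le_ofReal hq.le
  refine integral_mono_ae (mt_weight_integrable hq (hAq _) (hAq _) (hd.condExp hq'))
    (mt_weight_integrable hq (hAq _) (hAq _) (hγq.condExp hq')) ?_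
  filter_upwards [hc j hj, hA0, hAm] with ω h h0 hm
  refine mul_le_mul_of_nonneg_left h ?_
  have h1 : 0 ≤ A j ω := by
    have := hm (Nat.zero_le j); simp only [h0] at this; exact this
  have h2 : A j ω ≤ A (j + 1) ω := hm (Nat.le_succ j)
  exact sub_nonneg.2 (Real.rpow_le_rpow h1 h2 (by linarith))

/-- **Dual Doob inequality** (`q ≥ 1`, the `V k ≥ 0` need not be adapted):
`‖∑ₖ E[V k | ℱ k]‖_q ≤ q ‖∑ₖ V k‖_q`, written for the `q`-th powers. -/
theorem mt_dual_doob [IsFiniteMeasure μ] (ℱ : Filtration ℕ m0) {q : ℝ} (hq : 1 ≤ q) (n : ℕ)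
    (V : ℕ → Ω → ℝ) (hV0 : ∀ k, 0 ≤ᵐ[μ] V k) (hVq : ∀ k, MemLp (V k) (ENNReal.ofReal q) μ) :
    ∫ ω, (∑ k ∈ range n, (μ[V k | ℱ k]) ω) ^ q ∂μ
      ≤ q ^ q * ∫ ω, (∑ k ∈ range n, V k ω) ^ q ∂μ := by
  have hq' : (1 : ℝ≥0∞) ≤ ENNReal.ofReal q := by
    rw [← ENNReal.ofReal_one]; exact ENNReal.ofReal_le_ofReal hq
  have hVi : ∀ k, Integrable (V k) μ := fun k => mt_memLp_integrable hq (hVq k)
  rcases hq.eq_or_lt with rfl | hq1
  · simp only [Real.rpow_one, one_mul]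
    rw [integral_finsetSum _ fun k _ => integrable_condExp, integral_finsetSum _ fun k _ => hVi k]
    exact le_of_eq (sum_congr rfl fun k _ => integral_condExp (ℱ.le k))
  have hE0 : ∀ k, 0 ≤ᵐ[μ] μ[V k | ℱ k] := fun k => condExp_nonneg (hV0 k)
  have hEq : ∀ k, MemLp (μ[V k | ℱ k]) (ENNReal.ofReal q) μ := fun k => (hVq k).condExp hq'
  have hAq : ∀ j, MemLp (fun ω => ∑ k ∈ range j, (μ[V k | ℱ k]) ω) (ENNReal.ofReal q) μ :=
    fun j => memLp_finsetSum _ fun k _ => hEq k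
  have hAmeas : ∀ i j, i ≤ j + 1 →
      StronglyMeasurable[ℱ j] (fun ω => ∑ k ∈ range i, (μ[V k | ℱ k]) ω) := fun i j hij =>
    Finset.stronglyMeasurable_fun_sum _ fun k hk =>
      stronglyMeasurable_condExp.mono (ℱ.mono (by have := mem_range.1 hk; omega))
  have hAm : ∀ᵐ ω ∂μ, Monotone (fun j => ∑ k ∈ range j, (μ[V k | ℱ k]) ω) := by
    filter_upwards [ae_all_iff.2 hE0] with ω h
    refine monotone_nat_of_le_succ fun j => ?_
    rw [sum_range_succ]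
    exact le_add_of_nonneg_right (h j)
  refine mt_garsia_weights hq1 n (fun j ω => ∑ k ∈ range j, (μ[V k | ℱ k]) ω)
    (fun ω => ∑ k ∈ range n, V k ω) (by simp) hAm (fun j _ => hAq j) ?_ (memLp_finsetSum _ fun k _ => hVq k) ?_
  · filter_upwards [ae_all_iff.2 hV0] with ω h
    exact sum_nonneg fun k _ => h k
  intro j hj
  set w : Ω → ℝ := fun ω => (∑ k ∈ range (j + 1), (μ[V k | ℱ k]) ω) ^ (q - 1)
    - (∑ k ∈ range j, (μ[V k | ℱ k]) ω) ^ (q - 1) with hwdef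
  have hwm : StronglyMeasurable[ℱ j] w :=
    mt_weight_meas (q - 1) (hAmeas (j + 1) j le_rfl) (hAmeas j j (Nat.le_succ j))
  have hw0 : 0 ≤ᵐ[μ] w := by
    filter_upwards [hAm] with ω hm
    have h1 : 0 ≤ ∑ k ∈ range j, (μ[V k | ℱ k]) ω := by
      have := hm (Nat.zero_le j); simpa using this
    exact sub_nonneg.2 (Real.rpow_le_rpow h1 (hm (Nat.le_succ j)) (by linarith))
  have hwint : ∀ g : Ω → ℝ, MemLp g (ENNReal.ofReal q) μ → Integrable (fun ω => w ω * g ω) μ :=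
    fun g hg => mt_weight_integrable hq1 (hAq _) (hAq _) hg
  calc ∫ ω, w ω * (∑ k ∈ range n, (μ[V k | ℱ k]) ω - ∑ k ∈ range j, (μ[V k | ℱ k]) ω) ∂μ
      = ∫ ω, ∑ k ∈ Ico j n, w ω * (μ[V k | ℱ k]) ω ∂μ := by
        congr 1; ext ω
        rw [← sum_Ico_eq_sub _ hj.le, mul_sum]
    _ = ∑ k ∈ Ico j n, ∫ ω, w ω * (μ[V k | ℱ k]) ω ∂μ :=
        integral_finsetSum _ fun k _ => hwint _ (hEq k)
    _ = ∑ k ∈ Ico j n, ∫ ω, w ω * V k ω ∂μ := by
        refine sum_congr rfl fun k hk => ?_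
        exact mt_integral_mul_condExp (ℱ.le k) (hwm.mono (ℱ.mono (mem_Ico.1 hk).1)) (hVi k)
          (hwint _ (hVq k))
    _ ≤ ∑ k ∈ range n, ∫ ω, w ω * V k ω ∂μ := by
        refine sum_le_sum_of_subset_of_nonneg ?_ fun k _ _ => ?_
        · intro k hk; exact mem_range.2 (mem_Ico.1 hk).2
        · refine integral_nonneg_of_ae ?_
          filter_upwards [hw0, hV0 k] with ω h1 h2 using mul_nonneg h1 h2
    _ = ∫ ω, w ω * ∑ k ∈ range n, V k ω ∂μ := by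
        rw [← integral_finsetSum _ fun k _ => hwint _ (hVq k)]
        congr 1; ext ω; rw [mul_sum]


/-! ### Doob's `L^p` inequality -/

/-- `mtMax f n ω = max (0, max_{k<n} f k ω)`: the running maximum (of a nonnegative process). -/
def mtMax (f : ℕ → Ω → ℝ) : ℕ → Ω → ℝ
  | 0 => fun _ => 0
  | n + 1 => fun ω => max (mtMax f n ω) (f n ω)

lemma mtMax_zero (f : ℕ → Ω → ℝ) (ω : Ω) : mtMax f 0 ω = 0 := rfl

lemma mtMax_succ (f : ℕ → Ω → ℝ) (n : ℕ) (ω : Ω) :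
    mtMax f (n + 1) ω = max (mtMax f n ω) (f n ω) := rfl

lemma mtMax_mono (f : ℕ → Ω → ℝ) (ω : Ω) : Monotone (fun n => mtMax f n ω) :=
  monotone_nat_of_le_succ fun _ => le_max_left _ _

lemma mtMax_nonneg (f : ℕ → Ω → ℝ) (n : ℕ) (ω : Ω) : 0 ≤ mtMax f n ω :=
  mtMax_mono f ω (Nat.zero_le n)

lemma mt_le_mtMax (f : ℕ → Ω → ℝ) {k n : ℕ} (hk : k < n) (ω : Ω) : f k ω ≤ mtMax f n ω :=
  (le_max_right _ _).trans (mtMax_mono f ω (Nat.succ_le_of_lt hk))

lemma mtMax_le (f : ℕ → Ω → ℝ) (n : ℕ) (ω : Ω) {c : ℝ} (hc : 0 ≤ c) (h : ∀ k < n, f k ω ≤ c) :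
    mtMax f n ω ≤ c := by
  induction n with
  | zero => exact hc
  | succ n ih =>
    exact max_le (ih fun k hk => h k (Nat.lt_succ_of_lt hk)) (h n (Nat.lt_succ_self n))

lemma mtMax_stronglyMeasurable {ℱ : Filtration ℕ m0} {f : ℕ → Ω → ℝ}
    (hf : ∀ k, StronglyMeasurable[ℱ k] (f k)) (i j : ℕ) (hij : i ≤ j + 1) :
    StronglyMeasurable[ℱ j] (mtMax f i) := by
  induction i with
  | zero => exact stronglyMeasurable_const
  | succ i ih =>
    exact ((ih (by omega)).measurable.max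
      ((hf i).mono (ℱ.mono (by omega))).measurable).stronglyMeasurable

lemma mtMax_memLp {f : ℕ → Ω → ℝ} {p : ℝ≥0∞} (n : ℕ) (hf : ∀ k < n, MemLp (f k) p μ) :
    MemLp (mtMax f n) p μ := by
  induction n with
  | zero => exact MemLp.zero
  | succ n ih =>
    exact (ih fun k hk => hf k (Nat.lt_succ_of_lt hk)).sup (hf n (Nat.lt_succ_self n))

/-- pointwise part of Doob's inequality. -/
lemma mt_doob_pointwise {p : ℝ} (hp : 1 < p) (f : ℕ → Ω → ℝ) (n : ℕ) (ω : Ω) :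
    (1 - 1 / p) * mtMax f n ω ^ p
      ≤ ∑ j ∈ range n, (mtMax f (j + 1) ω ^ (p - 1) - mtMax f j ω ^ (p - 1)) * f j ω := by
  have htel : mtMax f n ω ^ p = ∑ j ∈ range n, (mtMax f (j + 1) ω ^ p - mtMax f j ω ^ p) := by
    rw [sum_range_sub (fun j => mtMax f j ω ^ p), mtMax_zero, Real.zero_rpow (by linarith),
      sub_zero]
  rw [htel, mul_sum]
  refine sum_le_sum fun j _ => ?_
  refine (mt_rpow_doob_step hp (mtMax_nonneg f (j + 1) ω) (mtMax_nonneg f j ω)).trans (le_of_eq ?_)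
  rcases le_total (mtMax f j ω) (f j ω) with h | h
  · rw [mtMax_succ, max_eq_right h]
  · rw [mtMax_succ, max_eq_left h]; simp

/-- **Doob's `L^p` inequality** for nonnegative submartingales. -/
theorem mt_doob_Lp [IsFiniteMeasure μ] {ℱ : Filtration ℕ m0} {f : ℕ → Ω → ℝ}
    (hf : Submartingale f ℱ μ) (hf0 : ∀ k, 0 ≤ᵐ[μ] f k) {p : ℝ} (hp : 1 < p) (n : ℕ)
    (hfp : MemLp (f n) (ENNReal.ofReal p) μ) :
    ∫ ω, mtMax f (n + 1) ω ^ p ∂μ ≤ (p / (p - 1)) ^ p * ∫ ω, f n ω ^ p ∂μ := by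
  have hp0 : 0 < p := by linarith
  have hp1 : 0 < p - 1 := by linarith
  have hp' : (1 : ℝ≥0∞) ≤ ENNReal.ofReal p := by
    rw [← ENNReal.ofReal_one]; exact ENNReal.ofReal_le_ofReal hp.le
  have hfk : ∀ k < n + 1, MemLp (f k) (ENNReal.ofReal p) μ := fun k hk => by
    refine (hfp.condExp (m := ℱ k) hp').mono (hf.2.2 k).1 ?_
    filter_upwards [hf0 k, hf.2.1 k n (Nat.le_of_lt_succ hk)] with ω h0 h1
    rw [Real.norm_eq_abs, Real.norm_eq_abs, abs_of_nonneg h0, abs_of_nonneg (h0.trans h1)]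
    exact h1
  have hAq : ∀ j ≤ n + 1, MemLp (mtMax f j) (ENNReal.ofReal p) μ := fun j hj =>
    mtMax_memLp j fun k hk => hfk k (lt_of_lt_of_le hk hj)
  have hA0 : ∀ j, 0 ≤ᵐ[μ] mtMax f j := fun j => ae_of_all _ (mtMax_nonneg f j)
  have hwint : ∀ j < n + 1, ∀ g : Ω → ℝ, MemLp g (ENNReal.ofReal p) μ →
      Integrable (fun ω => (mtMax f (j + 1) ω ^ (p - 1) - mtMax f j ω ^ (p - 1)) * g ω) μ :=
    fun j hj g hg => mt_weight_integrable hp (hAq _ hj) (hAq _ hj.le) hg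
  refine mt_close hp (integral_nonneg fun ω => Real.rpow_nonneg (mtMax_nonneg f _ ω) _)
    (integral_nonneg_of_ae ?_) (by positivity) ?_
  · filter_upwards [hf0 n] with ω h using Real.rpow_nonneg h _
  have key : (1 - 1 / p) * ∫ ω, mtMax f (n + 1) ω ^ p ∂μ
      ≤ (∫ ω, mtMax f (n + 1) ω ^ p ∂μ) ^ (1 - 1 / p) * (∫ ω, f n ω ^ p ∂μ) ^ (1 / p) := by
    calc (1 - 1 / p) * ∫ ω, mtMax f (n + 1) ω ^ p ∂μ
        = ∫ ω, (1 - 1 / p) * mtMax f (n + 1) ω ^ p ∂μ := (integral_const_mul _ _).symm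
      _ ≤ ∫ ω, ∑ j ∈ range (n + 1),
            (mtMax f (j + 1) ω ^ (p - 1) - mtMax f j ω ^ (p - 1)) * f j ω ∂μ := by
          refine integral_mono ((mt_integrable_rpow hp0 (hA0 _) (hAq _ le_rfl)).const_mul _)
            (integrable_finsetSum _ fun j hj => hwint j (mem_range.1 hj) _ (hfk j (mem_range.1 hj)))
            fun ω => mt_doob_pointwise hp f (n + 1) ω
      _ = ∑ j ∈ range (n + 1),
            ∫ ω, (mtMax f (j + 1) ω ^ (p - 1) - mtMax f j ω ^ (p - 1)) * f j ω ∂μ :=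
          integral_finsetSum _ fun j hj => hwint j (mem_range.1 hj) _ (hfk j (mem_range.1 hj))
      _ ≤ ∑ j ∈ range (n + 1),
            ∫ ω, (mtMax f (j + 1) ω ^ (p - 1) - mtMax f j ω ^ (p - 1)) * f n ω ∂μ := by
          refine sum_le_sum fun j hj => ?_
          have hj' := mem_range.1 hj
          have hwm : StronglyMeasurable[ℱ j]
              (fun ω => mtMax f (j + 1) ω ^ (p - 1) - mtMax f j ω ^ (p - 1)) :=
            mt_weight_meas (p - 1) (mtMax_stronglyMeasurable hf.1 (j + 1) j le_rfl)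
              (mtMax_stronglyMeasurable hf.1 j j (Nat.le_succ j))
          rw [← mt_integral_mul_condExp (ℱ.le j) hwm (hf.2.2 n) (hwint j hj' _ hfp)]
          refine integral_mono_ae (hwint j hj' _ (hfk j hj')) (hwint j hj' _ (hfp.condExp hp')) ?_
          filter_upwards [hf.2.1 j n (Nat.le_of_lt_succ hj')] with ω h
          refine mul_le_mul_of_nonneg_left h (sub_nonneg.2 ?_)
          exact Real.rpow_le_rpow (mtMax_nonneg f j ω) (mtMax_mono f ω (Nat.le_succ j)) hp1.le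
      _ = ∫ ω, mtMax f (n + 1) ω ^ (p - 1) * f n ω ∂μ := by
          rw [← integral_finsetSum _ fun j hj => hwint j (mem_range.1 hj) _ hfp]
          congr 1; ext ω
          rw [← sum_mul, sum_range_sub (fun j => mtMax f j ω ^ (p - 1)), mtMax_zero,
            Real.zero_rpow hp1.ne', sub_zero]
      _ ≤ _ := mt_holder hp (hA0 _) (hf0 n) (hAq _ le_rfl) hfp
  have e : (1 - 1 / p) = (p - 1) / p := by field_simp
  rw [e] at key
  calc ∫ ω, mtMax f (n + 1) ω ^ p ∂μ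
      = p / (p - 1) * ((p - 1) / p * ∫ ω, mtMax f (n + 1) ω ^ p ∂μ) := by field_simp
    _ ≤ p / (p - 1) * ((∫ ω, mtMax f (n + 1) ω ^ p ∂μ) ^ ((p - 1) / p)
          * (∫ ω, f n ω ^ p ∂μ) ^ (1 / p)) := by gcongr
    _ = _ := by rw [e]


/-! ### Vector-valued martingales -/

section Banach

variable {E : Type*} [NormedAddCommGroup E] [NormedSpace ℝ E] [CompleteSpace E]

/-- the norm of a martingale is a submartingale. -/
lemma mt_norm_submartingale {ℱ : Filtration ℕ m0} {M : ℕ → Ω → E} (hM : Martingale M ℱ μ) :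
    Submartingale (fun k ω => ‖M k ω‖) ℱ μ := by
  refine ⟨fun k => (hM.1 k).norm, fun i j hij => ?_, fun k => (hM.integrable k).norm⟩
  filter_upwards [hM.2 i j hij, norm_condExp_le (μ := μ) (m := ℱ i) (M j)] with ω h1 h2
  rw [← h1]; exact h2

/-- **Doob's `L^p` inequality** for Banach-valued martingales. -/
theorem mt_doob_Lp_norm [IsFiniteMeasure μ] {ℱ : Filtration ℕ m0} {M : ℕ → Ω → E}
    (hM : Martingale M ℱ μ) {p : ℝ} (hp : 1 < p) (n : ℕ)
    (hMp : MemLp (M n) (ENNReal.ofReal p) μ) :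
    ∫ ω, mtMax (fun k ω => ‖M k ω‖) (n + 1) ω ^ p ∂μ
      ≤ (p / (p - 1)) ^ p * ∫ ω, ‖M n ω‖ ^ p ∂μ :=
  mt_doob_Lp (mt_norm_submartingale hM) (fun _ => ae_of_all _ fun _ => norm_nonneg _) hp n hMp.norm

/-- earlier values of an `L^p` martingale are in `L^p`. -/
lemma mt_martingale_memLp {ℱ : Filtration ℕ m0} {M : ℕ → Ω → E}
    (hM : Martingale M ℱ μ) {p : ℝ≥0∞} (hp : 1 ≤ p) {k n : ℕ} (hk : k ≤ n)
    (hMp : MemLp (M n) p μ) : MemLp (M k) p μ :=
  (memLp_congr_ae (hM.2 k n hk)).1 (hMp.condExp hp)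

/-- subtracting the initial value. -/
lemma mt_martingale_sub_zero [IsFiniteMeasure μ] {ℱ : Filtration ℕ m0} {M : ℕ → Ω → E}
    (hM : Martingale M ℱ μ) : Martingale (fun k ω => M k ω - M 0 ω) ℱ μ := by
  refine ⟨fun k => (hM.1 k).sub ((hM.1 0).mono (ℱ.mono (Nat.zero_le k))), fun i j hij => ?_⟩
  have h1 := condExp_sub (hM.integrable j) (hM.integrable 0) (ℱ i)
  have h2 : μ[M 0 | ℱ i] = M 0 :=
    condExp_of_stronglyMeasurable (ℱ.le i) ((hM.1 0).mono (ℱ.mono (Nat.zero_le i)))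
      (hM.integrable 0)
  filter_upwards [h1, hM.2 i j hij] with ω h3 h4
  have : (μ[fun ω => M j ω - M 0 ω | ℱ i]) ω = (μ[M j - M 0 | ℱ i]) ω := rfl
  rw [this, h3, Pi.sub_apply, h4, h2]

end Banach

section Hilbert

variable {H : Type*} [NormedAddCommGroup H] [InnerProductSpace ℝ H] [CompleteSpace H]

local notation "⟪" x ", " y "⟫" => inner ℝ x y

lemma mt_memLp_sq {E : Type*} [NormedAddCommGroup E] {q : ℝ} (hq : 0 < q) {u : Ω → E}
    (hu : MemLp u (ENNReal.ofReal (2 * q)) μ) :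
    MemLp (fun ω => ‖u ω‖ ^ 2) (ENNReal.ofReal q) μ := by
  have h2q : 0 < 2 * q := by linarith
  have hm : AEStronglyMeasurable (fun ω => ‖u ω‖ ^ 2) μ := hu.1.norm.pow 2
  rw [← integrable_norm_rpow_iff hm (by simp [hq]) (by simp), ENNReal.toReal_ofReal hq.le]
  have := hu.integrable_norm_rpow (by simp [hq]) ENNReal.ofReal_ne_top
  rw [ENNReal.toReal_ofReal h2q.le] at this
  refine this.congr (ae_of_all _ fun ω => ?_)
  simp only
  rw [Real.norm_eq_abs, abs_of_nonneg (by positivity), ← Real.rpow_natCast, ← Real.rpow_mul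
    (norm_nonneg _)]
  norm_num

omit [CompleteSpace H] in
lemma mt_memLp_inner {q : ℝ} (hq : 0 < q) {u v : Ω → H}
    (hu : MemLp u (ENNReal.ofReal (2 * q)) μ) (hv : MemLp v (ENNReal.ofReal (2 * q)) μ) :
    MemLp (fun ω => ⟪u ω, v ω⟫) (ENNReal.ofReal q) μ := by
  refine ((mt_memLp_sq hq hu).add (mt_memLp_sq hq hv)).mono (hu.1.inner hv.1)
    (ae_of_all _ fun ω => ?_)
  simp only [Pi.add_apply]
  rw [Real.norm_eq_abs, Real.norm_eq_abs, abs_of_nonneg (a := ‖u ω‖ ^ 2 + ‖v ω‖ ^ 2) (by positivity)]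
  have := abs_real_inner_le_norm (u ω) (v ω)
  nlinarith [sq_nonneg (‖u ω‖ - ‖v ω‖), norm_nonneg (u ω), norm_nonneg (v ω)]

/-- orthogonality against measurable vector weights. -/
lemma mt_orth {m : MeasurableSpace Ω} (hm : m ≤ m0) [SigmaFinite (μ.trim hm)] {g d : Ω → H}
    (hg : StronglyMeasurable[m] g) (hd : Integrable d μ)
    (hgd : Integrable (fun ω => ⟪g ω, d ω⟫) μ) (hd0 : μ[d | m] =ᵐ[μ] 0) :
    ∫ ω, ⟪g ω, d ω⟫ ∂μ = 0 := by
  have h := condExp_bilin_of_stronglyMeasurable_left (μ := μ) (innerSL ℝ) hg hgd hd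
  have h2 : ∫ ω, ⟪g ω, d ω⟫ ∂μ = ∫ ω, (μ[fun ω => innerSL ℝ (g ω) (d ω) | m]) ω ∂μ := by
    rw [integral_condExp hm]; rfl
  rw [h2, integral_congr_ae h]
  refine (integral_congr_ae ?_).trans (integral_zero _ _)
  filter_upwards [hd0] with ω hω
  simp [hω]

/-- increments of a martingale have vanishing conditional expectation. -/
lemma mt_condExp_incr {ℱ : Filtration ℕ m0} {N : ℕ → Ω → H} (hN : Martingale N ℱ μ) (n : ℕ) :
    μ[fun ω => N (n + 1) ω - N n ω | ℱ n] =ᵐ[μ] 0 := by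
  have h1 := condExp_sub (hN.integrable (n + 1)) (hN.integrable n) (ℱ n)
  filter_upwards [h1, hN.2 n (n + 1) (Nat.le_succ n), hN.2 n n le_rfl] with ω h3 h4 h5
  have : (μ[fun ω => N (n + 1) ω - N n ω | ℱ n]) ω = (μ[N (n + 1) - N n | ℱ n]) ω := rfl
  rw [this, h3, Pi.sub_apply, h4, h5]; simp

/-- weighted orthogonality identity for the square function. -/
lemma mt_sq_identity [IsFiniteMeasure μ] {ℱ : Filtration ℕ m0} {N : ℕ → Ω → H}
    (hN : Martingale N ℱ μ) {q : ℝ} (hq : 0 < q) (n₀ : ℕ)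
    (hNq : ∀ k ≤ n₀, MemLp (N k) (ENNReal.ofReal (2 * q)) μ)
    (j : ℕ) {w : Ω → ℝ} (hw : StronglyMeasurable[ℱ (j + 1)] w)
    (hwint : ∀ g : Ω → ℝ, MemLp g (ENNReal.ofReal q) μ → Integrable (fun ω => w ω * g ω) μ)
    (n : ℕ) (hjn : j ≤ n) (hn : n ≤ n₀) :
    ∫ ω, w ω * ∑ k ∈ Ico j n, ‖N (k + 1) ω - N k ω‖ ^ 2 ∂μ
      = ∫ ω, w ω * ‖N n ω - N j ω‖ ^ 2 ∂μ := by
  induction n, hjn using Nat.le_induction with
  | base => simp
  | succ n hjn ih =>
    have ih' := ih (by omega)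
    have hd : MemLp (fun ω => N (n + 1) ω - N n ω) (ENNReal.ofReal (2 * q)) μ :=
      (hNq _ hn).sub (hNq _ (by omega))
    have hu : MemLp (fun ω => N n ω - N j ω) (ENNReal.ofReal (2 * q)) μ :=
      (hNq _ (by omega)).sub (hNq _ (by omega))
    have hS : MemLp (fun ω => ∑ k ∈ Ico j n, ‖N (k + 1) ω - N k ω‖ ^ 2) (ENNReal.ofReal q) μ :=
      memLp_finsetSum _ fun k hk => mt_memLp_sq hq
        ((hNq _ (by have := (mem_Ico.1 hk).2; omega)).sub
          (hNq _ (by have := (mem_Ico.1 hk).2; omega)))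
    have hcross : ∫ ω, w ω * ⟪N n ω - N j ω, N (n + 1) ω - N n ω⟫ ∂μ = 0 := by
      rcases hjn.eq_or_lt with rfl | hlt
      · simp
      have := mt_orth (μ := μ) (ℱ.le n) (g := fun ω => w ω • (N n ω - N j ω))
        (d := fun ω => N (n + 1) ω - N n ω)
        ((hw.mono (ℱ.mono hlt)).smul ((hN.1 n).sub ((hN.1 j).mono (ℱ.mono hjn))))
        ((hN.integrable _).sub (hN.integrable _))
        (by simpa [real_inner_smul_left] using hwint _ (mt_memLp_inner hq hu hd))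
        (mt_condExp_incr hN n)
      simpa [real_inner_smul_left] using this
    calc ∫ ω, w ω * ∑ k ∈ Ico j (n + 1), ‖N (k + 1) ω - N k ω‖ ^ 2 ∂μ
        = ∫ ω, (w ω * ∑ k ∈ Ico j n, ‖N (k + 1) ω - N k ω‖ ^ 2
            + w ω * ‖N (n + 1) ω - N n ω‖ ^ 2) ∂μ := by
          congr 1; ext ω
          rw [sum_Ico_succ_top hjn, mul_add]
      _ = ∫ ω, w ω * ‖N n ω - N j ω‖ ^ 2 ∂μ + ∫ ω, w ω * ‖N (n + 1) ω - N n ω‖ ^ 2 ∂μ := by
          rw [integral_add (hwint _ hS) (hwint _ (mt_memLp_sq hq hd)), ih']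
      _ = ∫ ω, w ω * ‖N n ω - N j ω‖ ^ 2 ∂μ + ∫ ω, w ω * ‖N (n + 1) ω - N n ω‖ ^ 2 ∂μ
            + 2 * ∫ ω, w ω * ⟪N n ω - N j ω, N (n + 1) ω - N n ω⟫ ∂μ := by rw [hcross]; ring
      _ = ∫ ω, w ω * ‖N (n + 1) ω - N j ω‖ ^ 2 ∂μ := by
          have I1 := hwint _ (mt_memLp_sq hq hu)
          have I2 := hwint _ (mt_memLp_sq hq hd)
          have I3 := (hwint _ (mt_memLp_inner hq hu hd)).const_mul 2
          have I12 : Integrable (fun ω => w ω * ‖N n ω - N j ω‖ ^ 2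
              + w ω * ‖N (n + 1) ω - N n ω‖ ^ 2) μ := I1.add I2
          have e : ∀ ω, w ω * ‖N (n + 1) ω - N j ω‖ ^ 2
              = (w ω * ‖N n ω - N j ω‖ ^ 2 + w ω * ‖N (n + 1) ω - N n ω‖ ^ 2)
                + 2 * (w ω * ⟪N n ω - N j ω, N (n + 1) ω - N n ω⟫) := fun ω => by
            have e : N (n + 1) ω - N j ω = (N n ω - N j ω) + (N (n + 1) ω - N n ω) := by abel
            rw [e, norm_add_sq_real]; ring
          rw [integral_congr_ae (ae_of_all _ e), integral_add I12 I3, integral_add I1 I2,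
            integral_const_mul]

/-- the square function is controlled by the maximal function (`q > 1`). -/
theorem mt_square_le_max [IsFiniteMeasure μ] {ℱ : Filtration ℕ m0} {N : ℕ → Ω → H}
    (hN : Martingale N ℱ μ) {q : ℝ} (hq : 1 < q) (n : ℕ)
    (hNn : MemLp (N n) (ENNReal.ofReal (2 * q)) μ) :
    ∫ ω, (∑ k ∈ range n, ‖N (k + 1) ω - N k ω‖ ^ 2) ^ q ∂μ
      ≤ q ^ q * ∫ ω, (4 * mtMax (fun k ω => ‖N k ω‖) (n + 1) ω ^ 2) ^ q ∂μ := by
  have hq0 : 0 < q := by linarith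
  have h2q : (1 : ℝ≥0∞) ≤ ENNReal.ofReal (2 * q) := by
    rw [← ENNReal.ofReal_one]; exact ENNReal.ofReal_le_ofReal (by linarith)
  have hNq : ∀ k ≤ n, MemLp (N k) (ENNReal.ofReal (2 * q)) μ := fun k hk =>
    mt_martingale_memLp hN h2q hk hNn
  have hdq : ∀ k < n, MemLp (fun ω => ‖N (k + 1) ω - N k ω‖ ^ 2) (ENNReal.ofReal q) μ :=
    fun k hk => mt_memLp_sq hq0 ((hNq _ hk).sub (hNq _ hk.le))
  have hAq : ∀ j ≤ n, MemLp (fun ω => ∑ k ∈ range j, ‖N (k + 1) ω - N k ω‖ ^ 2)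
      (ENNReal.ofReal q) μ := fun j hj =>
    memLp_finsetSum _ fun k hk => hdq k (lt_of_lt_of_le (mem_range.1 hk) hj)
  have hAmeas : ∀ i j, i ≤ j + 1 →
      StronglyMeasurable[ℱ (j + 1)] (fun ω => ∑ k ∈ range i, ‖N (k + 1) ω - N k ω‖ ^ 2) :=
    fun i j hij => Finset.stronglyMeasurable_fun_sum _ fun k hk =>
      ((((hN.1 (k + 1)).mono (ℱ.mono (by have := mem_range.1 hk; omega))).sub
        ((hN.1 k).mono (ℱ.mono (by have := mem_range.1 hk; omega)))).norm.pow 2)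
  have hAm : ∀ ω, Monotone (fun j => ∑ k ∈ range j, ‖N (k + 1) ω - N k ω‖ ^ 2) := fun ω =>
    monotone_nat_of_le_succ fun j => by
      rw [sum_range_succ]; exact le_add_of_nonneg_right (by positivity)
  have hmaxq : MemLp (mtMax (fun k ω => ‖N k ω‖) (n + 1)) (ENNReal.ofReal (2 * q)) μ :=
    mtMax_memLp _ fun k hk => (hNq k (Nat.le_of_lt_succ hk)).norm
  have hγq : MemLp (fun ω => 4 * mtMax (fun k ω => ‖N k ω‖) (n + 1) ω ^ 2) (ENNReal.ofReal q) μ := by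
    have := (mt_memLp_sq hq0 hmaxq).const_mul 4
    refine this.congr_norm (this.1.congr (ae_of_all _ fun ω => ?_)) (ae_of_all _ fun ω => ?_) <;>
    simp [sq_abs]
  refine mt_garsia_weights hq n (fun j ω => ∑ k ∈ range j, ‖N (k + 1) ω - N k ω‖ ^ 2) _
    (by simp) (ae_of_all _ hAm) hAq (ae_of_all _ fun ω => by positivity) hγq fun j hj => ?_
  set w : Ω → ℝ := fun ω => (∑ k ∈ range (j + 1), ‖N (k + 1) ω - N k ω‖ ^ 2) ^ (q - 1)
    - (∑ k ∈ range j, ‖N (k + 1) ω - N k ω‖ ^ 2) ^ (q - 1) with hwdef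
  have hwm : StronglyMeasurable[ℱ (j + 1)] w :=
    mt_weight_meas (q - 1) (hAmeas (j + 1) j le_rfl) (hAmeas j j (Nat.le_succ j))
  have hw0 : ∀ ω, 0 ≤ w ω := fun ω =>
    sub_nonneg.2 (Real.rpow_le_rpow (sum_nonneg fun k _ => by positivity)
      (hAm ω (Nat.le_succ j)) (by linarith))
  have hwint : ∀ g : Ω → ℝ, MemLp g (ENNReal.ofReal q) μ → Integrable (fun ω => w ω * g ω) μ :=
    fun g hg => mt_weight_integrable hq (hAq _ hj) (hAq _ hj.le) hg
  calc ∫ ω, w ω * (∑ k ∈ range n, ‖N (k + 1) ω - N k ω‖ ^ 2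
          - ∑ k ∈ range j, ‖N (k + 1) ω - N k ω‖ ^ 2) ∂μ
      = ∫ ω, w ω * ∑ k ∈ Ico j n, ‖N (k + 1) ω - N k ω‖ ^ 2 ∂μ := by
        congr 1; ext ω; rw [← sum_Ico_eq_sub _ hj.le]
    _ = ∫ ω, w ω * ‖N n ω - N j ω‖ ^ 2 ∂μ :=
        mt_sq_identity hN hq0 n hNq j hwm hwint n hj.le le_rfl
    _ ≤ ∫ ω, w ω * (4 * mtMax (fun k ω => ‖N k ω‖) (n + 1) ω ^ 2) ∂μ := by
        refine integral_mono (hwint _ (mt_memLp_sq hq0 ((hNq _ le_rfl).sub (hNq _ hj.le))))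
          (hwint _ hγq) fun ω => mul_le_mul_of_nonneg_left ?_ (hw0 ω)
        have h1 : ‖N n ω‖ ≤ mtMax (fun k ω => ‖N k ω‖) (n + 1) ω :=
          mt_le_mtMax (fun k ω => ‖N k ω‖) (Nat.lt_succ_self n) ω
        have h2 : ‖N j ω‖ ≤ mtMax (fun k ω => ‖N k ω‖) (n + 1) ω :=
          mt_le_mtMax (fun k ω => ‖N k ω‖) (Nat.lt_succ_of_lt hj) ω
        have h3 := norm_sub_le (N n ω) (N j ω)
        nlinarith [norm_nonneg (N n ω - N j ω), norm_nonneg (N n ω), norm_nonneg (N j ω)]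

/-- **Square function inequality** (lower Burkholder inequality, exponent `2q ≥ 2`), for
Hilbert-space valued martingales, dimension free:
`‖∑ₖ |M_{k+1} - M_k|²‖_q ≤ 16 q ‖ |M_n - M_0|² ‖_q`, written for the `q`-th powers. -/
theorem mt_square_fn [IsFiniteMeasure μ] {ℱ : Filtration ℕ m0} {M : ℕ → Ω → H}
    (hM : Martingale M ℱ μ) {q : ℝ} (hq : 1 ≤ q) (n : ℕ)
    (hMq : MemLp (fun ω => M n ω - M 0 ω) (ENNReal.ofReal (2 * q)) μ) :
    ∫ ω, (∑ k ∈ range n, ‖M (k + 1) ω - M k ω‖ ^ 2) ^ q ∂μ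
      ≤ (16 * q) ^ q * ∫ ω, (‖M n ω - M 0 ω‖ ^ 2) ^ q ∂μ := by
  have hq0 : 0 < q := by linarith
  have hN := mt_martingale_sub_zero hM
  have h2q : (1 : ℝ≥0∞) ≤ ENNReal.ofReal (2 * q) := by
    rw [← ENNReal.ofReal_one]; exact ENNReal.ofReal_le_ofReal (by linarith)
  have hinc : ∀ k ω, ‖(M (k + 1) ω - M 0 ω) - (M k ω - M 0 ω)‖ = ‖M (k + 1) ω - M k ω‖ :=
    fun k ω => by congr 1; abel
  have hInn : 0 ≤ ∫ ω, (‖M n ω - M 0 ω‖ ^ 2) ^ q ∂μ :=
    integral_nonneg fun ω => by positivity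
  rcases hq.eq_or_lt with rfl | hq1
  · have h := mt_sq_identity hN one_pos n
      (fun k hk => mt_martingale_memLp hN h2q hk hMq) 0 (w := fun _ => 1)
      stronglyMeasurable_const (fun g hg => by
        simpa using hg.integrable (by simp)) n (Nat.zero_le n) le_rfl
    simp only [one_mul, hinc, sub_self, sub_zero, Nat.Ico_zero_eq_range] at h
    simp only [Real.rpow_one, mul_one]
    rw [h]
    have : 0 ≤ ∫ ω, ‖M n ω - M 0 ω‖ ^ 2 ∂μ := integral_nonneg fun ω => by positivity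
    linarith
  have h1 := mt_square_le_max hN hq1 n hMq
  simp only [hinc] at h1
  have h2 := mt_doob_Lp_norm hN (p := 2 * q) (by linarith) n hMq
  have e1 : ∀ x : ℝ, 0 ≤ x → (4 * x ^ 2) ^ q = 4 ^ q * x ^ (2 * q) := fun x hx => by
    rw [Real.mul_rpow (by norm_num) (by positivity), ← Real.rpow_natCast, ← Real.rpow_mul hx]
    norm_num
  have e2 : ∀ x : ℝ, 0 ≤ x → (x ^ 2) ^ q = x ^ (2 * q) := fun x hx => by
    rw [← Real.rpow_natCast, ← Real.rpow_mul hx]; norm_num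
  have e3 : ∫ ω, (4 * mtMax (fun k ω => ‖M k ω - M 0 ω‖) (n + 1) ω ^ 2) ^ q ∂μ
      = 4 ^ q * ∫ ω, mtMax (fun k ω => ‖M k ω - M 0 ω‖) (n + 1) ω ^ (2 * q) ∂μ := by
    rw [← integral_const_mul]
    congr 1; ext ω; exact e1 _ (mtMax_nonneg _ _ _)
  have e4 : ∫ ω, (‖M n ω - M 0 ω‖ ^ 2) ^ q ∂μ = ∫ ω, ‖M n ω - M 0 ω‖ ^ (2 * q) ∂μ := by
    congr 1; ext ω; exact e2 _ (norm_nonneg _)
  have hc : (2 * q / (2 * q - 1)) ^ (2 * q) ≤ 4 ^ q := by
    have : 2 * q / (2 * q - 1) ≤ 2 := by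
      rw [div_le_iff₀ (by linarith)]; linarith
    calc (2 * q / (2 * q - 1)) ^ (2 * q) ≤ 2 ^ (2 * q) :=
          Real.rpow_le_rpow (div_nonneg (by linarith) (by linarith)) this (by linarith)
      _ = 4 ^ q := by
          rw [Real.rpow_mul (by norm_num)]; norm_num
  rw [e3] at h1
  rw [e4] at hInn ⊢
  calc ∫ ω, (∑ k ∈ range n, ‖M (k + 1) ω - M k ω‖ ^ 2) ^ q ∂μ
      ≤ q ^ q * (4 ^ q * ∫ ω, mtMax (fun k ω => ‖M k ω - M 0 ω‖) (n + 1) ω ^ (2 * q) ∂μ) := h1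
    _ ≤ q ^ q * (4 ^ q * (4 ^ q * ∫ ω, ‖M n ω - M 0 ω‖ ^ (2 * q) ∂μ)) := by
        gcongr
        exact h2.trans (mul_le_mul_of_nonneg_right hc hInn)
    _ = (16 * q) ^ q * ∫ ω, ‖M n ω - M 0 ω‖ ^ (2 * q) ∂μ := by
        rw [Real.mul_rpow (by norm_num) hq0.le,
          show (16 : ℝ) = 4 * 4 by norm_num, Real.mul_rpow (by norm_num) (by norm_num)]
        ring

end Hilbert

end Claimed.Agent.R286.MT
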