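import Mathlib

/-!
# Row 286 : deterministic barrier library  (PE Lemmas 6.3, 6.4; LL 07-budgets Step 1, l.889-985)      owner helper186, prefix `skbar_`

Mathlib only.  Nothing here knows the spin system.

* `SkBar Ψ Λ u0 r` : the feasible class in FORWARD, INTEGRATED form (no a.e. derivative):
      (lo)  `u ↦ r u - Λ u` nondecreasing on `[u0,1]`          (`r' ≥ l`,  `Λ = ∫ l`;  LL: `Λ u = u / M_j`)
      (up)  `u ↦ u - Ψ (r u)` nondecreasing on `[u0,1]`        (`r' ≤ 1/k(r)`, `Ψ = ∫₀ k`;  LL: `k + κ 1_I`)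
* closure under `max`, `min`;  the up barrier `skbarUp`, the down barrier `skbarDn` (ramp `Ψ (w u) = Ψ q0 + u - a`, then the line `1 - (Λ 1 - Λ u)`).
* CAPPED CLIPPING  `max r (min w (r + τ))`  replaces the linear partial interpolation of PE l.371 (no mesh refinement needed: `r + τ` keeps (up) when `Ψ` is concave below `ρ0`).
* HARMONIC interpolation = the `ψ`-affine interpolation of PE l.424 for `k(q) = A0/(q+B0)^2`;  (lo) is superadditivity of the weighted harmonic mean.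
* the pointwise algebra of the movement inequality (PE l.262-318).
-/

set_option autoImplicit false

namespace Claimed.Agent.R286

open Set

/-- the feasible class in forward integrated form -/
structure SkBar (Ψ Λ : ℝ → ℝ) (u0 : ℝ) (r : ℝ → ℝ) : Prop where
  lo : MonotoneOn (fun u => r u - Λ u) (Icc u0 1)
  up : MonotoneOn (fun u => u - Ψ (r u)) (Icc u0 1)

section closure

variable {Ψ Λ : ℝ → ℝ} {u0 : ℝ} {r w : ℝ → ℝ}

theorem skbar_max (hΨ : Monotone Ψ) (hr : SkBar Ψ Λ u0 r) (hw : SkBar Ψ Λ u0 w) :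
    SkBar Ψ Λ u0 (fun u => max (r u) (w u)) := by
  constructor
  · intro a ha b hb hab
    have h1 := hr.lo ha hb hab
    have h2 := hw.lo ha hb hab
    simp only at h1 h2 ⊢
    rcases le_total (r a) (w a) with h | h
    · rw [max_eq_right h]
      have := le_max_right (r b) (w b)
      linarith
    · rw [max_eq_left h]
      have := le_max_left (r b) (w b)
      linarith
  · intro a ha b hb hab
    have h1 := hr.up ha hb hab
    have h2 := hw.up ha hb hab
    simp only at h1 h2 ⊢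
    rcases le_total (r b) (w b) with h | h
    · rw [max_eq_right h]
      have := hΨ (le_max_right (r a) (w a))
      linarith
    · rw [max_eq_left h]
      have := hΨ (le_max_left (r a) (w a))
      linarith

theorem skbar_min (hΨ : Monotone Ψ) (hr : SkBar Ψ Λ u0 r) (hw : SkBar Ψ Λ u0 w) :
    SkBar Ψ Λ u0 (fun u => min (r u) (w u)) := by
  constructor
  · intro a ha b hb hab
    have h1 := hr.lo ha hb hab
    have h2 := hw.lo ha hb hab
    simp only at h1 h2 ⊢
    rcases le_total (r b) (w b) with h | h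
    · rw [min_eq_left h]
      have := min_le_left (r a) (w a)
      linarith
    · rw [min_eq_right h]
      have := min_le_right (r a) (w a)
      linarith
  · intro a ha b hb hab
    have h1 := hr.up ha hb hab
    have h2 := hw.up ha hb hab
    simp only at h1 h2 ⊢
    rcases le_total (r a) (w a) with h | h
    · rw [min_eq_left h]
      have := hΨ (min_le_left (r b) (w b))
      linarith
    · rw [min_eq_right h]
      have := hΨ (min_le_right (r b) (w b))
      linarith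

/-- a member of the class is nondecreasing when `Λ` is -/
theorem skbar_mono (hΛ : MonotoneOn Λ (Icc u0 1)) (hr : SkBar Ψ Λ u0 r) : MonotoneOn r (Icc u0 1) := by
  intro a ha b hb hab
  have h1 := hr.lo ha hb hab
  have h2 := hΛ ha hb hab
  simp only at h1
  linarith

/-- every member with `r 1 = 1` lies below the line `1 - (Λ 1 - Λ u)` -/
theorem skbar_le_line (hr : SkBar Ψ Λ u0 r) (h1 : r 1 = 1) {u : ℝ} (hu : u ∈ Icc u0 1) :
    r u ≤ 1 - (Λ 1 - Λ u) := by
  have h := hr.lo hu (⟨hu.1.trans hu.2, le_refl 1⟩ : (1 : ℝ) ∈ Icc u0 1) hu.2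
  simp only at h
  linarith

/-- every member lies above the line `r u0 + (Λ u - Λ u0)` -/
theorem skbar_ge_line (hr : SkBar Ψ Λ u0 r) {u : ℝ} (hu : u ∈ Icc u0 1) :
    r u0 + (Λ u - Λ u0) ≤ r u := by
  have h := hr.lo (⟨le_refl u0, hu.1.trans hu.2⟩ : u0 ∈ Icc u0 1) hu hu.1
  simp only at h
  linarith

end closure

/-! ## the pointwise algebra of the movement inequality (PE Lemma 6.3) -/

section movement

variable {e D eh om r z : ℝ}

theorem skbar_mv_om_lt_one (he : 0 < e) (hD : 0 < D) (h1 : om < D / (e + D)) : om < 1 := by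
  have hs : 0 < e + D := by linarith
  have : D / (e + D) < 1 := by rw [div_lt_one hs]; linarith
  linarith

/-- `X = D (1-ω) - e ω > 0` -/
theorem skbar_mv_X_pos (he : 0 < e) (hD : 0 < D) (h1 : om < D / (e + D)) : 0 < D * (1 - om) - e * om := by
  have hs : 0 < e + D := by linarith
  have h2 : om * (e + D) < D := by rwa [lt_div_iff₀ hs] at h1
  nlinarith

/-- `a = e + D - ê ≥ X/(1-ω) > 0` -/
theorem skbar_mv_a_ge (he : 0 < e) (hD : 0 < D) (h1 : om < D / (e + D)) (heh : eh * (1 - om) ≤ e) :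
    D * (1 - om) - e * om ≤ (e + D - eh) * (1 - om) := by
  nlinarith

theorem skbar_mv_a_pos (he : 0 < e) (hD : 0 < D) (h1 : om < D / (e + D)) (heh : eh * (1 - om) ≤ e) :
    0 < e + D - eh := by
  have h3 : 0 < 1 - om := by have := skbar_mv_om_lt_one he hD h1; linarith
  have h4 : 0 < (e + D - eh) * (1 - om) :=
    lt_of_lt_of_le (skbar_mv_X_pos he hD h1) (skbar_mv_a_ge he hD h1 heh)
  exact (mul_pos_iff_of_pos_right h3).1 h4

/-- the three point identity -/
theorem skbar_mv_identity (ha : e + D - eh ≠ 0) :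
    e * r ^ 2 + D * z ^ 2 - eh * (r + om * (z - r)) ^ 2
        - (e * r + D * z - eh * (r + om * (z - r))) ^ 2 / (e + D - eh)
      = (e * D - eh * (e * om ^ 2 + D * (1 - om) ^ 2)) / (e + D - eh) * (z - r) ^ 2 := by
  field_simp
  ring

/-- **the pointwise movement inequality** (PE l.305-318) -/
theorem skbar_mv_main (he : 0 < e) (hD : 0 < D) (h0 : 0 ≤ om) (h1 : om < D / (e + D))
    (heh0 : 0 ≤ eh) (heh : eh * (1 - om) ≤ e) :
    e * om * (z - r) ^ 2 ≤
      e * r ^ 2 + D * z ^ 2 - eh * (r + om * (z - r)) ^ 2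
        - (e * r + D * z - eh * (r + om * (z - r))) ^ 2 / (e + D - eh) := by
  have ha := skbar_mv_a_pos he hD h1 heh
  rw [skbar_mv_identity ha.ne']
  have hX := skbar_mv_X_pos he hD h1
  have key : e * om ≤ (e * D - eh * (e * om ^ 2 + D * (1 - om) ^ 2)) / (e + D - eh) := by
    rw [le_div_iff₀ ha]
    -- e D - e ω (e+D) - ê ((1-ω) X) + ... = X (e - ê (1-ω))
    have : (e * D - eh * (e * om ^ 2 + D * (1 - om) ^ 2)) - e * om * (e + D - eh)
        = (D * (1 - om) - e * om) * (e - eh * (1 - om)) := by ring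
    have h5 : 0 ≤ (D * (1 - om) - e * om) * (e - eh * (1 - om)) :=
      mul_nonneg hX.le (by linarith)
    linarith
  exact mul_le_mul_of_nonneg_right key (sq_nonneg _)

/-- `c/a` lies between `r̂` and `z`; hence `c²/a ≤ a ≤ e + D` when `r, z ∈ [0,1]` (PE l.276-287) -/
theorem skbar_mv_ratio (he : 0 < e) (hD : 0 < D) (h0 : 0 ≤ om) (h1 : om < D / (e + D))
    (heh0 : 0 ≤ eh) (heh : eh * (1 - om) ≤ e) (hr : r ∈ Icc (0 : ℝ) 1) (hz : z ∈ Icc (0 : ℝ) 1) :
    (e * r + D * z - eh * (r + om * (z - r))) ^ 2 / (e + D - eh) ≤ e + D := by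
  have ha := skbar_mv_a_pos he hD h1 heh
  have hX := skbar_mv_X_pos he hD h1
  have hXa := skbar_mv_a_ge he hD h1 heh
  have hom1 := skbar_mv_om_lt_one he hD h1
  set a := e + D - eh with ha_def
  set X := D * (1 - om) - e * om with hX_def
  set rh := r + om * (z - r) with hrh
  have hc : e * r + D * z - eh * rh = a * rh + X * (z - r) := by
    simp only [ha_def, hX_def, hrh]; ring
  -- 0 ≤ c ≤ a
  have hrh0 : 0 ≤ rh := by
    have : rh = (1 - om) * r + om * z := by simp only [hrh]; ring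
    rw [this]
    have := mul_nonneg (by linarith : (0:ℝ) ≤ 1 - om) hr.1
    have := mul_nonneg h0 hz.1
    linarith
  have hrh1 : rh ≤ 1 := by
    have : rh = (1 - om) * r + om * z := by simp only [hrh]; ring
    rw [this]
    have := mul_le_mul_of_nonneg_left hr.2 (by linarith : (0:ℝ) ≤ 1 - om)
    have := mul_le_mul_of_nonneg_left hz.2 h0
    linarith
  have hzr : z - rh = (1 - om) * (z - r) := by simp only [hrh]; ring
  have hc0 : 0 ≤ a * rh + X * (z - r) := by
    rcases le_total r z with h | h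
    · have := mul_nonneg ha.le hrh0
      have := mul_nonneg hX.le (sub_nonneg.2 h)
      linarith
    · -- X (z - r) ≥ a (1-om)(z-r) = a (z - rh)
      have h6 : X * (z - r) ≥ a * (1 - om) * (z - r) :=
        mul_le_mul_of_nonpos_right hXa (by linarith)
      have h7 : a * (1 - om) * (z - r) = a * (z - rh) := by rw [hzr]; ring
      have := mul_nonneg ha.le hz.1
      nlinarith
  have hc1 : a * rh + X * (z - r) ≤ a := by
    rcases le_total r z with h | h
    · have h6 : X * (z - r) ≤ a * (1 - om) * (z - r) :=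
        mul_le_mul_of_nonneg_right hXa (by linarith)
      have h7 : a * (1 - om) * (z - r) = a * (z - rh) := by rw [hzr]; ring
      have := mul_le_mul_of_nonneg_left hz.2 ha.le
      nlinarith
    · have := mul_le_mul_of_nonneg_left hrh1 ha.le
      have := mul_nonpos_of_nonneg_of_nonpos hX.le (sub_nonpos.2 h)
      linarith
  rw [hc, div_le_iff₀ ha]
  have h8 : (a * rh + X * (z - r)) ^ 2 ≤ a ^ 2 := by
    apply pow_le_pow_left₀ hc0 hc1
  have h9 : a ≤ e + D := by simp only [ha_def]; linarith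
  nlinarith

/-- `ê ≤ e/(1-ω)` from `e(·)` antitone and `t e(t)` monotone (PE l.268-272) -/
theorem skbar_mv_eh {ef : ℝ → ℝ} (hanti : AntitoneOn ef (Ici 0)) (hmono : MonotoneOn (fun t => t * ef t) (Ici 0))
    (hpos : ∀ t, 0 ≤ t → 0 ≤ ef t)
    (h0 : 0 ≤ om) (h1 : om < 1) (hr : 0 ≤ r) (hz : 0 ≤ z) :
    ef (r + om * (z - r)) * (1 - om) ≤ ef r := by
  have hrh : (1 - om) * r ≤ r + om * (z - r) := by nlinarith
  have hrh0 : 0 ≤ r + om * (z - r) := le_trans (mul_nonneg (by linarith) hr) hrh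
  rcases le_total r (r + om * (z - r)) with h | h
  · have h2 := hanti (mem_Ici.2 hr) (mem_Ici.2 hrh0) h
    have h3 := hpos _ hrh0
    nlinarith
  · have h2 := hmono (mem_Ici.2 hrh0) (mem_Ici.2 hr) h
    simp only at h2
    rcases eq_or_lt_of_le hr with h4 | h4
    · -- r = 0
      have h5 : r + om * (z - r) = 0 := le_antisymm (by linarith) hrh0
      rw [h5, ← h4]
      have := hpos 0 le_rfl
      nlinarith
    · have h3 := hpos _ hrh0
      -- (1-om) r ê ≤ r̂ ê ≤ r e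
      have h6 : (1 - om) * r * ef (r + om * (z - r)) ≤ (r + om * (z - r)) * ef (r + om * (z - r)) :=
        mul_le_mul_of_nonneg_right hrh h3
      have h7 : r * (ef (r + om * (z - r)) * (1 - om)) ≤ r * ef r := by nlinarith
      exact le_of_mul_le_mul_left h7 h4

end movement

/-! ## the up barrier -/

/-- the clamp `min 1 (max 0 ((u-a)/(b-a)))` -/
noncomputable def skbarClamp (a b u : ℝ) : ℝ := max 0 (min 1 ((u - a) / (b - a)))

theorem skbar_clamp_nonneg (a b u : ℝ) : 0 ≤ skbarClamp a b u := le_max_left _ _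

theorem skbar_clamp_le_one (a b u : ℝ) : skbarClamp a b u ≤ 1 :=
  max_le zero_le_one (min_le_left _ _)

theorem skbar_clamp_of_le {a b u : ℝ} (hab : a < b) (hu : u ≤ a) : skbarClamp a b u = 0 := by
  unfold skbarClamp
  apply max_eq_left
  apply le_trans (min_le_right _ _)
  exact div_nonpos_of_nonpos_of_nonneg (by linarith) (by linarith)

theorem skbar_clamp_of_ge {a b u : ℝ} (hab : a < b) (hu : b ≤ u) : skbarClamp a b u = 1 := by
  unfold skbarClamp
  have h : 1 ≤ (u - a) / (b - a) := by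
    rw [le_div_iff₀ (by linarith)]; linarith
  rw [min_eq_left h]
  exact max_eq_right zero_le_one

theorem skbar_clamp_mono {a b : ℝ} (hab : a < b) : Monotone (skbarClamp a b) := by
  intro u v huv
  unfold skbarClamp
  apply max_le_max le_rfl
  apply min_le_min le_rfl
  exact div_le_div_of_nonneg_right (by linarith) (by linarith)

theorem skbar_clamp_lip {a b u v : ℝ} (hab : a < b) (huv : u ≤ v) :
    skbarClamp a b v - skbarClamp a b u ≤ (v - u) / (b - a) := by
  have hba : 0 < b - a := by linarith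
  have hd : (v - a) / (b - a) = (u - a) / (b - a) + (v - u) / (b - a) := by
    rw [← add_div]; congr 1; ring
  have hn : 0 ≤ (v - u) / (b - a) := div_nonneg (by linarith) hba.le
  unfold skbarClamp
  rw [hd]
  set s := (u - a) / (b - a)
  set t := (v - u) / (b - a)
  -- max 0 (min 1 (s+t)) ≤ max 0 (min 1 s) + t
  have h1 : min 1 (s + t) ≤ min 1 s + t := by
    rcases le_total 1 s with h | h
    · rw [min_eq_left h]; exact le_trans (min_le_left _ _) (by linarith)
    · rw [min_eq_right h]; exact min_le_right _ _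
  have h2 : max 0 (min 1 (s + t)) ≤ max 0 (min 1 s) + t := by
    apply max_le
    · have := le_max_left 0 (min 1 s); linarith
    · have := le_max_right 0 (min 1 s); linarith
  linarith

/-- the up barrier `Λ u + H clamp((u-a)/(b-a))` (LL l.925-934, PE l.350-360) -/
noncomputable def skbarUp (Λ : ℝ → ℝ) (H a b u : ℝ) : ℝ := Λ u + H * skbarClamp a b u

theorem skbar_up_mem {Ψ Λ : ℝ → ℝ} {u0 H a b ks ls : ℝ} (hab : a < b) (hH : 0 ≤ H) (hks : 0 ≤ ks)
    (hΛ : MonotoneOn Λ (Icc u0 1))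
    (hΛL : ∀ u ∈ Icc u0 1, ∀ v ∈ Icc u0 1, u ≤ v → Λ v - Λ u ≤ ls * (v - u))
    (hΨL : ∀ p q : ℝ, p ≤ q → Ψ q - Ψ p ≤ ks * (q - p))
    (hs : ks * (ls + H / (b - a)) ≤ 1) :
    SkBar Ψ Λ u0 (skbarUp Λ H a b) := by
  constructor
  · intro u _ v _ huv
    simp only [skbarUp]
    have := mul_le_mul_of_nonneg_left (skbar_clamp_mono hab huv) hH
    linarith
  · intro u hu v hv huv
    simp only [skbarUp]
    have h1 := hΛ hu hv huv
    have h2 := mul_le_mul_of_nonneg_left (skbar_clamp_mono hab huv) hH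
    have h3 := hΨL (Λ u + H * skbarClamp a b u) (Λ v + H * skbarClamp a b v) (by linarith)
    have h4 := hΛL u hu v hv huv
    have h5 := mul_le_mul_of_nonneg_left (skbar_clamp_lip hab huv) hH
    have h6 : (Λ v + H * skbarClamp a b v) - (Λ u + H * skbarClamp a b u) ≤ (ls + H / (b - a)) * (v - u) := by
      have : H * ((v - u) / (b - a)) = H / (b - a) * (v - u) := by ring
      nlinarith
    have h7 : ks * ((Λ v + H * skbarClamp a b v) - (Λ u + H * skbarClamp a b u))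
        ≤ ks * ((ls + H / (b - a)) * (v - u)) := mul_le_mul_of_nonneg_left h6 hks
    have h8 : ks * ((ls + H / (b - a)) * (v - u)) ≤ 1 * (v - u) := by
      rw [← mul_assoc]
      exact mul_le_mul_of_nonneg_right hs (by linarith)
    linarith

theorem skbar_up_of_le {Λ : ℝ → ℝ} {H a b u : ℝ} (hab : a < b) (hu : u ≤ a) : skbarUp Λ H a b u = Λ u := by
  simp [skbarUp, skbar_clamp_of_le hab hu]

theorem skbar_up_of_ge {Λ : ℝ → ℝ} {H a b u : ℝ} (hab : a < b) (hu : b ≤ u) : skbarUp Λ H a b u = Λ u + H := by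
  simp [skbarUp, skbar_clamp_of_ge hab hu]

theorem skbar_up_le {Λ : ℝ → ℝ} {H a b : ℝ} (hH : 0 ≤ H) (u : ℝ) : skbarUp Λ H a b u ≤ Λ u + H := by
  have := mul_le_mul_of_nonneg_left (skbar_clamp_le_one a b u) hH
  simp only [skbarUp]; linarith

/-! ## the down barrier -/

/-- the ramp: the largest `q ∈ [q0,1]` with `Ψ q - Ψ q0 ≤ u - a` -/
noncomputable def skbarRamp (Ψ : ℝ → ℝ) (q0 a u : ℝ) : ℝ := sSup {q | q ∈ Icc q0 1 ∧ Ψ q - Ψ q0 ≤ u - a}

section ramp

variable {Ψ : ℝ → ℝ} {q0 a u v ks : ℝ}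

theorem skbar_ramp_mem (hc : Continuous Ψ) (hq : q0 ≤ 1) (hu : a ≤ u) :
    skbarRamp Ψ q0 a u ∈ {q | q ∈ Icc q0 1 ∧ Ψ q - Ψ q0 ≤ u - a} := by
  apply IsClosed.csSup_mem
  · have h1 : IsClosed {q : ℝ | Ψ q - Ψ q0 ≤ u - a} :=
      isClosed_le (hc.sub continuous_const) continuous_const
    exact isClosed_Icc.inter h1
  · exact ⟨q0, ⟨le_rfl, hq⟩, by simp only [sub_self]; linarith⟩
  · exact ⟨1, fun q hq' => hq'.1.2⟩

theorem skbar_ramp_ge (hc : Continuous Ψ) (hq : q0 ≤ 1) (hu : a ≤ u) : q0 ≤ skbarRamp Ψ q0 a u :=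
  (skbar_ramp_mem hc hq hu).1.1

theorem skbar_ramp_le_one (hc : Continuous Ψ) (hq : q0 ≤ 1) (hu : a ≤ u) : skbarRamp Ψ q0 a u ≤ 1 :=
  (skbar_ramp_mem hc hq hu).1.2

theorem skbar_ramp_le (hc : Continuous Ψ) (hq : q0 ≤ 1) (hu : a ≤ u) :
    Ψ (skbarRamp Ψ q0 a u) - Ψ q0 ≤ u - a :=
  (skbar_ramp_mem hc hq hu).2

theorem skbar_ramp_ub {q : ℝ} (h1 : q ∈ Icc q0 1) (h2 : Ψ q - Ψ q0 ≤ u - a) : q ≤ skbarRamp Ψ q0 a u :=
  le_csSup ⟨1, fun _ hq' => hq'.1.2⟩ ⟨h1, h2⟩

theorem skbar_ramp_mono (hc : Continuous Ψ) (hq : q0 ≤ 1) (hu : a ≤ u) (huv : u ≤ v) :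
    skbarRamp Ψ q0 a u ≤ skbarRamp Ψ q0 a v := by
  have h := skbar_ramp_mem hc hq hu
  exact skbar_ramp_ub h.1 (by have := h.2; linarith)

theorem skbar_ramp_eq (hc : Continuous Ψ) (hks : 0 ≤ ks) (hΨL : ∀ p q : ℝ, p ≤ q → Ψ q - Ψ p ≤ ks * (q - p))
    (hq : q0 ≤ 1) (hu : a ≤ u) (h1 : skbarRamp Ψ q0 a u < 1) :
    Ψ (skbarRamp Ψ q0 a u) - Ψ q0 = u - a := by
  by_contra hne
  have hlt : Ψ (skbarRamp Ψ q0 a u) - Ψ q0 < u - a := lt_of_le_of_ne (skbar_ramp_le hc hq hu) hne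
  set ρ := skbarRamp Ψ q0 a u with hρ
  set gap := (u - a) - (Ψ ρ - Ψ q0) with hgap
  have hgap0 : 0 < gap := by simp only [hgap]; linarith
  have hk1 : 0 < ks + 1 := by linarith
  set q := min 1 (ρ + gap / (ks + 1)) with hqdef
  have hq1 : ρ < q := lt_min h1 (by have := div_pos hgap0 hk1; linarith)
  have hq2 : q ≤ 1 := min_le_left _ _
  have hq3 : q - ρ ≤ gap / (ks + 1) := by have := min_le_right 1 (ρ + gap / (ks + 1)); linarith
  have hq4 : Ψ q - Ψ ρ ≤ gap := by
    have h5 := hΨL ρ q hq1.le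
    have h6 : ks * (q - ρ) ≤ ks * (gap / (ks + 1)) := mul_le_mul_of_nonneg_left hq3 hks
    have h7 : ks * (gap / (ks + 1)) ≤ gap := by
      rw [mul_div_assoc', div_le_iff₀ hk1]; nlinarith
    linarith
  have hmem : q ≤ ρ := by
    apply skbar_ramp_ub ⟨le_trans (skbar_ramp_ge hc hq hu) hq1.le, hq2⟩
    simp only [hgap] at hq4; linarith
  linarith

theorem skbar_ramp_eq_one (hc : Continuous Ψ) (hq : q0 ≤ 1) (hu : a ≤ u) (h : Ψ 1 - Ψ q0 ≤ u - a) :
    skbarRamp Ψ q0 a u = 1 :=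
  le_antisymm (skbar_ramp_le_one hc hq hu) (skbar_ramp_ub ⟨hq, le_rfl⟩ h)

end ramp

/-- the down barrier (LL l.936-945, PE l.398-412): `H + Λ u` up to `a`, then the ramp until it meets the line `1 - (Λ 1 - Λ u)` -/
noncomputable def skbarDn (Ψ Λ : ℝ → ℝ) (H a u : ℝ) : ℝ :=
  if u ≤ a then H + Λ u else min (skbarRamp Ψ (H + Λ a) a u) (1 - (Λ 1 - Λ u))

theorem skbar_dn_of_le {Ψ Λ : ℝ → ℝ} {H a u : ℝ} (hu : u ≤ a) : skbarDn Ψ Λ H a u = H + Λ u := by
  simp [skbarDn, hu]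

theorem skbar_dn_of_gt {Ψ Λ : ℝ → ℝ} {H a u : ℝ} (hu : a < u) :
    skbarDn Ψ Λ H a u = min (skbarRamp Ψ (H + Λ a) a u) (1 - (Λ 1 - Λ u)) := by
  simp [skbarDn, not_le.2 hu]

theorem skbar_dn_mem {Ψ Λ : ℝ → ℝ} {u0 H a ks ls : ℝ} (hks : 0 ≤ ks) (hls : 0 ≤ ls)
    (hΨ : Monotone Ψ) (hc : Continuous Ψ)
    (hΛ : MonotoneOn Λ (Icc u0 1))
    (hΛL : ∀ u ∈ Icc u0 1, ∀ v ∈ Icc u0 1, u ≤ v → Λ v - Λ u ≤ ls * (v - u))
    (hΨL : ∀ p q : ℝ, p ≤ q → Ψ q - Ψ p ≤ ks * (q - p))
    (hs : ks * ls ≤ 1) (ha : a ∈ Icc u0 1) (hH1 : H + Λ 1 ≤ 1) :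
    SkBar Ψ Λ u0 (skbarDn Ψ Λ H a) := by
  have h1mem : (1 : ℝ) ∈ Icc u0 1 := ⟨ha.1.trans ha.2, le_rfl⟩
  have hq : H + Λ a ≤ 1 := by have := hΛ ha h1mem ha.2; linarith
  -- slope comparison : Ψ-increment `d` over radius increment `δ ≥ 0`
  have slope : ∀ u ∈ Icc u0 1, ∀ v ∈ Icc u0 1, u ≤ v → ∀ δ : ℝ, 0 ≤ δ → v - u ≤ ks * δ → Λ v - Λ u ≤ δ := by
    intro u hu v hv huv δ hδ h
    have h2 := hΛL u hu v hv huv
    have h3 : ls * (v - u) ≤ ls * (ks * δ) := mul_le_mul_of_nonneg_left h hls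
    have h4 : ls * (ks * δ) ≤ 1 * δ := by
      rw [← mul_assoc, mul_comm ls ks]; exact mul_le_mul_of_nonneg_right hs hδ
    linarith
  have lip : ∀ u ∈ Icc u0 1, ∀ v ∈ Icc u0 1, u ≤ v → ks * (Λ v - Λ u) ≤ v - u := by
    intro u hu v hv huv
    have h2 := hΛL u hu v hv huv
    have h3 : ks * (Λ v - Λ u) ≤ ks * (ls * (v - u)) := mul_le_mul_of_nonneg_left h2 hks
    have h4 : ks * (ls * (v - u)) ≤ 1 * (v - u) := by
      rw [← mul_assoc]; exact mul_le_mul_of_nonneg_right hs (by linarith)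
    linarith
  constructor
  · intro u hu v hv huv
    simp only
    rcases le_or_gt v a with hva | hva
    · rw [skbar_dn_of_le hva, skbar_dn_of_le (huv.trans hva)]; linarith
    · rw [skbar_dn_of_gt hva]
      have hΛv1 := hΛ hv h1mem hv.2
      rcases le_or_gt u a with hua | hua
      · rw [skbar_dn_of_le hua]
        have goal1 : H + Λ v ≤ skbarRamp Ψ (H + Λ a) a v := by
          rcases lt_or_ge (skbarRamp Ψ (H + Λ a) a v) 1 with h1 | h1
          · have e1 := skbar_ramp_eq hc hks hΨL hq hva.le h1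
            have g1 := skbar_ramp_ge hc hq hva.le
            have l1 := hΨL _ _ g1
            have := slope a ha v hv hva.le (skbarRamp Ψ (H + Λ a) a v - (H + Λ a)) (by linarith) (by linarith)
            linarith
          · linarith
        have : H + Λ v ≤ min (skbarRamp Ψ (H + Λ a) a v) (1 - (Λ 1 - Λ v)) := le_min goal1 (by linarith)
        linarith
      · rw [skbar_dn_of_gt hua]
        have hA : min (skbarRamp Ψ (H + Λ a) a u) (1 - (Λ 1 - Λ u)) ≤ 1 - (Λ 1 - Λ u) := min_le_right _ _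
        have hB : min (skbarRamp Ψ (H + Λ a) a u) (1 - (Λ 1 - Λ u)) ≤ skbarRamp Ψ (H + Λ a) a u := min_le_left _ _
        have goal1 : min (skbarRamp Ψ (H + Λ a) a u) (1 - (Λ 1 - Λ u)) - Λ u ≤ skbarRamp Ψ (H + Λ a) a v - Λ v := by
          rcases lt_or_ge (skbarRamp Ψ (H + Λ a) a v) 1 with h1 | h1
          · have m1 := skbar_ramp_mono hc hq hua.le huv
            have e1 := skbar_ramp_eq hc hks hΨL hq hva.le h1
            have e2 := skbar_ramp_eq hc hks hΨL hq hua.le (lt_of_le_of_lt m1 h1)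
            have l1 := hΨL _ _ m1
            have := slope u hu v hv huv (skbarRamp Ψ (H + Λ a) a v - skbarRamp Ψ (H + Λ a) a u) (by linarith) (by linarith)
            linarith
          · linarith
        have goal2 : min (skbarRamp Ψ (H + Λ a) a u) (1 - (Λ 1 - Λ u)) - Λ u ≤ (1 - (Λ 1 - Λ v)) - Λ v := by linarith
        have : min (skbarRamp Ψ (H + Λ a) a u) (1 - (Λ 1 - Λ u)) - Λ u + Λ v
            ≤ min (skbarRamp Ψ (H + Λ a) a v) (1 - (Λ 1 - Λ v)) := le_min (by linarith) (by linarith)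
        linarith
  · intro u hu v hv huv
    simp only
    -- first branch estimate
    have first : ∀ u ∈ Icc u0 1, ∀ v ∈ Icc u0 1, u ≤ v → u - Ψ (H + Λ u) ≤ v - Ψ (H + Λ v) := by
      intro u hu v hv huv
      have h1 := hΛ hu hv huv
      have h2 := hΨL (H + Λ u) (H + Λ v) (by linarith)
      have h3 := lip u hu v hv huv
      have : ks * (H + Λ v - (H + Λ u)) = ks * (Λ v - Λ u) := by ring
      linarith
    rcases le_or_gt v a with hva | hva
    · rw [skbar_dn_of_le hva, skbar_dn_of_le (huv.trans hva)]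
      exact first u hu v hv huv
    · rw [skbar_dn_of_gt hva]
      have hv1 : Ψ (min (skbarRamp Ψ (H + Λ a) a v) (1 - (Λ 1 - Λ v))) ≤ Ψ (skbarRamp Ψ (H + Λ a) a v) :=
        hΨ (min_le_left _ _)
      have hv2 := skbar_ramp_le hc hq hva.le
      rcases le_or_gt u a with hua | hua
      · rw [skbar_dn_of_le hua]
        have := first u hu a ha hua
        linarith
      · rw [skbar_dn_of_gt hua]
        rcases le_or_gt (1 - (Λ 1 - Λ u)) (skbarRamp Ψ (H + Λ a) a u) with hcase | hcase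
        · rw [min_eq_right hcase]
          have h1 := hΛ hu hv huv
          have h2 : Ψ (min (skbarRamp Ψ (H + Λ a) a v) (1 - (Λ 1 - Λ v))) ≤ Ψ (1 - (Λ 1 - Λ v)) :=
            hΨ (min_le_right _ _)
          have h3 := hΨL (1 - (Λ 1 - Λ u)) (1 - (Λ 1 - Λ v)) (by linarith)
          have h4 := lip u hu v hv huv
          have : ks * (1 - (Λ 1 - Λ v) - (1 - (Λ 1 - Λ u))) = ks * (Λ v - Λ u) := by ring
          linarith
        · rw [min_eq_left hcase.le]
          have hΛu1 := hΛ hu h1mem hu.2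
          have e2 := skbar_ramp_eq hc hks hΨL hq hua.le (by linarith)
          linarith

/-- after the ramp (mass length `≤ Ψ 1 - Ψ q0 ≤ ∫ k`) the down barrier is the top line -/
theorem skbar_dn_after {Ψ Λ : ℝ → ℝ} {u0 H a u : ℝ} (hc : Continuous Ψ) (hΛ : MonotoneOn Λ (Icc u0 1))
    (ha : a ∈ Icc u0 1) (hH1 : H + Λ 1 ≤ 1) (hu : u ∈ Icc u0 1) (hau : a < u)
    (h : Ψ 1 - Ψ (H + Λ a) ≤ u - a) : skbarDn Ψ Λ H a u = 1 - (Λ 1 - Λ u) := by
  have h1mem : (1 : ℝ) ∈ Icc u0 1 := ⟨ha.1.trans ha.2, le_rfl⟩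
  have hq : H + Λ a ≤ 1 := by have := hΛ ha h1mem ha.2; linarith
  rw [skbar_dn_of_gt hau, skbar_ramp_eq_one hc hq hau.le h]
  apply min_eq_right
  have := hΛ hu h1mem hu.2
  linarith

/-! ## capped clipping -/

/-- **shift lemma**: if `Ψ` is concave below `ρ0` and the barrier `w` stays below `ρ0`, then `min w (r + τ)` is in the class. -/
theorem skbar_min_shift {Ψ Λ : ℝ → ℝ} {u0 τ ρ0 : ℝ} {r w : ℝ → ℝ} (hΨ : Monotone Ψ)
    (hconc : ∀ p q : ℝ, 0 ≤ p → p ≤ q → q + τ ≤ ρ0 → Ψ (q + τ) - Ψ (p + τ) ≤ Ψ q - Ψ p)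
    (hΛ : MonotoneOn Λ (Icc u0 1)) (hr0 : ∀ u ∈ Icc u0 1, 0 ≤ r u)
    (hr : SkBar Ψ Λ u0 r) (hw : SkBar Ψ Λ u0 w) (hwρ : ∀ u ∈ Icc u0 1, w u ≤ ρ0) :
    SkBar Ψ Λ u0 (fun u => min (w u) (r u + τ)) := by
  constructor
  · intro a ha b hb hab
    have h1 := hr.lo ha hb hab
    have h2 := hw.lo ha hb hab
    simp only at h1 h2 ⊢
    have h3 : min (w a) (r a + τ) - Λ a + Λ b ≤ min (w b) (r b + τ) := by
      apply le_min
      · have := min_le_left (w a) (r a + τ); linarith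
      · have := min_le_right (w a) (r a + τ); linarith
    linarith
  · intro a ha b hb hab
    have h1 := hr.up ha hb hab
    have h2 := hw.up ha hb hab
    have hm := skbar_mono hΛ hr ha hb hab
    simp only at h1 h2 ⊢
    rcases le_or_gt (w a) (r a + τ) with hc | hc
    · rw [min_eq_left hc]
      have := hΨ (min_le_left (w b) (r b + τ))
      linarith
    · rw [min_eq_right hc.le]
      have hρ := hwρ a ha
      rcases le_or_gt (r b + τ) ρ0 with hd | hd
      · have h3 := hconc (r a) (r b) (hr0 a ha) hm hd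
        have := hΨ (min_le_right (w b) (r b + τ))
        linarith
      · have h3 := hconc (r a) (ρ0 - τ) (hr0 a ha) (by linarith) (by linarith)
        rw [sub_add_cancel] at h3
        have h4 : Ψ (min (w b) (r b + τ)) ≤ Ψ ρ0 := hΨ (le_trans (min_le_left _ _) (hwρ b hb))
        have h5 : Ψ (ρ0 - τ) ≤ Ψ (r b) := hΨ (by linarith)
        linarith

/-- the displacement of the capped clipping -/
theorem skbar_cap_disp (r w τ : ℝ) (hτ : 0 ≤ τ) : max r (min w (r + τ)) - r = max 0 (min (w - r) τ) := by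
  rcases le_total w (r + τ) with h | h
  · rw [min_eq_left h, min_eq_left (by linarith : w - r ≤ τ)]
    rcases le_total r w with h' | h'
    · rw [max_eq_right h', max_eq_right (by linarith : (0:ℝ) ≤ w - r)]
    · rw [max_eq_left h', max_eq_left (by linarith : w - r ≤ 0)]; ring
  · rw [min_eq_right h, min_eq_right (by linarith : τ ≤ w - r), max_eq_right (by linarith : r ≤ r + τ),
      max_eq_right hτ]; ring

/-! ## harmonic (= ψ-affine) interpolation for `k(q) = A0/(q+B0)^2` -/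

/-- `ψ(q) = ∫₀^q A0/(t+B0)² dt = A0/B0 - A0/(q+B0)` -/
noncomputable def skbarPsi (A0 B0 q : ℝ) : ℝ := A0 / B0 - A0 / (q + B0)

/-- the weighted harmonic mean of `x + B0`, `y + B0`, minus `B0` -/
noncomputable def skbarHm (B0 t x y : ℝ) : ℝ :=
  (x + B0) * (y + B0) / ((1 - t) * (y + B0) + t * (x + B0)) - B0

section harmonic

variable {A0 B0 t x y x' y' c : ℝ}

theorem skbar_hm_den_pos (hB : 0 < B0) (ht0 : 0 ≤ t) (ht1 : t ≤ 1) (hx : 0 ≤ x) (hy : 0 ≤ y) :
    0 < (1 - t) * (y + B0) + t * (x + B0) := by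
  have h1 : 0 < y + B0 := by linarith
  have h2 : 0 < x + B0 := by linarith
  rcases eq_or_lt_of_le ht0 with h | h
  · rw [← h]; linarith
  · have := mul_pos h h2
    have := mul_nonneg (by linarith : (0:ℝ) ≤ 1 - t) h1.le
    linarith

theorem skbar_hm_psi (hB : 0 < B0) (ht0 : 0 ≤ t) (ht1 : t ≤ 1) (hx : 0 ≤ x) (hy : 0 ≤ y) :
    skbarPsi A0 B0 (skbarHm B0 t x y) = (1 - t) * skbarPsi A0 B0 x + t * skbarPsi A0 B0 y := by
  have hd := skbar_hm_den_pos hB ht0 ht1 hx hy
  have h1 : 0 < y + B0 := by linarith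
  have h2 : 0 < x + B0 := by linarith
  unfold skbarPsi skbarHm
  rw [sub_add_cancel]
  field_simp
  ring

theorem skbar_hm_self (hB : 0 < B0) (hx : 0 ≤ x) : skbarHm B0 t x x = x := by
  have h2 : 0 < x + B0 := by linarith
  unfold skbarHm
  have : (1 - t) * (x + B0) + t * (x + B0) = x + B0 := by ring
  rw [this, mul_div_assoc, div_self h2.ne']; ring

/-- `x - Hm = t (x-y) (x+B0)/m` -/
theorem skbar_hm_disp (hB : 0 < B0) (ht0 : 0 ≤ t) (ht1 : t ≤ 1) (hx : 0 ≤ x) (hy : 0 ≤ y) :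
    x - skbarHm B0 t x y = t * (x - y) * ((x + B0) / ((1 - t) * (y + B0) + t * (x + B0))) := by
  have hd := skbar_hm_den_pos hB ht0 ht1 hx hy
  unfold skbarHm
  generalize hm : (1 - t) * (y + B0) + t * (x + B0) = m at hd ⊢
  have hm' : m ≠ 0 := hd.ne'
  field_simp
  rw [← hm]
  ring

theorem skbar_hm_disp_ge (hB : 0 < B0) (ht0 : 0 ≤ t) (ht1 : t ≤ 1) (hy : 0 ≤ y) (hyx : y ≤ x) :
    t * (x - y) ≤ x - skbarHm B0 t x y := by
  have hx : 0 ≤ x := hy.trans hyx
  have hd := skbar_hm_den_pos hB ht0 ht1 hx hy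
  rw [skbar_hm_disp hB ht0 ht1 hx hy]
  have h1 : 1 ≤ (x + B0) / ((1 - t) * (y + B0) + t * (x + B0)) := by
    rw [le_div_iff₀ hd]; nlinarith
  have h2 : 0 ≤ t * (x - y) := mul_nonneg ht0 (by linarith)
  nlinarith

theorem skbar_hm_disp_le (hB : 0 < B0) (ht0 : 0 ≤ t) (ht1 : t ≤ 1) (hy : 0 ≤ y) (hyx : y ≤ x) :
    x - skbarHm B0 t x y ≤ t * (x - y) * ((x + B0) / (y + B0)) := by
  have hx : 0 ≤ x := hy.trans hyx
  have hd := skbar_hm_den_pos hB ht0 ht1 hx hy
  have h1 : 0 < y + B0 := by linarith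
  rw [skbar_hm_disp hB ht0 ht1 hx hy]
  apply mul_le_mul_of_nonneg_left _ (mul_nonneg ht0 (by linarith))
  apply div_le_div_of_nonneg_left (by linarith) h1
  nlinarith

theorem skbar_hm_le_left (hB : 0 < B0) (ht0 : 0 ≤ t) (ht1 : t ≤ 1) (hy : 0 ≤ y) (hyx : y ≤ x) :
    skbarHm B0 t x y ≤ x := by
  have := skbar_hm_disp_ge hB ht0 ht1 hy hyx
  have := mul_nonneg ht0 (by linarith : (0:ℝ) ≤ x - y)
  linarith

theorem skbar_hm_ge_right (hB : 0 < B0) (ht0 : 0 ≤ t) (ht1 : t ≤ 1) (hy : 0 ≤ y) (hyx : y ≤ x) :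
    y ≤ skbarHm B0 t x y := by
  have hx : 0 ≤ x := hy.trans hyx
  have hd := skbar_hm_den_pos hB ht0 ht1 hx hy
  unfold skbarHm
  rw [le_sub_iff_add_le, le_div_iff₀ hd]
  have h1 : 0 < y + B0 := by linarith
  nlinarith [mul_nonneg (mul_nonneg (by linarith : (0:ℝ) ≤ 1 - t) h1.le) (by linarith : (0:ℝ) ≤ x - y)]

/-- monotonicity in both arguments -/
theorem skbar_hm_mono (hB : 0 < B0) (ht0 : 0 ≤ t) (ht1 : t ≤ 1) (hx : 0 ≤ x) (hy : 0 ≤ y)
    (hxx : x ≤ x') (hyy : y ≤ y') : skbarHm B0 t x y ≤ skbarHm B0 t x' y' := by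
  have hx' : 0 ≤ x' := hx.trans hxx
  have hy' : 0 ≤ y' := hy.trans hyy
  have hd := skbar_hm_den_pos hB ht0 ht1 hx hy
  have hd' := skbar_hm_den_pos hB ht0 ht1 hx' hy'
  unfold skbarHm
  apply sub_le_sub_right
  rw [div_le_div_iff₀ hd hd']
  set X := x + B0
  set Y := y + B0
  set X' := x' + B0
  set Y' := y' + B0
  have hX : 0 < X := by simp only [X]; linarith
  have hY : 0 < Y := by simp only [Y]; linarith
  have hXX : X ≤ X' := by simp only [X, X']; linarith
  have hYY : Y ≤ Y' := by simp only [Y, Y']; linarith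
  -- X Y ((1-t) Y' + t X') ≤ X' Y' ((1-t) Y + t X)
  have h1 : X * Y * Y' ≤ X' * Y' * Y := by
    have : X * (Y * Y') ≤ X' * (Y * Y') := mul_le_mul_of_nonneg_right hXX (by positivity)
    nlinarith
  have h2 : X * Y * X' ≤ X' * Y' * X := by
    have hX' : 0 < X' := lt_of_lt_of_le hX hXX
    have : Y * (X * X') ≤ Y' * (X * X') := mul_le_mul_of_nonneg_right hYY (by positivity)
    nlinarith
  have h3 := mul_le_mul_of_nonneg_left h1 (by linarith : (0:ℝ) ≤ 1 - t)
  have h4 := mul_le_mul_of_nonneg_left h2 ht0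
  nlinarith

/-- **superadditivity** of the weighted harmonic mean: `Hm(x+c, y+c) ≥ Hm(x,y) + c` -/
theorem skbar_hm_add (hB : 0 < B0) (ht0 : 0 ≤ t) (ht1 : t ≤ 1) (hx : 0 ≤ x) (hy : 0 ≤ y) (hc : 0 ≤ c) :
    skbarHm B0 t x y + c ≤ skbarHm B0 t (x + c) (y + c) := by
  have hd := skbar_hm_den_pos hB ht0 ht1 hx hy
  have hd' := skbar_hm_den_pos hB ht0 ht1 (by linarith : 0 ≤ x + c) (by linarith : 0 ≤ y + c)
  unfold skbarHm
  set X := x + B0 with hXd
  set Y := y + B0 with hYd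
  have e1 : x + c + B0 = X + c := by simp only [hXd]; ring
  have e2 : y + c + B0 = Y + c := by simp only [hYd]; ring
  rw [e1, e2] at hd' ⊢
  set m := (1 - t) * Y + t * X with hm
  have e3 : (1 - t) * (Y + c) + t * (X + c) = m + c := by simp only [hm]; ring
  rw [e3] at hd' ⊢
  have key : X * Y / m + c ≤ (X + c) * (Y + c) / (m + c) := by
    rw [le_div_iff₀ hd', div_add' _ _ _ hd.ne', div_mul_eq_mul_div, div_le_iff₀ hd]
    -- (XY + c m)(m + c) ≤ (X+c)(Y+c) m  ⟸  c (m - X)(Y - m) ≥ 0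
    have h5 : (m - X) * (Y - m) = (1 - t) * t * (Y - X) ^ 2 := by simp only [hm]; ring
    have h6 : 0 ≤ (m - X) * (Y - m) := by
      rw [h5]; exact mul_nonneg (mul_nonneg (by linarith) ht0) (sq_nonneg _)
    nlinarith [mul_nonneg hc h6]
  linarith

end harmonic

/-- **the ψ-affine interpolation stays in the class** (PE l.424-447, without derivatives). -/
theorem skbar_hm_mem {Ψ Λ : ℝ → ℝ} {u0 B0 t : ℝ} {r v : ℝ → ℝ} (hB : 0 < B0) (ht0 : 0 ≤ t) (ht1 : t ≤ 1)
    (hΛ : MonotoneOn Λ (Icc u0 1))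
    (hr0 : ∀ u ∈ Icc u0 1, 0 ≤ r u) (hv0 : ∀ u ∈ Icc u0 1, 0 ≤ v u)
    (hr : SkBar Ψ Λ u0 r) (hv : SkBar Ψ Λ u0 v)
    (haff : ∀ u ∈ Icc u0 1, Ψ (skbarHm B0 t (r u) (v u)) = (1 - t) * Ψ (r u) + t * Ψ (v u)) :
    SkBar Ψ Λ u0 (fun u => skbarHm B0 t (r u) (v u)) := by
  constructor
  · intro a ha b hb hab
    have h1 := hr.lo ha hb hab
    have h2 := hv.lo ha hb hab
    have h3 := hΛ ha hb hab
    simp only at h1 h2 ⊢
    have h4 := skbar_hm_add (t := t) hB ht0 ht1 (hr0 a ha) (hv0 a ha) (by linarith : 0 ≤ Λ b - Λ a)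
    have h5 : skbarHm B0 t (r a + (Λ b - Λ a)) (v a + (Λ b - Λ a)) ≤ skbarHm B0 t (r b) (v b) :=
      skbar_hm_mono hB ht0 ht1 (by have := hr0 a ha; linarith) (by have := hv0 a ha; linarith)
        (by linarith) (by linarith)
    linarith
  · intro a ha b hb hab
    have h1 := hr.up ha hb hab
    have h2 := hv.up ha hb hab
    simp only at h1 h2 ⊢
    rw [haff a ha, haff b hb]
    have h3 := mul_le_mul_of_nonneg_left h1 (by linarith : (0:ℝ) ≤ 1 - t)
    have h4 := mul_le_mul_of_nonneg_left h2 ht0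
    nlinarith

/-- the affinity hypothesis of `skbar_hm_mem` for `Ψ = ψ + E` (LL: `E q = κ |I ∩ [0,q]|`) when the extra part does not see the move -/
theorem skbar_hm_aff_patch {Ψ E : ℝ → ℝ} {A0 B0 t x y : ℝ} (hB : 0 < B0) (ht0 : 0 ≤ t) (ht1 : t ≤ 1)
    (hΨ : ∀ q, 0 ≤ q → Ψ q = skbarPsi A0 B0 q + E q) (hE : MonotoneOn E (Ici 0))
    (hy : 0 ≤ y) (hyx : y ≤ x) (hExy : E x = E y) :
    Ψ (skbarHm B0 t x y) = (1 - t) * Ψ x + t * Ψ y := by
  have hx : 0 ≤ x := hy.trans hyx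
  have h1 := skbar_hm_ge_right (t := t) hB ht0 ht1 hy hyx
  have h2 := skbar_hm_le_left (t := t) hB ht0 ht1 hy hyx
  have h0 : 0 ≤ skbarHm B0 t x y := hy.trans h1
  have hE1 : E (skbarHm B0 t x y) = E y := by
    apply le_antisymm
    · rw [← hExy]; exact hE (mem_Ici.2 h0) (mem_Ici.2 hx) h2
    · exact hE (mem_Ici.2 hy) (mem_Ici.2 h0) h1
  rw [hΨ _ h0, hΨ _ hx, hΨ _ hy, skbar_hm_psi hB ht0 ht1 hx hy, hE1, hExy]
  ring

end Claimed.Agent.R286
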