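import Claimed.Agent.R286.Lib.Barrier

/-!
# Row 286 : the barrier MOVES at fixed size, for an ARBITRARY floor primitive `Ψ`      owner helper186, prefix `skbar_`

(PE Lemma 6.4 / LL 07-budgets l.917-957, exit X8 "L6.2-6.4 for any class closed under the barrier moves").   Same shapes as `p6_bar_up`, `p6_bar_dn` of Pe6 (helper14), but `Ψ` is general:
LL uses `Ψ q = ∫₀^q (k + κ 1_I)`.

* `skbar_bar_up`      capped clipping `max r (min w (r+τ))`.  `hconc` (concavity of `Ψ` below the top `Λ 1 + H` of the barrier) is VACUOUS for `τ > Λ 1 + H`: this is the full clipping of LL l.947.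
* `skbar_bar_dn_full` full clipping `min r w`.
* `skbar_bar_dn`      harmonic (ψ-affine) partial move; `haff` only for radii `≤ r ub`, `ub` = end of the ramp (LL l.951-957: all active radii are below the patch).
* `skbar_inverse`     a member of the forward class with end points `0, 1` has an inverse distribution with the constraints in radius form (a competitor in the sense of `CmQ`, `BdQ`).
-/

set_option autoImplicit false

namespace Claimed.Agent.R286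

open Set

theorem skbar_bar_up {Ψ Λ r : ℝ → ℝ} {ks ls u0 u1 u2 H τ : ℝ}
    (hΨ : Monotone Ψ) (hks : 0 ≤ ks) (hΨL : ∀ p q : ℝ, p ≤ q → Ψ q - Ψ p ≤ ks * (q - p))
    (hconc : ∀ p q : ℝ, 0 ≤ p → p ≤ q → q + τ ≤ Λ 1 + H → Ψ (q + τ) - Ψ (p + τ) ≤ Ψ q - Ψ p)
    (h01 : u0 ≤ u1) (h12 : u1 < u2) (h21 : u2 ≤ 1)
    (hΛ : MonotoneOn Λ (Icc u0 1)) (hΛ0 : Λ u0 = r u0)
    (hΛl : ∀ u ∈ Icc u0 1, ∀ v ∈ Icc u0 1, u ≤ v → Λ v - Λ u ≤ ls * (v - u))
    (hr : SkBar Ψ Λ u0 r) (hr0 : 0 ≤ r u0) (hr1 : r 1 = 1)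
    (hH : 0 ≤ H) (hτ : 0 ≤ τ) (hslope : ks * (ls + H / (u2 - u1)) ≤ 1) (htop : Λ 1 + H ≤ 1) :
    ∃ rh : ℝ → ℝ, SkBar Ψ Λ u0 rh ∧ rh u0 = r u0 ∧ rh 1 = 1 ∧
      (∀ u ∈ Icc u0 1, r u ≤ rh u ∧ rh u ≤ r u + τ) ∧
      (∀ u ∈ Icc u0 1, rh u ≠ r u → u1 < u ∧ r u < rh u ∧ rh u ≤ Λ 1 + H) ∧
      (∀ u ∈ Icc u2 1, r u + τ ≤ Λ u + H → rh u = r u + τ) := by
  have h0mem : u0 ∈ Icc u0 1 := ⟨le_rfl, h01.trans (h12.le.trans h21)⟩
  have h1mem : (1 : ℝ) ∈ Icc u0 1 := ⟨h0mem.2, le_rfl⟩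
  have hw : SkBar Ψ Λ u0 (skbarUp Λ H u1 u2) := skbar_up_mem h12 hH hks hΛ hΛl hΨL hslope
  have hwρ : ∀ u ∈ Icc u0 1, skbarUp Λ H u1 u2 u ≤ Λ 1 + H := by
    intro u hu
    have h1 := skbar_up_le (Λ := Λ) (a := u1) (b := u2) hH u
    have h2 := hΛ hu h1mem hu.2
    linarith
  have hrm := skbar_mono hΛ hr
  have hrpos : ∀ u ∈ Icc u0 1, 0 ≤ r u := fun u hu => hr0.trans (hrm h0mem hu hu.1)
  have hmin := skbar_min_shift hΨ hconc hΛ hrpos hr hw hwρ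
  refine ⟨fun u => max (r u) (min (skbarUp Λ H u1 u2 u) (r u + τ)), skbar_max hΨ hr hmin, ?_, ?_, ?_, ?_, ?_⟩
  · simp only
    rw [skbar_up_of_le h12 h01, hΛ0, min_eq_left (by linarith), max_self]
  · simp only
    rw [hr1]
    apply max_eq_left
    exact le_trans (min_le_left _ _) (le_trans (hwρ 1 h1mem) htop)
  · intro u _
    exact ⟨le_max_left _ _, max_le (by linarith) (min_le_right _ _)⟩
  · intro u hu hne
    simp only at hne ⊢
    have hlt : r u < min (skbarUp Λ H u1 u2 u) (r u + τ) := by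
      by_contra hcon
      exact hne (max_eq_left (not_lt.1 hcon))
    have hlw : r u < skbarUp Λ H u1 u2 u := lt_of_lt_of_le hlt (min_le_left _ _)
    refine ⟨?_, ?_, ?_⟩
    · by_contra hcon
      rw [skbar_up_of_le h12 (not_lt.1 hcon)] at hlw
      have := skbar_ge_line hr hu
      linarith
    · rw [max_eq_right hlt.le]; exact hlt
    · rw [max_eq_right hlt.le]
      exact le_trans (min_le_left _ _) (hwρ u hu)
  · intro u hu h
    simp only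
    rw [skbar_up_of_ge h12 hu.1, min_eq_right h, max_eq_right (by linarith)]

/-- the down barrier stays above `H + Λ u` -/
theorem skbar_dn_ge {Ψ Λ : ℝ → ℝ} {u0 H a ks ls : ℝ} (hks : 0 ≤ ks) (hls : 0 ≤ ls)
    (hΨ : Monotone Ψ) (hc : Continuous Ψ) (hΛ : MonotoneOn Λ (Icc u0 1))
    (hΛL : ∀ u ∈ Icc u0 1, ∀ v ∈ Icc u0 1, u ≤ v → Λ v - Λ u ≤ ls * (v - u))
    (hΨL : ∀ p q : ℝ, p ≤ q → Ψ q - Ψ p ≤ ks * (q - p))
    (hs : ks * ls ≤ 1) (ha : a ∈ Icc u0 1) (hH1 : H + Λ 1 ≤ 1) {u : ℝ} (hu : u ∈ Icc u0 1) :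
    H + Λ u ≤ skbarDn Ψ Λ H a u := by
  have hw := skbar_dn_mem hks hls hΨ hc hΛ hΛL hΨL hs ha hH1
  have h0mem : u0 ∈ Icc u0 1 := ⟨le_rfl, ha.1.trans ha.2⟩
  have h := hw.lo h0mem hu hu.1
  simp only at h
  rw [skbar_dn_of_le ha.1] at h
  linarith

theorem skbar_bar_dn_full {Ψ Λ r : ℝ → ℝ} {ks ls u0 a H : ℝ}
    (hΨ : Monotone Ψ) (hc : Continuous Ψ) (hks : 0 ≤ ks) (hls : 0 ≤ ls)
    (hΨL : ∀ p q : ℝ, p ≤ q → Ψ q - Ψ p ≤ ks * (q - p)) (hs : ks * ls ≤ 1)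
    (ha : a ∈ Icc u0 1) (ha1 : a < 1) (hramp : a + (Ψ 1 - Ψ (H + Λ a)) ≤ 1)
    (hΛ : MonotoneOn Λ (Icc u0 1))
    (hΛl : ∀ u ∈ Icc u0 1, ∀ v ∈ Icc u0 1, u ≤ v → Λ v - Λ u ≤ ls * (v - u))
    (hr : SkBar Ψ Λ u0 r) (hr1 : r 1 = 1) (hrH : r u0 ≤ H + Λ u0) (htop : H + Λ 1 ≤ 1) :
    ∃ v : ℝ → ℝ, SkBar Ψ Λ u0 v ∧ v u0 = r u0 ∧ v 1 = 1 ∧
      (∀ u ∈ Icc u0 1, v u ≤ r u) ∧
      (∀ u ∈ Icc u0 1, v u ≠ r u → u ≤ a + (Ψ 1 - Ψ (H + Λ a)) ∧ H + Λ u ≤ v u) ∧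
      (∀ u ∈ Icc u0 a, v u = min (r u) (H + Λ u)) := by
  have h0mem : u0 ∈ Icc u0 1 := ⟨le_rfl, ha.1.trans ha.2⟩
  have h1mem : (1 : ℝ) ∈ Icc u0 1 := ⟨h0mem.2, le_rfl⟩
  have hw := skbar_dn_mem hks hls hΨ hc hΛ hΛl hΨL hs ha htop
  have hq : H + Λ a ≤ 1 := by have := hΛ ha h1mem ha.2; linarith
  have hΨ1 : 0 ≤ Ψ 1 - Ψ (H + Λ a) := by have := hΨ hq; linarith
  -- beyond the ramp the barrier is above `r`
  have after : ∀ u ∈ Icc u0 1, a < u → a + (Ψ 1 - Ψ (H + Λ a)) ≤ u → r u ≤ skbarDn Ψ Λ H a u := by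
    intro u hu hau h
    rw [skbar_dn_after hc hΛ ha htop hu hau (by linarith)]
    exact skbar_le_line hr hr1 hu
  refine ⟨fun u => min (r u) (skbarDn Ψ Λ H a u), skbar_min hΨ hr hw, ?_, ?_, ?_, ?_, ?_⟩
  · simp only
    rw [skbar_dn_of_le ha.1]
    exact min_eq_left hrH
  · simp only
    rw [min_eq_left (after 1 h1mem ha1 hramp), hr1]
  · intro u _
    exact min_le_left _ _
  · intro u hu hne
    simp only at hne ⊢
    have hlt : skbarDn Ψ Λ H a u < r u := by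
      by_contra hcon
      exact hne (min_eq_left (not_lt.1 hcon))
    constructor
    · by_contra hcon
      have h2 : a + (Ψ 1 - Ψ (H + Λ a)) < u := not_le.1 hcon
      have := after u hu (by linarith) h2.le
      linarith
    · rw [min_eq_right hlt.le]
      exact skbar_dn_ge hks hls hΨ hc hΛ hΛl hΨL hs ha htop hu
  · intro u hu
    simp only
    rw [skbar_dn_of_le hu.2]

theorem skbar_hm_one {B0 x y : ℝ} (hB : 0 < B0) (hx : 0 ≤ x) : skbarHm B0 1 x y = y := by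
  have h2 : x + B0 ≠ 0 := by linarith
  unfold skbarHm
  have : (1 - 1) * (y + B0) + 1 * (x + B0) = x + B0 := by ring
  rw [this, mul_comm, mul_div_assoc, div_self h2]; ring

/-- **the partial down move** (harmonic = ψ-affine interpolation between `r` and the full clipping). -/
theorem skbar_bar_dn {Ψ Λ r : ℝ → ℝ} {ks ls u0 a H B0 t : ℝ}
    (hΨ : Monotone Ψ) (hc : Continuous Ψ) (hks : 0 ≤ ks) (hls : 0 ≤ ls)
    (hΨL : ∀ p q : ℝ, p ≤ q → Ψ q - Ψ p ≤ ks * (q - p)) (hs : ks * ls ≤ 1)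
    (ha : a ∈ Icc u0 1) (ha1 : a < 1) (hramp : a + (Ψ 1 - Ψ (H + Λ a)) ≤ 1)
    (hΛ : MonotoneOn Λ (Icc u0 1))
    (hΛl : ∀ u ∈ Icc u0 1, ∀ v ∈ Icc u0 1, u ≤ v → Λ v - Λ u ≤ ls * (v - u))
    (hr : SkBar Ψ Λ u0 r) (hr0 : 0 ≤ r u0) (hr1 : r 1 = 1) (hrH : r u0 ≤ H + Λ u0) (htop : H + Λ 1 ≤ 1)
    (hB : 0 < B0) (ht0 : 0 ≤ t) (ht1 : t ≤ 1)
    (haff : ∀ x y : ℝ, H + Λ u0 ≤ y → y ≤ x → x ≤ r (a + (Ψ 1 - Ψ (H + Λ a))) →
      Ψ (skbarHm B0 t x y) = (1 - t) * Ψ x + t * Ψ y) :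
    ∃ rh : ℝ → ℝ, SkBar Ψ Λ u0 rh ∧ rh u0 = r u0 ∧ rh 1 = 1 ∧
      (∀ u ∈ Icc u0 1, rh u ≤ r u) ∧
      (∀ u ∈ Icc u0 1, rh u ≠ r u → u ≤ a + (Ψ 1 - Ψ (H + Λ a)) ∧ H + Λ u ≤ rh u ∧
        r u - rh u ≤ t * (r u - (H + Λ u)) * ((r u + B0) / (H + Λ u + B0))) ∧
      (∀ u ∈ Icc u0 a, t * (r u - (H + Λ u)) ≤ r u - rh u) := by
  obtain ⟨v, hv, hv0, hv1, hvr, hvne, hva⟩ :=
    skbar_bar_dn_full hΨ hc hks hls hΨL hs ha ha1 hramp hΛ hΛl hr hr1 hrH htop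
  have h0mem : u0 ∈ Icc u0 1 := ⟨le_rfl, ha.1.trans ha.2⟩
  have h1mem : (1 : ℝ) ∈ Icc u0 1 := ⟨h0mem.2, le_rfl⟩
  have hq : H + Λ a ≤ 1 := by have := hΛ ha h1mem ha.2; linarith
  have hΨ1 : 0 ≤ Ψ 1 - Ψ (H + Λ a) := by have := hΨ hq; linarith
  have hubmem : a + (Ψ 1 - Ψ (H + Λ a)) ∈ Icc u0 1 := ⟨by have := ha.1; linarith, hramp⟩
  have hrm := skbar_mono hΛ hr
  have hvm := skbar_mono hΛ hv
  have hrpos : ∀ u ∈ Icc u0 1, 0 ≤ r u := fun u hu => hr0.trans (hrm h0mem hu hu.1)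
  have hvpos : ∀ u ∈ Icc u0 1, 0 ≤ v u := fun u hu => by
    have := hvm h0mem hu hu.1
    rw [hv0] at this
    exact hr0.trans this
  have haff' : ∀ u ∈ Icc u0 1, Ψ (skbarHm B0 t (r u) (v u)) = (1 - t) * Ψ (r u) + t * Ψ (v u) := by
    intro u hu
    by_cases hne : v u = r u
    · rw [hne, skbar_hm_self hB (hrpos u hu)]; ring
    · obtain ⟨h1, h2⟩ := hvne u hu hne
      have h3 := hΛ h0mem hu hu.1
      exact haff (r u) (v u) (by linarith) (hvr u hu) (hrm hu hubmem h1)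
  refine ⟨fun u => skbarHm B0 t (r u) (v u), skbar_hm_mem hB ht0 ht1 hΛ hrpos hvpos hr hv haff', ?_, ?_, ?_, ?_, ?_⟩
  · simp only
    rw [hv0, skbar_hm_self hB hr0]
  · simp only
    rw [hv1, hr1, skbar_hm_self hB zero_le_one]
  · intro u hu
    exact skbar_hm_le_left hB ht0 ht1 (hvpos u hu) (hvr u hu)
  · intro u hu hne
    simp only at hne ⊢
    have hne' : v u ≠ r u := by
      intro h
      rw [h, skbar_hm_self hB (hrpos u hu)] at hne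
      exact hne rfl
    obtain ⟨h1, h2⟩ := hvne u hu hne'
    have hHpos : 0 ≤ H + Λ u := by
      have h3 := hΛ h0mem hu hu.1
      linarith
    refine ⟨h1, le_trans h2 (skbar_hm_ge_right hB ht0 ht1 (hvpos u hu) (hvr u hu)), ?_⟩
    refine le_trans (skbar_hm_disp_le hB ht0 ht1 (hvpos u hu) (hvr u hu)) ?_
    have hr' := hrpos u hu
    have hvr' := hvr u hu
    have e1 : t * (r u - v u) ≤ t * (r u - (H + Λ u)) := mul_le_mul_of_nonneg_left (by linarith) ht0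
    have e2 : (r u + B0) / (v u + B0) ≤ (r u + B0) / (H + Λ u + B0) :=
      div_le_div_of_nonneg_left (by linarith) (by linarith) (by linarith)
    exact mul_le_mul e1 e2 (div_nonneg (by linarith) (by have := hvpos u hu; linarith))
      (mul_nonneg ht0 (by linarith))
  · intro u hu
    simp only
    have hu' : u ∈ Icc u0 1 := ⟨hu.1, hu.2.trans ha.2⟩
    have h1 := skbar_hm_disp_ge (t := t) hB ht0 ht1 (hvpos u hu') (hvr u hu')
    have h2 : v u ≤ H + Λ u := by rw [hva u hu]; exact min_le_right _ _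
    have h3 : t * (r u - (H + Λ u)) ≤ t * (r u - v u) := mul_le_mul_of_nonneg_left (by linarith) ht0
    linarith

/-- **from the forward class back to an inverse distribution** (a competitor in radius form). -/
theorem skbar_inverse {Ψ Λ rh : ℝ → ℝ} {l km : ℝ} (hl : 0 < l) (hkm : 0 < km)
    (hΛl : ∀ u ∈ Icc (0 : ℝ) 1, ∀ v ∈ Icc (0 : ℝ) 1, u ≤ v → l * (v - u) ≤ Λ v - Λ u)
    (hΨk : ∀ p ∈ Icc (0 : ℝ) 1, ∀ q ∈ Icc (0 : ℝ) 1, p ≤ q → km * (q - p) ≤ Ψ q - Ψ p)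
    (h : SkBar Ψ Λ 0 rh) (h0 : rh 0 = 0) (h1 : rh 1 = 1) :
    ∃ al : ℝ → ℝ, al 0 = 0 ∧ al 1 = 1 ∧
      (∀ v ∈ Icc (0 : ℝ) 1, rh v ∈ Icc (0 : ℝ) 1 ∧ al (rh v) = v) ∧
      (∀ t ∈ Icc (0 : ℝ) 1, al t ∈ Icc (0 : ℝ) 1 ∧ rh (al t) = t) ∧
      (∀ r1 r2 : ℝ, 0 ≤ r1 → r1 ≤ r2 → r2 ≤ 1 →
        Ψ r2 - Ψ r1 ≤ al r2 - al r1 ∧ Λ (al r2) - Λ (al r1) ≤ r2 - r1) := by
  have m0 : (0 : ℝ) ∈ Icc (0 : ℝ) 1 := ⟨le_rfl, zero_le_one⟩
  have m1 : (1 : ℝ) ∈ Icc (0 : ℝ) 1 := ⟨zero_le_one, le_rfl⟩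
  -- increments
  have inc : ∀ u ∈ Icc (0 : ℝ) 1, ∀ v ∈ Icc (0 : ℝ) 1, u ≤ v → l * (v - u) ≤ rh v - rh u := by
    intro u hu v hv huv
    have a1 := h.lo hu hv huv
    have a2 := hΛl u hu v hv huv
    simp only at a1
    linarith
  have mono : MonotoneOn rh (Icc (0 : ℝ) 1) := by
    intro u hu v hv huv
    have := inc u hu v hv huv
    have := mul_nonneg hl.le (sub_nonneg.2 huv)
    linarith
  have smono : StrictMonoOn rh (Icc (0 : ℝ) 1) := by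
    intro u hu v hv huv
    have := inc u hu v hv huv.le
    have := mul_pos hl (sub_pos.2 huv)
    linarith
  have rng : ∀ v ∈ Icc (0 : ℝ) 1, rh v ∈ Icc (0 : ℝ) 1 := by
    intro v hv
    constructor
    · rw [← h0]; exact mono m0 hv hv.1
    · rw [← h1]; exact mono hv m1 hv.2
  have lip : ∀ u ∈ Icc (0 : ℝ) 1, ∀ v ∈ Icc (0 : ℝ) 1, u ≤ v → km * (rh v - rh u) ≤ v - u := by
    intro u hu v hv huv
    have a1 := h.up hu hv huv
    have a2 := hΨk (rh u) (rng u hu) (rh v) (rng v hv) (mono hu hv huv)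
    simp only at a1
    linarith
  have cont : ContinuousOn rh (Icc (0 : ℝ) 1) := by
    have hL : LipschitzOnWith (Real.toNNReal (1 / km)) rh (Icc (0 : ℝ) 1) := by
      apply LipschitzOnWith.of_dist_le_mul
      intro x hx y hy
      rw [Real.coe_toNNReal _ (by positivity), Real.dist_eq, Real.dist_eq]
      rcases le_total x y with hxy | hxy
      · have a1 := lip x hx y hy hxy
        have a2 := mono hx hy hxy
        rw [abs_sub_comm, abs_of_nonneg (by linarith), abs_sub_comm, abs_of_nonneg (by linarith),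
          div_mul_eq_mul_div, one_mul, le_div_iff₀ hkm]
        linarith
      · have a1 := lip y hy x hx hxy
        have a2 := mono hy hx hxy
        rw [abs_of_nonneg (by linarith), abs_of_nonneg (by linarith),
          div_mul_eq_mul_div, one_mul, le_div_iff₀ hkm]
        linarith
    exact hL.continuousOn
  have surj : ∀ t ∈ Icc (0 : ℝ) 1, ∃ v ∈ Icc (0 : ℝ) 1, rh v = t := by
    intro t ht
    have := intermediate_value_Icc zero_le_one cont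
    rw [h0, h1] at this
    obtain ⟨v, hv, hvt⟩ := this ht
    exact ⟨v, hv, hvt⟩
  classical
  let al : ℝ → ℝ := fun t => if ht : t ∈ Icc (0 : ℝ) 1 then Classical.choose (surj t ht) else 0
  have al_spec : ∀ t ∈ Icc (0 : ℝ) 1, al t ∈ Icc (0 : ℝ) 1 ∧ rh (al t) = t := by
    intro t ht
    have := Classical.choose_spec (surj t ht)
    simp only [al, dif_pos ht]
    exact this
  have al_rh : ∀ v ∈ Icc (0 : ℝ) 1, al (rh v) = v := by
    intro v hv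
    obtain ⟨a1, a2⟩ := al_spec (rh v) (rng v hv)
    exact smono.injOn a1 hv a2
  refine ⟨al, ?_, ?_, fun v hv => ⟨rng v hv, al_rh v hv⟩, al_spec, ?_⟩
  · have := al_rh 0 m0; rwa [h0] at this
  · have := al_rh 1 m1; rwa [h1] at this
  · intro r1 r2 hr1 h12 hr2
    have t1 : r1 ∈ Icc (0 : ℝ) 1 := ⟨hr1, h12.trans hr2⟩
    have t2 : r2 ∈ Icc (0 : ℝ) 1 := ⟨hr1.trans h12, hr2⟩
    obtain ⟨a1, b1⟩ := al_spec r1 t1
    obtain ⟨a2, b2⟩ := al_spec r2 t2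
    have hle : al r1 ≤ al r2 := by
      by_contra hcon
      have := smono a2 a1 (not_le.1 hcon)
      rw [b1, b2] at this
      linarith
    have c1 := h.up a1 a2 hle
    have c2 := h.lo a1 a2 hle
    simp only at c1 c2
    rw [b1, b2] at c1 c2
    constructor <;> linarith

end Claimed.Agent.R286
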