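import Claimed.Agent.R286.Fd.Law
import Claimed.Agent.R286.Lib.GhMart

/-!
# Row 286: the two kernels of the planted path coincide

`ghmK` (`Lib/GhMeas`, helper225) and `ghPK` (`Fd/Law`, helper76) are the same Markov kernel: everything proved for one
(filtration, conditional expectations, martingales of `Lib/GhMart`; resampling kernels of `Fd/`) can be used for the other.
-/

set_option autoImplicit false
set_option linter.unusedSectionVars false

namespace Claimed.Agent.R286

open MeasureTheory ProbabilityTheory
open scoped ENNReal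

variable {S ι : Type} [Fintype S] [Fintype ι] [MeasurableSpace S] [MeasurableSingletonClass S]

theorem ghm_eq_PK_apply {B : GhB S} (hB : B.Ok) {ls : List (GhLv S ι)} (hn : GhNn ls)
    (z : S → ℝ) : ghmK B ls z = ghPK B ls z := by
  have h1 := ghm_markov B hB ls (ghm_norm_of_nn hB hn)
  have h2 := gh_l_PK_markov hB hn
  ext s hs
  have hm : Measurable (s.indicator (1 : GhmΩ S ι → ℝ)) := measurable_one.indicator hs
  have hb : ∀ ω, |s.indicator (1 : GhmΩ S ι → ℝ) ω| ≤ 1 := fun ω => by
    by_cases h : ω ∈ s <;> simp [h]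
  have e1 : (ghmK B ls z).real s = ghPath B ls z (fun ξ σ => s.indicator 1 (ξ, σ)) := by
    rw [← integral_indicator_one hs]
    exact ghm_integral_bdd B hB ls (ghm_norm_of_nn hB hn) z _ hm 1 hb
  have e2 : (ghPK B ls z).real s = ghPath B ls z (fun ξ σ => s.indicator 1 (ξ, σ)) := by
    rw [← integral_indicator_one hs]
    exact (gh_l_path_eq hB hn z (fun ξ σ => s.indicator 1 (ξ, σ)) hm
      (Integrable.of_bound hm.aestronglyMeasurable 1 (ae_of_all _ hb))).symm
  have e3 : (ghmK B ls z).real s = (ghPK B ls z).real s := e1.trans e2.symm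
  rw [measureReal_def, measureReal_def] at e3
  exact (ENNReal.toReal_eq_toReal_iff' (measure_ne_top _ _) (measure_ne_top _ _)).mp e3

theorem ghm_eq_PK {B : GhB S} (hB : B.Ok) {ls : List (GhLv S ι)} (hn : GhNn ls) :
    ghmK B ls = ghPK B ls := by
  ext z : 1
  exact ghm_eq_PK_apply hB hn z

end Claimed.Agent.R286
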