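import Mathlib

/-!
# Row 286, kit: LANDAU-KOLMOGOROV ON THE LINE      (helper267; prefix `lk_`)      Mathlib only, no `sorry`

S3 of the reading of LL 03-paths (helper253): "global finite-difference interpolation between orders zero and `k`".
* `lk_taylor` : `|g (x + s) - Σ_{l ≤ n} s^l / l! g^(l) x| ≤ M s^(n+1) / n!`   (`s ≥ 0`, `|g^(n+1)| ≤ M` everywhere; `iteratedDeriv`, no `Within`).
* `lk_add`    : `∃ C(k)`, `|g^(j) x| ≤ C (M0 / h^j + Mk h^(k-j))` for ALL `h > 0`, `j < k`      (no hypothesis on the intermediate derivatives; Vandermonde).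
* `lk_mul`    : `∃ C(k) ≥ 1`, `|g^(j) x| ≤ C M0^(1 - j/k) Mk^(j/k)`, `j ≤ k`, `Mk > 0`.
-/

open Set Finset
open scoped Nat

namespace Claimed.Agent.R286

/-- Taylor bound, global form (step `s ≥ 0`). -/
theorem lk_taylor {g : ℝ → ℝ} {n : ℕ} (hg : ContDiff ℝ (n + 1 : ℕ) g) {M : ℝ}
    (hM : ∀ y, |iteratedDeriv (n + 1) g y| ≤ M) (x s : ℝ) (hs : 0 ≤ s) :
    |g (x + s) - ∑ l ∈ Finset.range (n + 1), ((l ! : ℝ)⁻¹ * s ^ l) * iteratedDeriv l g x|
      ≤ M * s ^ (n + 1) / n ! := by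
  rcases hs.eq_or_lt with rfl | hs
  · have : ∑ l ∈ Finset.range (n + 1), ((l ! : ℝ)⁻¹ * (0 : ℝ) ^ l) * iteratedDeriv l g x = g x := by
      rw [Finset.sum_range_succ']
      simp
    rw [this]
    simp
  have hab : x ≤ x + s := by linarith
  have hlt : x < x + s := by linarith
  have hu : UniqueDiffOn ℝ (Icc x (x + s)) := uniqueDiffOn_Icc hlt
  have key := taylor_mean_remainder_bound (f := g) (n := n) (C := M) hab
    (by exact_mod_cast hg.contDiffOn) (right_mem_Icc.2 hab) (fun y hy => by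
      rw [iteratedDerivWithin_eq_iteratedDeriv hu (by exact_mod_cast hg.contDiffAt) hy]
      exact hM y)
  rw [taylor_within_apply] at key
  have e : ∀ l ∈ Finset.range (n + 1), ((l ! : ℝ)⁻¹ * (x + s - x) ^ l) • iteratedDerivWithin l g (Icc x (x + s)) x
      = ((l ! : ℝ)⁻¹ * s ^ l) * iteratedDeriv l g x := by
    intro l hl
    have hl' : l ≤ n + 1 := by
      have := Finset.mem_range.1 hl
      omega
    rw [iteratedDerivWithin_eq_iteratedDeriv hu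
      ((hg.of_le (by exact_mod_cast hl')).contDiffAt) (left_mem_Icc.2 hab)]
    simp
  rw [Finset.sum_congr rfl e] at key
  simpa using key

/-- **Landau-Kolmogorov, additive form**: `|g^(j)| ≤ C (M0 h^(-j) + Mk h^(k-j))` for every step `h > 0`. -/
theorem lk_add (k : ℕ) (hk : 1 ≤ k) : ∃ C : ℝ, 0 < C ∧ ∀ (g : ℝ → ℝ) (M0 Mk : ℝ), ContDiff ℝ k g →
    (∀ x, |g x| ≤ M0) → (∀ x, |iteratedDeriv k g x| ≤ Mk) → ∀ j : ℕ, j < k → ∀ h : ℝ, 0 < h →
    ∀ x, |iteratedDeriv j g x| ≤ C * (M0 / h ^ j + Mk * h ^ (k - j)) := by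
  obtain ⟨n, rfl⟩ : ∃ n, k = n + 1 := ⟨k - 1, by omega⟩
  set a : Fin (n + 1) → ℝ := fun i => (i : ℝ) + 1 with ha
  have hinj : Function.Injective a := by
    intro i i' h
    have : ((i : ℕ) : ℝ) = ((i' : ℕ) : ℝ) := by simpa [ha] using h
    exact Fin.ext (by exact_mod_cast this)
  set W := Matrix.vandermonde a with hW
  have hdet : W.det ≠ 0 := Matrix.det_vandermonde_ne_zero_iff.2 hinj
  set A := W⁻¹ with hA
  have hAW : A * W = 1 := Matrix.nonsing_inv_mul W (isUnit_iff_ne_zero.2 hdet)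
  set S : ℝ := ∑ j : Fin (n + 1), ∑ i : Fin (n + 1), |A j i| with hS
  have hS0 : 0 ≤ S := Finset.sum_nonneg fun j _ => Finset.sum_nonneg fun i _ => abs_nonneg _
  refine ⟨((n + 1)! : ℝ) * S * ((n : ℝ) + 1) ^ (n + 1) + 1, by positivity, ?_⟩
  intro g M0 Mk hg h0 hk' j hj h hh x
  have hM0 : 0 ≤ M0 := (abs_nonneg _).trans (h0 0)
  have hMk : 0 ≤ Mk := (abs_nonneg _).trans (hk' 0)
  set T : Fin (n + 1) → ℝ := fun l => (((l : ℕ)! : ℝ)⁻¹ * h ^ (l : ℕ)) * iteratedDeriv l g x with hT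
  set R : Fin (n + 1) → ℝ := fun i => g (x + a i * h) - ∑ l : Fin (n + 1), a i ^ (l : ℕ) * T l with hR
  have ha0 : ∀ i, 0 ≤ a i := fun i => by simp only [ha]; positivity
  have ha1 : ∀ i, a i ≤ (n : ℝ) + 1 := fun i => by
    simp only [ha]
    have : ((i : ℕ) : ℝ) ≤ n := by exact_mod_cast Nat.lt_succ_iff.1 i.2
    linarith
  have hRb : ∀ i, |R i| ≤ Mk * (((n : ℝ) + 1) ^ (n + 1) * h ^ (n + 1)) := by
    intro i
    have key := lk_taylor (n := n) hg hk' x (a i * h) (mul_nonneg (ha0 i) hh.le)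
    rw [Finset.sum_range] at key
    have e : ∑ l : Fin (n + 1), (((l : ℕ)! : ℝ)⁻¹ * (a i * h) ^ (l : ℕ)) * iteratedDeriv l g x
        = ∑ l : Fin (n + 1), a i ^ (l : ℕ) * T l := by
      refine Finset.sum_congr rfl fun l _ => ?_
      simp only [hT]
      rw [mul_pow]
      ring
    rw [e] at key
    refine key.trans ?_
    have h1 : (a i * h) ^ (n + 1) ≤ ((n : ℝ) + 1) ^ (n + 1) * h ^ (n + 1) := by
      rw [mul_pow]
      exact mul_le_mul_of_nonneg_right (pow_le_pow_left₀ (ha0 i) (ha1 i) _) (by positivity)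
    have h2 : (1 : ℝ) ≤ (n ! : ℝ) := by exact_mod_cast Nat.one_le_iff_ne_zero.2 (Nat.factorial_ne_zero n)
    rw [div_le_iff₀ (by positivity)]
    calc Mk * (a i * h) ^ (n + 1) ≤ Mk * (((n : ℝ) + 1) ^ (n + 1) * h ^ (n + 1)) := mul_le_mul_of_nonneg_left h1 hMk
      _ ≤ Mk * (((n : ℝ) + 1) ^ (n + 1) * h ^ (n + 1)) * (n ! : ℝ) := le_mul_of_one_le_right (by positivity) h2
  set jj : Fin (n + 1) := ⟨j, hj⟩ with hjj
  have hsolve : T jj = ∑ i : Fin (n + 1), A jj i * (g (x + a i * h) - R i) := by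
    have e1 : ∀ i, g (x + a i * h) - R i = ∑ l : Fin (n + 1), a i ^ (l : ℕ) * T l := fun i => by
      simp only [hR]; ring
    simp_rw [e1, Finset.mul_sum]
    rw [Finset.sum_comm]
    have e2 : ∀ l : Fin (n + 1), ∑ i : Fin (n + 1), A jj i * (a i ^ (l : ℕ) * T l) = (A * W) jj l * T l := by
      intro l
      rw [Matrix.mul_apply, Finset.sum_mul]
      refine Finset.sum_congr rfl fun i _ => ?_
      simp only [hW, Matrix.vandermonde_apply]
      ring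
    simp_rw [e2, hAW, Matrix.one_apply]
    simp
  have hTb : |T jj| ≤ S * (M0 + Mk * (((n : ℝ) + 1) ^ (n + 1) * h ^ (n + 1))) := by
    rw [hsolve]
    calc |∑ i : Fin (n + 1), A jj i * (g (x + a i * h) - R i)|
        ≤ ∑ i : Fin (n + 1), |A jj i| * (M0 + Mk * (((n : ℝ) + 1) ^ (n + 1) * h ^ (n + 1))) := by
          refine (Finset.abs_sum_le_sum_abs _ _).trans (Finset.sum_le_sum fun i _ => ?_)
          rw [abs_mul]
          refine mul_le_mul_of_nonneg_left ?_ (abs_nonneg _)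
          exact (abs_sub _ _).trans (add_le_add (h0 _) (hRb i))
      _ = (∑ i : Fin (n + 1), |A jj i|) * (M0 + Mk * (((n : ℝ) + 1) ^ (n + 1) * h ^ (n + 1))) := by
          rw [Finset.sum_mul]
      _ ≤ S * (M0 + Mk * (((n : ℝ) + 1) ^ (n + 1) * h ^ (n + 1))) := by
          refine mul_le_mul_of_nonneg_right ?_ (by positivity)
          exact Finset.single_le_sum (f := fun j : Fin (n + 1) => ∑ i : Fin (n + 1), |A j i|)
            (fun j _ => Finset.sum_nonneg fun i _ => abs_nonneg _) (Finset.mem_univ jj)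
  have hder : iteratedDeriv j g x = (j ! : ℝ) / h ^ j * T jj := by
    simp only [hT, hjj]
    have : (j ! : ℝ) ≠ 0 := by exact_mod_cast Nat.factorial_ne_zero j
    field_simp
  have hjf : (j ! : ℝ) ≤ ((n + 1)! : ℝ) := by exact_mod_cast Nat.factorial_le hj.le
  have hpow : h ^ (n + 1) / h ^ j = h ^ (n + 1 - j) := by
    rw [div_eq_iff (by positivity), ← pow_add]
    congr 1
    omega
  have hn1 : (1 : ℝ) ≤ ((n : ℝ) + 1) ^ (n + 1) := one_le_pow₀ (by linarith [Nat.cast_nonneg (α := ℝ) n])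
  rw [hder, abs_mul, abs_of_nonneg (by positivity)]
  calc (j ! : ℝ) / h ^ j * |T jj|
      ≤ ((n + 1)! : ℝ) / h ^ j * (S * (M0 + Mk * (((n : ℝ) + 1) ^ (n + 1) * h ^ (n + 1)))) := by
        refine mul_le_mul (div_le_div_of_nonneg_right hjf (by positivity)) hTb (abs_nonneg _) (by positivity)
    _ = ((n + 1)! : ℝ) * S * (M0 / h ^ j + ((n : ℝ) + 1) ^ (n + 1) * (Mk * (h ^ (n + 1) / h ^ j))) := by
        field_simp
    _ ≤ ((n + 1)! : ℝ) * S * (((n : ℝ) + 1) ^ (n + 1) * (M0 / h ^ j) + ((n : ℝ) + 1) ^ (n + 1) * (Mk * (h ^ (n + 1) / h ^ j))) := by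
        refine mul_le_mul_of_nonneg_left ?_ (by positivity)
        have : 0 ≤ M0 / h ^ j := by positivity
        nlinarith
    _ = ((n + 1)! : ℝ) * S * ((n : ℝ) + 1) ^ (n + 1) * (M0 / h ^ j + Mk * h ^ (n + 1 - j)) := by
        rw [hpow]; ring
    _ ≤ (((n + 1)! : ℝ) * S * ((n : ℝ) + 1) ^ (n + 1) + 1) * (M0 / h ^ j + Mk * h ^ (n + 1 - j)) := by
        refine mul_le_mul_of_nonneg_right (by linarith) (by positivity)

/-- **Landau-Kolmogorov, multiplicative form**: `‖g^(j)‖ ≤ C ‖g‖^(1-j/k) ‖g^(k)‖^(j/k)` on the line (`C = C(k)`). -/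
theorem lk_mul (k : ℕ) (hk : 1 ≤ k) : ∃ C : ℝ, 1 ≤ C ∧ ∀ (g : ℝ → ℝ) (M0 Mk : ℝ), 0 < Mk → ContDiff ℝ k g →
    (∀ x, |g x| ≤ M0) → (∀ x, |iteratedDeriv k g x| ≤ Mk) → ∀ j : ℕ, j ≤ k →
    ∀ x, |iteratedDeriv j g x| ≤ C * M0 ^ (1 - (j : ℝ) / k) * Mk ^ ((j : ℝ) / k) := by
  obtain ⟨C, hC, H⟩ := lk_add k hk
  refine ⟨2 * C + 1, by linarith, ?_⟩
  intro g M0 Mk hMk hg h0 hk' j hj x
  have hM0 : 0 ≤ M0 := (abs_nonneg _).trans (h0 0)
  have hk0 : (0 : ℝ) < k := by exact_mod_cast hk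
  rcases hM0.eq_or_lt with rfl | hM0
  · have hg0 : g = fun _ => (0 : ℝ) := funext fun y => abs_nonpos_iff.1 (h0 y)
    have : iteratedDeriv j g x = 0 := by
      rw [hg0]
      rcases Nat.eq_zero_or_pos j with rfl | hj0
      · simp
      · simp
    rw [this, abs_zero]
    positivity
  rcases hj.eq_or_lt with rfl | hj
  · have e1 : (1 : ℝ) - (j : ℝ) / j = 0 := by
      rw [div_self hk0.ne']; ring
    have e2 : (j : ℝ) / j = 1 := div_self hk0.ne'
    rw [e1, e2, Real.rpow_zero, Real.rpow_one, mul_one]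
    exact (hk' x).trans (le_mul_of_one_le_left hMk.le (by linarith))
  set h : ℝ := (M0 / Mk) ^ ((1 : ℝ) / k) with hh
  have hq : 0 < M0 / Mk := div_pos hM0 hMk
  have hh0 : 0 < h := Real.rpow_pos_of_pos hq _
  have key := H g M0 Mk hg h0 hk' j hj h hh0 x
  have p1 : h ^ j = (M0 / Mk) ^ ((j : ℝ) / k) := by
    rw [hh, ← Real.rpow_natCast, ← Real.rpow_mul hq.le]
    congr 1
    ring
  have p2 : h ^ (k - j) = (M0 / Mk) ^ (1 - (j : ℝ) / k) := by
    rw [hh, ← Real.rpow_natCast, ← Real.rpow_mul hq.le]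
    congr 1
    rw [Nat.cast_sub hj.le]
    field_simp
  have t1 : M0 / h ^ j = M0 ^ (1 - (j : ℝ) / k) * Mk ^ ((j : ℝ) / k) := by
    rw [p1, Real.div_rpow hM0.le hMk.le, Real.rpow_sub hM0, Real.rpow_one]
    have := Real.rpow_pos_of_pos hM0 ((j : ℝ) / k)
    have := Real.rpow_pos_of_pos hMk ((j : ℝ) / k)
    field_simp
  have t2 : Mk * h ^ (k - j) = M0 ^ (1 - (j : ℝ) / k) * Mk ^ ((j : ℝ) / k) := by
    rw [p2, Real.div_rpow hM0.le hMk.le, Real.rpow_sub hMk, Real.rpow_one]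
    have := Real.rpow_pos_of_pos hMk ((j : ℝ) / k)
    field_simp
  rw [t1, t2] at key
  have hpos : 0 ≤ M0 ^ (1 - (j : ℝ) / k) * Mk ^ ((j : ℝ) / k) := by positivity
  calc |iteratedDeriv j g x| ≤ C * (M0 ^ (1 - (j : ℝ) / k) * Mk ^ ((j : ℝ) / k) + M0 ^ (1 - (j : ℝ) / k) * Mk ^ ((j : ℝ) / k)) := key
    _ = 2 * C * (M0 ^ (1 - (j : ℝ) / k) * Mk ^ ((j : ℝ) / k)) := by ring
    _ ≤ (2 * C + 1) * (M0 ^ (1 - (j : ℝ) / k) * Mk ^ ((j : ℝ) / k)) := mul_le_mul_of_nonneg_right (by linarith) hpos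
    _ = (2 * C + 1) * M0 ^ (1 - (j : ℝ) / k) * Mk ^ ((j : ℝ) / k) := by ring

end Claimed.Agent.R286
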