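import Mathlib
import Claimed.Agent.Lib.PLProp

/-!
# Row 286, generic box LC1 = PE Lemma 7.7 (`fl:one-dimensional`): one-dimensional log-concave laws      (helper110; prefix `lc1_`)      no sorry

Used by PE Theorem 1.1 (fluctuations.tex l.620-660) and by LL Lemma `red:lem-augmentation` (04-reduction.tex l.150-190).

HYPOTHESIS.   `LcTail μ`: both survival functions `u ↦ μ [u, ∞)`, `u ↦ μ (-∞, u]` are log-concave (`ℝ≥0∞`, `rpow` form).   This is all the proof uses.
* `lc1_of_density`  a measure `volume.withDensity f` with `f` measurable and log-concave (the output format of `PL.PLProp.marginal`) is `LcTail`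
* `LcTail.neg`      reflection
* `LcTail.of_tendsto`   `LcTail` passes to weak limits of probability measures (no density needed in the limit)

EXITS, for a probability measure `μ` with `LcTail μ`, `∫ x² = σ²`, `σ > 0` (and `∫ x = 0` where marked (0)); `h = lc1h = log 3 / 4`, `M = lc1M = 1152 / h⁴`, `c = lc1c = 1 / (512 M²)`:
* `lc1_tail`      `P(|X| ≥ t σ) ≤ 2 e^{-h t}`, all real `t`            (`lc1_tail_up`, `lc1_tail_dn`: one-sided, `t > 2`, without the factor 2)
* `lc1_exp_abs`   `E e^{a |X|} ≤ 3` for `0 ≤ a σ ≤ h / 2`               (`lc1_lexp`: the same as a lower integral)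
* `lc1_dom`       `|φ| ≤ K e^{h |x| / (2 σ)}` implies `φ` integrable, `E φ ≤ 3 K`
* `lc1_four`      `E X⁴ ≤ M σ⁴`
* `lc1_mgf_le`    (0) `E e^{t X} ≤ 1 + (96 / h²) t² σ²`, `log E e^{t X} ≤ (96 / h²) t² σ²` for `0 ≤ t σ ≤ h / 4`
* `lc1_abs_ge`    `E |X| ≥ σ / (4 M)`
* `lc1_mass`      (0) `P(X ≥ c σ) ≥ c`
* `lc1_lmgf_ge`, `lc1_mgf_ge`   (0) `E e^{t X} ≥ c e^{c t σ}`, `log E e^{t X} ≥ c t σ + log c`, `t ≥ 0`
* `lc1_main`      everything with two universal constants `c`, `C`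
The density bound `sup f ≤ C / σ` (last line of the lemma) is used only for the typical-magnitude clause of PE Theorem 1.1, not for S0533: not done here.
-/

set_option autoImplicit false

open MeasureTheory Set Filter Topology
open scoped ENNReal NNReal

namespace Claimed.Agent.R286

/-- one-dimensional log-concavity of a measure, in the only form used: both survival functions are log-concave -/
structure LcTail (μ : Measure ℝ) : Prop where
  up : ∀ t : ℝ, 0 < t → t < 1 → ∀ u v : ℝ, μ (Ici u) ^ (1 - t) * μ (Ici v) ^ t ≤ μ (Ici ((1 - t) * u + t * v))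
  dn : ∀ t : ℝ, 0 < t → t < 1 → ∀ u v : ℝ, μ (Iic u) ^ (1 - t) * μ (Iic v) ^ t ≤ μ (Iic ((1 - t) * u + t * v))

/-- a measure with a log-concave density has log-concave survival functions (Prékopa) -/
theorem lc1_of_density {f : ℝ → ℝ≥0∞} (hf : Measurable f)
    (hlc : ∀ t : ℝ, 0 < t → t < 1 → ∀ x y : ℝ, f x ^ (1 - t) * f y ^ t ≤ f ((1 - t) * x + t * y)) :
    LcTail (volume.withDensity f) := by
  have key : ∀ (A : ℝ → Set ℝ), (∀ u, MeasurableSet (A u)) →
      (∀ t : ℝ, 0 < t → t < 1 → ∀ u v x y : ℝ, x ∈ A u → y ∈ A v → (1 - t) * x + t * y ∈ A ((1 - t) * u + t * v)) →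
      ∀ t : ℝ, 0 < t → t < 1 → ∀ u v : ℝ, (volume.withDensity f) (A u) ^ (1 - t) * (volume.withDensity f) (A v) ^ t
        ≤ (volume.withDensity f) (A ((1 - t) * u + t * v)) := by
    intro A hA hAc t ht0 ht1 u v
    rw [withDensity_apply _ (hA _), withDensity_apply _ (hA _), withDensity_apply _ (hA _),
      ← lintegral_indicator (hA _), ← lintegral_indicator (hA _), ← lintegral_indicator (hA _)]
    refine Claimed.Agent.PL.plProp_real t ht0 ht1 _ _ _ (hf.indicator (hA _)) (hf.indicator (hA _)) (hf.indicator (hA _)) ?_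
    intro x y
    by_cases hx : x ∈ A u
    · by_cases hy : y ∈ A v
      · have hz := hAc t ht0 ht1 u v x y hx hy
        simp only [smul_eq_mul]
        rw [indicator_of_mem hx, indicator_of_mem hy, indicator_of_mem hz]
        exact hlc t ht0 ht1 x y
      · rw [indicator_of_notMem hy, ENNReal.zero_rpow_of_pos ht0]; simp
    · rw [indicator_of_notMem hx, ENNReal.zero_rpow_of_pos (by linarith)]; simp
  refine ⟨key Ici (fun _ => measurableSet_Ici) ?_, key Iic (fun _ => measurableSet_Iic) ?_⟩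
  · intro t ht0 ht1 u v x y hx hy
    simp only [mem_Ici] at *
    have h1 : (1 - t) * u ≤ (1 - t) * x := mul_le_mul_of_nonneg_left hx (by linarith)
    have h2 : t * v ≤ t * y := mul_le_mul_of_nonneg_left hy ht0.le
    linarith
  · intro t ht0 ht1 u v x y hx hy
    simp only [mem_Iic] at *
    have h1 : (1 - t) * x ≤ (1 - t) * u := mul_le_mul_of_nonneg_left hx (by linarith)
    have h2 : t * y ≤ t * v := mul_le_mul_of_nonneg_left hy ht0.le
    linarith

/-- reflection -/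
theorem LcTail.neg {μ : Measure ℝ} (h : LcTail μ) : LcTail (μ.map (fun x => -x)) := by
  have e1 : ∀ u : ℝ, (μ.map (fun x => -x)) (Ici u) = μ (Iic (-u)) := by
    intro u
    rw [Measure.map_apply measurable_neg measurableSet_Ici]
    congr 1; ext x; simp
  have e2 : ∀ u : ℝ, (μ.map (fun x => -x)) (Iic u) = μ (Ici (-u)) := by
    intro u
    rw [Measure.map_apply measurable_neg measurableSet_Iic]
    congr 1; ext x; simp
  constructor
  · intro t ht0 ht1 u v
    rw [e1, e1, e1]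
    have := h.dn t ht0 ht1 (-u) (-v)
    convert this using 3; ring
  · intro t ht0 ht1 u v
    rw [e2, e2, e2]
    have := h.up t ht0 ht1 (-u) (-v)
    convert this using 3; ring

/-- log-concavity of the upper survival function passes to weak limits -/
theorem lc1_lim_up {ι : Type*} {l : Filter ι} [l.NeBot] {μs : ι → ProbabilityMeasure ℝ} {μ : ProbabilityMeasure ℝ}
    (hlim : Tendsto μs l (𝓝 μ))
    (h : ∀ i, ∀ t : ℝ, 0 < t → t < 1 → ∀ u v : ℝ,
      (μs i : Measure ℝ) (Ici u) ^ (1 - t) * (μs i : Measure ℝ) (Ici v) ^ t ≤ (μs i : Measure ℝ) (Ici ((1 - t) * u + t * v))) :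
    ∀ t : ℝ, 0 < t → t < 1 → ∀ u v : ℝ,
      (μ : Measure ℝ) (Ici u) ^ (1 - t) * (μ : Measure ℝ) (Ici v) ^ t ≤ (μ : Measure ℝ) (Ici ((1 - t) * u + t * v)) := by
  intro t ht0 ht1 u v
  have h1t : 0 < 1 - t := by linarith
  set a := (μ : Measure ℝ) (Ici u) with ha
  set b := (μ : Measure ℝ) (Ici v) with hb
  have hlow : ∀ (z ε : ℝ), 0 < ε → (μ : Measure ℝ) (Ici z) ≤ l.liminf fun i => (μs i : Measure ℝ) (Ici (z - ε)) := by
    intro z ε hε
    calc (μ : Measure ℝ) (Ici z) ≤ (μ : Measure ℝ) (Ioi (z - ε)) :=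
          measure_mono fun x hx => lt_of_lt_of_le (by linarith) (show z ≤ x from hx)
      _ ≤ l.liminf fun i => (μs i : Measure ℝ) (Ioi (z - ε)) :=
          ProbabilityMeasure.le_liminf_measure_open_of_tendsto hlim isOpen_Ioi
      _ ≤ l.liminf fun i => (μs i : Measure ℝ) (Ici (z - ε)) :=
          liminf_le_liminf (Eventually.of_forall fun i => measure_mono Ioi_subset_Ici_self)
  have step : ∀ ε : ℝ, 0 < ε → a ^ (1 - t) * b ^ t ≤ (μ : Measure ℝ) (Ici ((1 - t) * u + t * v - ε)) := by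
    intro ε hε
    apply ENNReal.le_of_forall_lt_one_mul_le
    intro r hr
    by_cases ha0 : a = 0
    · rw [ha0, ENNReal.zero_rpow_of_pos h1t]; simp
    by_cases hb0 : b = 0
    · rw [hb0, ENNReal.zero_rpow_of_pos ht0]; simp
    have haT : a ≠ ∞ := measure_ne_top _ _
    have hbT : b ≠ ∞ := measure_ne_top _ _
    have hra : r * a < a := by
      calc r * a < 1 * a := ENNReal.mul_lt_mul_left ha0 haT hr
        _ = a := one_mul a
    have hrb : r * b < b := by
      calc r * b < 1 * b := ENNReal.mul_lt_mul_left hb0 hbT hr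
        _ = b := one_mul b
    have e1 := eventually_lt_of_lt_liminf (lt_of_lt_of_le hra (hlow u ε hε))
    have e2 := eventually_lt_of_lt_liminf (lt_of_lt_of_le hrb (hlow v ε hε))
    have hev : ∀ᶠ i in l, r * (a ^ (1 - t) * b ^ t) ≤ (μs i : Measure ℝ) (Ici ((1 - t) * u + t * v - ε)) := by
      filter_upwards [e1, e2] with i h1 h2
      have hk := h i t ht0 ht1 (u - ε) (v - ε)
      have hw : (1 - t) * (u - ε) + t * (v - ε) = (1 - t) * u + t * v - ε := by ring
      rw [hw] at hk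
      refine le_trans ?_ hk
      calc r * (a ^ (1 - t) * b ^ t) = (r ^ (1 - t) * r ^ t) * (a ^ (1 - t) * b ^ t) := by
            rw [Claimed.Agent.PL.pl_rpow_mul_rpow_self r ht0 ht1]
        _ = (r * a) ^ (1 - t) * (r * b) ^ t := by
            rw [ENNReal.mul_rpow_of_nonneg _ _ h1t.le, ENNReal.mul_rpow_of_nonneg _ _ ht0.le]; ring
        _ ≤ (μs i : Measure ℝ) (Ici (u - ε)) ^ (1 - t) * (μs i : Measure ℝ) (Ici (v - ε)) ^ t := by
            gcongr
    exact (le_limsup_of_frequently_le' hev.frequently).trans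
      (ProbabilityMeasure.limsup_measure_closed_le_of_tendsto hlim isClosed_Ici)
  set w := (1 - t) * u + t * v with hw
  have hanti : Antitone fun n : ℕ => Ici (w - 1 / ((n : ℝ) + 1)) := by
    intro n m hnm
    apply Ici_subset_Ici.2
    have : 1 / ((m : ℝ) + 1) ≤ 1 / ((n : ℝ) + 1) :=
      one_div_le_one_div_of_le (by positivity) (by exact_mod_cast Nat.succ_le_succ hnm)
    linarith
  have hInter : ⋂ n : ℕ, Ici (w - 1 / ((n : ℝ) + 1)) = Ici w := by
    ext x
    simp only [mem_iInter, mem_Ici]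
    constructor
    · intro hx
      have hl : Tendsto (fun n : ℕ => w - 1 / ((n : ℝ) + 1)) atTop (𝓝 (w - 0)) :=
        tendsto_const_nhds.sub tendsto_one_div_add_atTop_nhds_zero_nat
      rw [sub_zero] at hl
      exact le_of_tendsto' hl hx
    · intro hx n
      have : 0 < 1 / ((n : ℝ) + 1) := by positivity
      linarith
  have hT := tendsto_measure_iInter_atTop (μ := (μ : Measure ℝ)) (s := fun n : ℕ => Ici (w - 1 / ((n : ℝ) + 1)))
    (fun _ => measurableSet_Ici.nullMeasurableSet) hanti ⟨0, measure_ne_top _ _⟩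
  rw [hInter] at hT
  exact ge_of_tendsto' hT fun n => step _ (by positivity)

/-- **`LcTail` passes to weak limits** of probability measures -/
theorem LcTail.of_tendsto {ι : Type*} {l : Filter ι} [l.NeBot] {μs : ι → ProbabilityMeasure ℝ} {μ : ProbabilityMeasure ℝ}
    (hlim : Tendsto μs l (𝓝 μ)) (h : ∀ i, LcTail (μs i : Measure ℝ)) : LcTail (μ : Measure ℝ) := by
  refine ⟨lc1_lim_up hlim fun i => (h i).up, ?_⟩
  have hlim' := ProbabilityMeasure.tendsto_map_of_tendsto_of_continuous μs μ hlim (f := fun x : ℝ => -x) continuous_neg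
  have hup := lc1_lim_up hlim' (fun i => by simpa using (h i).neg.up)
  intro t ht0 ht1 u v
  have e1 : ∀ z : ℝ, ((μ.map (f := fun x : ℝ => -x) continuous_neg.measurable.aemeasurable : ProbabilityMeasure ℝ) : Measure ℝ) (Ici z)
      = (μ : Measure ℝ) (Iic (-z)) := by
    intro z
    rw [ProbabilityMeasure.toMeasure_map, Measure.map_apply measurable_neg measurableSet_Ici]
    congr 1; ext x; simp
  have := hup t ht0 ht1 (-u) (-v)
  rw [e1, e1, e1, neg_neg, neg_neg] at this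
  have hw : -((1 - t) * -u + t * -v) = (1 - t) * u + t * v := by ring
  rwa [hw] at this

/-- real form of the log-concavity of the upper survival function -/
theorem LcTail.up_real {μ : Measure ℝ} [IsFiniteMeasure μ] (h : LcTail μ) {t : ℝ} (ht0 : 0 < t) (ht1 : t < 1) (u v : ℝ) :
    μ.real (Ici u) ^ (1 - t) * μ.real (Ici v) ^ t ≤ μ.real (Ici ((1 - t) * u + t * v)) := by
  have := ENNReal.toReal_mono (measure_ne_top μ _) (h.up t ht0 ht1 u v)
  rwa [ENNReal.toReal_mul, ← ENNReal.toReal_rpow, ← ENNReal.toReal_rpow] at this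

/-- the decay rate -/
noncomputable def lc1h : ℝ := Real.log 3 / 4

theorem lc1h_pos : 0 < lc1h := by
  unfold lc1h
  have := Real.log_pos (by norm_num : (1 : ℝ) < 3)
  positivity

/-- Chebyshev at `2 σ` -/
theorem lc1_cheb {μ : Measure ℝ} [IsProbabilityMeasure μ] {σ : ℝ} (hσ : 0 < σ)
    (hi : Integrable (fun x : ℝ => x ^ 2) μ) (h2 : ∫ x, x ^ 2 ∂μ = σ ^ 2) :
    μ.real {x : ℝ | 4 * σ ^ 2 ≤ x ^ 2} ≤ 1 / 4 := by
  have := mul_meas_ge_le_integral_of_nonneg (μ := μ) (f := fun x : ℝ => x ^ 2) (Eventually.of_forall fun x => sq_nonneg x) hi (4 * σ ^ 2)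
  rw [h2] at this
  have hs : 0 < σ ^ 2 := by positivity
  nlinarith

/-- **upper tail**: `P(X ≥ t σ) ≤ e^{-h t}` for `t > 2` -/
theorem lc1_tail_up {μ : Measure ℝ} [IsProbabilityMeasure μ] (h : LcTail μ) {σ : ℝ} (hσ : 0 < σ)
    (hi : Integrable (fun x : ℝ => x ^ 2) μ) (h2 : ∫ x, x ^ 2 ∂μ = σ ^ 2) {t : ℝ} (ht : 2 < t) :
    μ.real (Ici (t * σ)) ≤ Real.exp (-(lc1h * t)) := by
  have hc := lc1_cheb hσ hi h2
  have hs2 : μ.real (Ici (2 * σ)) ≤ 1 / 4 := by
    refine le_trans (measureReal_mono ?_ (measure_ne_top _ _)) hc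
    intro x hx
    simp only [mem_Ici, mem_ofPred_eq] at *
    nlinarith
  have hsm : 3 / 4 ≤ μ.real (Ici (-(2 * σ))) := by
    have h1 : μ.real (Iio (-(2 * σ))) ≤ 1 / 4 := by
      refine le_trans (measureReal_mono ?_ (measure_ne_top _ _)) hc
      intro x hx
      simp only [mem_Iio, mem_ofPred_eq] at *
      nlinarith
    have h3 : μ.real (Ici (-(2 * σ))) = 1 - μ.real (Iio (-(2 * σ))) := by
      rw [← compl_Iio, probReal_compl_eq_one_sub measurableSet_Iio]
    linarith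
  set l : ℝ := 4 / (t + 2) with hl
  have hl0 : 0 < l := by positivity
  have hl1 : l < 1 := by rw [hl, div_lt_one (by linarith)]; linarith
  have hcomb : (1 - l) * (-(2 * σ)) + l * (t * σ) = 2 * σ := by
    rw [hl]; field_simp; ring
  have hk := h.up_real hl0 hl1 (-(2 * σ)) (t * σ)
  rw [hcomb] at hk
  set S : ℝ := μ.real (Ici (t * σ)) with hS
  have hS0 : 0 ≤ S := measureReal_nonneg
  have h34 : (3 / 4 : ℝ) ≤ μ.real (Ici (-(2 * σ))) ^ (1 - l) := by
    have hle1 : μ.real (Ici (-(2 * σ))) ≤ 1 := measureReal_le_one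
    calc (3 / 4 : ℝ) ≤ μ.real (Ici (-(2 * σ))) := hsm
      _ = μ.real (Ici (-(2 * σ))) ^ (1 : ℝ) := (Real.rpow_one _).symm
      _ ≤ μ.real (Ici (-(2 * σ))) ^ (1 - l) :=
          Real.rpow_le_rpow_of_exponent_ge (by linarith) hle1 (by linarith)
  have hSl : S ^ l ≤ 1 / 3 := by
    have hSl0 : 0 ≤ S ^ l := Real.rpow_nonneg hS0 _
    have : 3 / 4 * S ^ l ≤ 1 / 4 := le_trans (le_trans (mul_le_mul_of_nonneg_right h34 hSl0) hk) hs2
    linarith
  have hfin : S ≤ (1 / 3 : ℝ) ^ (1 / l) := by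
    calc S = (S ^ l) ^ (1 / l) := by
          rw [← Real.rpow_mul hS0, mul_one_div_cancel hl0.ne', Real.rpow_one]
      _ ≤ (1 / 3 : ℝ) ^ (1 / l) := Real.rpow_le_rpow (Real.rpow_nonneg hS0 _) hSl (by positivity)
  refine hfin.trans ?_
  rw [Real.rpow_def_of_pos (by norm_num)]
  apply Real.exp_le_exp.2
  have hlog : Real.log (1 / 3) = - Real.log 3 := by rw [one_div, Real.log_inv]
  have hl3 : 0 < Real.log 3 := Real.log_pos (by norm_num)
  rw [hlog, hl, lc1h]
  have : 1 / (4 / (t + 2)) = (t + 2) / 4 := by field_simp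
  rw [this]
  nlinarith

/-- **lower tail** -/
theorem lc1_tail_dn {μ : Measure ℝ} [IsProbabilityMeasure μ] (h : LcTail μ) {σ : ℝ} (hσ : 0 < σ)
    (hi : Integrable (fun x : ℝ => x ^ 2) μ) (h2 : ∫ x, x ^ 2 ∂μ = σ ^ 2) {t : ℝ} (ht : 2 < t) :
    μ.real (Iic (-(t * σ))) ≤ Real.exp (-(lc1h * t)) := by
  have hp : IsProbabilityMeasure (μ.map (fun x : ℝ => -x)) := Measure.isProbabilityMeasure_map measurable_neg.aemeasurable
  have hi' : Integrable (fun x : ℝ => x ^ 2) (μ.map (fun x : ℝ => -x)) := by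
    rw [integrable_map_measure (by fun_prop) measurable_neg.aemeasurable]
    simpa [Function.comp_def] using hi
  have h2' : ∫ x, x ^ 2 ∂(μ.map (fun x : ℝ => -x)) = σ ^ 2 := by
    rw [integral_map measurable_neg.aemeasurable (by fun_prop)]
    simpa using h2
  have := lc1_tail_up h.neg hσ hi' h2' ht
  rw [measureReal_def, Measure.map_apply measurable_neg measurableSet_Ici] at this
  rw [measureReal_def]
  convert this using 3
  ext x; simp [le_neg]

theorem lc1_two_exp : (1 : ℝ) ≤ 2 * Real.exp (-(lc1h * 2)) := by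
  have h1 : Real.exp (lc1h * 2) ≤ 2 := by
    have : lc1h * 2 ≤ Real.log 2 := by
      unfold lc1h
      have h4 : Real.log 4 = 2 * Real.log 2 := by
        rw [show (4 : ℝ) = 2 ^ 2 by norm_num, Real.log_pow]; norm_num
      have h34 : Real.log 3 ≤ Real.log 4 := Real.log_le_log (by norm_num) (by norm_num)
      linarith
    calc Real.exp (lc1h * 2) ≤ Real.exp (Real.log 2) := Real.exp_le_exp.2 this
      _ = 2 := Real.exp_log (by norm_num)
  rw [Real.exp_neg]
  have hpos := Real.exp_pos (lc1h * 2)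
  rw [← div_eq_mul_inv, le_div_iff₀ hpos]
  linarith

/-- **(a) two-sided tails**: `P(|X| ≥ t σ) ≤ 2 e^{-h t}`, all `t` -/
theorem lc1_tail {μ : Measure ℝ} [IsProbabilityMeasure μ] (h : LcTail μ) {σ : ℝ} (hσ : 0 < σ)
    (hi : Integrable (fun x : ℝ => x ^ 2) μ) (h2 : ∫ x, x ^ 2 ∂μ = σ ^ 2) (t : ℝ) :
    μ.real {x : ℝ | t * σ ≤ |x|} ≤ 2 * Real.exp (-(lc1h * t)) := by
  rcases le_or_gt t 2 with h2t | h2t
  · have h1 : Real.exp (-(lc1h * 2)) ≤ Real.exp (-(lc1h * t)) := by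
      apply Real.exp_le_exp.2
      have := mul_le_mul_of_nonneg_left h2t lc1h_pos.le
      linarith
    have := lc1_two_exp
    have h3 : μ.real {x : ℝ | t * σ ≤ |x|} ≤ 1 := measureReal_le_one
    linarith
  · have hsub : {x : ℝ | t * σ ≤ |x|} ⊆ Ici (t * σ) ∪ Iic (-(t * σ)) := by
      intro x hx
      simp only [mem_ofPred_eq, mem_union, mem_Ici, mem_Iic] at *
      rcases le_abs.1 hx with h' | h'
      · exact Or.inl h'
      · exact Or.inr (by linarith)
    have h1 := lc1_tail_up h hσ hi h2 h2t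
    have h3 := lc1_tail_dn h hσ hi h2 h2t
    have h4 : μ.real {x : ℝ | t * σ ≤ |x|} ≤ μ.real (Ici (t * σ)) + μ.real (Iic (-(t * σ))) :=
      (measureReal_mono hsub (measure_ne_top _ _)).trans (measureReal_union_le _ _)
    linarith

theorem lc1_ftc (a y : ℝ) : ∫ s in (0 : ℝ)..y, a * Real.exp (a * s) = Real.exp (a * y) - 1 := by
  have hd : ∀ s ∈ uIcc (0 : ℝ) y, HasDerivAt (fun s => Real.exp (a * s)) (a * Real.exp (a * s)) s := by
    intro s _
    have := ((hasDerivAt_id s).const_mul a).exp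
    simpa [mul_comm] using this
  rw [intervalIntegral.integral_eq_sub_of_hasDerivAt hd (Continuous.intervalIntegrable (by fun_prop) _ _)]
  simp

/-- **exponential moment** (lintegral form): `E e^{a |X|} ≤ 3` if `a σ ≤ h / 2` -/
theorem lc1_lexp {μ : Measure ℝ} [IsProbabilityMeasure μ] (h : LcTail μ) {σ : ℝ} (hσ : 0 < σ)
    (hi : Integrable (fun x : ℝ => x ^ 2) μ) (h2 : ∫ x, x ^ 2 ∂μ = σ ^ 2) {a : ℝ} (ha : 0 ≤ a) (haσ : a * σ ≤ lc1h / 2) :
    ∫⁻ x, ENNReal.ofReal (Real.exp (a * |x|)) ∂μ ≤ 3 := by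
  have hh := lc1h_pos
  have hlc := lintegral_comp_eq_lintegral_meas_le_mul μ (f := fun x : ℝ => |x|) (g := fun s => a * Real.exp (a * s))
    (Eventually.of_forall fun x => abs_nonneg x) (by fun_prop) (fun t _ => Continuous.intervalIntegrable (by fun_prop) _ _)
    (Eventually.of_forall fun s => by positivity)
  simp only [lc1_ftc] at hlc
  set b : ℝ := a - lc1h / σ with hb
  have hb0 : b < 0 := by
    have : a < lc1h / σ := by
      rw [lt_div_iff₀ hσ]; linarith
    linarith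
  have hbound : ∫⁻ s in Ioi (0 : ℝ), μ {x : ℝ | s ≤ |x|} * ENNReal.ofReal (a * Real.exp (a * s))
      ≤ ∫⁻ s in Ioi (0 : ℝ), ENNReal.ofReal (2 * a * Real.exp (b * s)) := by
    refine setLIntegral_mono' measurableSet_Ioi ?_
    intro s hs
    have hs0 : (0 : ℝ) < s := hs
    have ht := lc1_tail h hσ hi h2 (s / σ)
    rw [div_mul_cancel₀ _ hσ.ne'] at ht
    have h1 : μ {x : ℝ | s ≤ |x|} ≤ ENNReal.ofReal (2 * Real.exp (-(lc1h * (s / σ)))) := by
      rw [← ENNReal.ofReal_toReal (measure_ne_top μ _)]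
      exact ENNReal.ofReal_le_ofReal ht
    calc μ {x : ℝ | s ≤ |x|} * ENNReal.ofReal (a * Real.exp (a * s))
        ≤ ENNReal.ofReal (2 * Real.exp (-(lc1h * (s / σ)))) * ENNReal.ofReal (a * Real.exp (a * s)) := by gcongr
      _ = ENNReal.ofReal (2 * a * Real.exp (b * s)) := by
          rw [← ENNReal.ofReal_mul (by positivity)]
          congr 1
          have : Real.exp (b * s) = Real.exp (-(lc1h * (s / σ))) * Real.exp (a * s) := by
            rw [← Real.exp_add]; congr 1; rw [hb]; field_simp; ring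
          rw [this]; ring
  have hint : ∫⁻ s in Ioi (0 : ℝ), ENNReal.ofReal (2 * a * Real.exp (b * s)) = ENNReal.ofReal (2 * a * (-1 / b)) := by
    rw [← ofReal_integral_eq_lintegral_ofReal ((integrableOn_exp_mul_Ioi hb0 0).const_mul (2 * a))
      (Eventually.of_forall fun s => by positivity)]
    rw [integral_const_mul, integral_exp_mul_Ioi hb0]
    simp
  have hle2 : 2 * a * (-1 / b) ≤ 2 := by
    have hnb : 0 < -b := by linarith
    have : a ≤ -b := by
      have : 2 * a ≤ lc1h / σ := by rw [le_div_iff₀ hσ]; linarith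
      rw [hb]; linarith
    have e : 2 * a * (-1 / b) = 2 * (a / (-b)) := by
      field_simp
    rw [e]
    have := (div_le_one hnb).2 this
    linarith
  have hsplit : ∀ x : ℝ, ENNReal.ofReal (Real.exp (a * |x|)) = ENNReal.ofReal (Real.exp (a * |x|) - 1) + 1 := by
    intro x
    have h1 : (1 : ℝ) ≤ Real.exp (a * |x|) := Real.one_le_exp (by positivity)
    rw [← ENNReal.ofReal_one, ← ENNReal.ofReal_add (by linarith) zero_le_one]
    congr 1; ring
  simp_rw [hsplit]
  rw [lintegral_add_right _ measurable_const, hlc]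
  simp only [lintegral_const, measure_univ, mul_one]
  have h3 : (3 : ℝ≥0∞) = 2 + 1 := by norm_num
  rw [h3]
  gcongr
  refine hbound.trans ?_
  rw [hint]
  calc ENNReal.ofReal (2 * a * (-1 / b)) ≤ ENNReal.ofReal 2 := ENNReal.ofReal_le_ofReal hle2
    _ = 2 := by simp

section

variable {μ : Measure ℝ} [IsProbabilityMeasure μ] {σ : ℝ}

/-- **exponential moment**: `E e^{a |X|} ≤ 3` if `a σ ≤ h / 2` -/
theorem lc1_exp_abs (h : LcTail μ) (hσ : 0 < σ)
    (hi : Integrable (fun x : ℝ => x ^ 2) μ) (h2 : ∫ x, x ^ 2 ∂μ = σ ^ 2) {a : ℝ} (ha : 0 ≤ a) (haσ : a * σ ≤ lc1h / 2) :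
    Integrable (fun x : ℝ => Real.exp (a * |x|)) μ ∧ ∫ x, Real.exp (a * |x|) ∂μ ≤ 3 := by
  have hl := lc1_lexp h hσ hi h2 ha haσ
  have hint : Integrable (fun x : ℝ => Real.exp (a * |x|)) μ := by
    refine ⟨by fun_prop, ?_⟩
    rw [hasFiniteIntegral_iff_ofReal (Eventually.of_forall fun x => (Real.exp_pos _).le)]
    exact lt_of_le_of_lt hl (by norm_num)
  refine ⟨hint, ?_⟩
  rw [integral_eq_lintegral_of_nonneg_ae (Eventually.of_forall fun x => (Real.exp_pos _).le) (by fun_prop)]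
  have := ENNReal.toReal_mono (by norm_num) hl
  simpa using this

/-- domination by the reference exponential `e^{h |x| / (2 σ)}` -/
theorem lc1_dom (h : LcTail μ) (hσ : 0 < σ)
    (hi : Integrable (fun x : ℝ => x ^ 2) μ) (h2 : ∫ x, x ^ 2 ∂μ = σ ^ 2) {φ : ℝ → ℝ} (hm : Measurable φ) {K : ℝ}
    (hφ : ∀ x, |φ x| ≤ K * Real.exp (lc1h / (2 * σ) * |x|)) :
    Integrable φ μ ∧ ∫ x, φ x ∂μ ≤ 3 * K := by
  have hh := lc1h_pos
  have ha : 0 ≤ lc1h / (2 * σ) := by positivity
  have haσ : lc1h / (2 * σ) * σ ≤ lc1h / 2 := by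
    apply le_of_eq; field_simp
  obtain ⟨h1, h3⟩ := lc1_exp_abs h hσ hi h2 ha haσ
  have hK : 0 ≤ K := by
    have := (abs_nonneg _).trans (hφ 0)
    simpa using this
  have hint : Integrable φ μ :=
    (h1.const_mul K).mono' hm.aestronglyMeasurable (Eventually.of_forall fun x => by simpa using hφ x)
  refine ⟨hint, ?_⟩
  calc ∫ x, φ x ∂μ ≤ ∫ x, K * Real.exp (lc1h / (2 * σ) * |x|) ∂μ :=
        integral_mono hint (h1.const_mul K) (fun x => (le_abs_self _).trans (hφ x))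
    _ = K * ∫ x, Real.exp (lc1h / (2 * σ) * |x|) ∂μ := integral_const_mul _ _
    _ ≤ K * 3 := mul_le_mul_of_nonneg_left h3 hK
    _ = 3 * K := by ring

/-- the fourth moment constant -/
noncomputable def lc1M : ℝ := 1152 / lc1h ^ 4

theorem lc1h_lt : lc1h < 1 := by
  unfold lc1h
  have : Real.log 3 ≤ 3 - 1 := Real.log_le_sub_one_of_pos (by norm_num)
  linarith

theorem lc1M_ge : 1 ≤ lc1M := by
  unfold lc1M
  have h0 := lc1h_pos
  have h1 := lc1h_lt
  rw [le_div_iff₀ (by positivity)]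
  have : lc1h ^ 4 ≤ 1 := pow_le_one₀ h0.le h1.le
  linarith

/-- **fourth moment**: `E X⁴ ≤ M σ⁴` -/
theorem lc1_four (h : LcTail μ) (hσ : 0 < σ)
    (hi : Integrable (fun x : ℝ => x ^ 2) μ) (h2 : ∫ x, x ^ 2 ∂μ = σ ^ 2) :
    Integrable (fun x : ℝ => x ^ 4) μ ∧ ∫ x, x ^ 4 ∂μ ≤ lc1M * σ ^ 4 := by
  have hh := lc1h_pos
  have := lc1_dom h hσ hi h2 (φ := fun x : ℝ => x ^ 4) (by fun_prop) (K := 384 / lc1h ^ 4 * σ ^ 4) ?_
  · refine ⟨this.1, this.2.trans (le_of_eq ?_)⟩
    unfold lc1M; ring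
  · intro x
    have hy : 0 ≤ lc1h / (2 * σ) * |x| := by positivity
    have h4 := Real.pow_div_factorial_le_exp _ hy 4
    have hf : ((4 : ℕ).factorial : ℝ) = 24 := by norm_num [Nat.factorial]
    rw [hf, div_le_iff₀ (by norm_num)] at h4
    have e : |x ^ 4| = (2 * σ / lc1h) ^ 4 * (lc1h / (2 * σ) * |x|) ^ 4 := by
      rw [abs_pow]; field_simp
    rw [e]
    calc (2 * σ / lc1h) ^ 4 * (lc1h / (2 * σ) * |x|) ^ 4
        ≤ (2 * σ / lc1h) ^ 4 * (Real.exp (lc1h / (2 * σ) * |x|) * 24) := by gcongr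
      _ = 384 / lc1h ^ 4 * σ ^ 4 * Real.exp (lc1h / (2 * σ) * |x|) := by
          field_simp; ring

theorem lc1_exp_taylor (u : ℝ) : Real.exp u ≤ 1 + u + u ^ 2 * Real.exp |u| := by
  have := Complex.norm_exp_sub_sum_le_norm_mul_exp (u : ℂ) 2
  simp only [Finset.sum_range_succ, Finset.sum_range_zero, pow_zero, Nat.factorial_zero, Nat.cast_one, div_one, pow_one,
    Nat.factorial_one, zero_add, Complex.norm_real, Real.norm_eq_abs, sq_abs] at this
  have e : Complex.exp (u : ℂ) - (1 + (u : ℂ)) = ((Real.exp u - (1 + u) : ℝ) : ℂ) := by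
    push_cast; ring
  rw [e, Complex.norm_real, Real.norm_eq_abs] at this
  have := (le_abs_self _).trans this
  linarith

/-- **(b) small tilts**: `log E e^{t X} ≤ (96 / h²) t² σ²` for `0 ≤ t σ ≤ h / 4` -/
theorem lc1_mgf_le (h : LcTail μ) (hσ : 0 < σ)
    (hi : Integrable (fun x : ℝ => x ^ 2) μ) (h2 : ∫ x, x ^ 2 ∂μ = σ ^ 2) (h1 : ∫ x, x ∂μ = 0) {t : ℝ} (ht : 0 ≤ t) (htσ : t * σ ≤ lc1h / 4) :
    Integrable (fun x : ℝ => Real.exp (t * x)) μ ∧ ∫ x, Real.exp (t * x) ∂μ ≤ 1 + 96 / lc1h ^ 2 * (t ^ 2 * σ ^ 2) ∧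
      Real.log (∫ x, Real.exp (t * x) ∂μ) ≤ 96 / lc1h ^ 2 * (t ^ 2 * σ ^ 2) := by
  have hh := lc1h_pos
  have hta : t ≤ lc1h / (2 * σ) / 2 := by
    rw [div_div, le_div_iff₀ (by positivity)]; linarith
  have ha0 : 0 ≤ lc1h / (2 * σ) := by positivity
  have hE : Integrable (fun x : ℝ => Real.exp (t * x)) μ := by
    refine (lc1_dom h hσ hi h2 (φ := fun x : ℝ => Real.exp (t * x)) (by fun_prop) (K := 1) ?_).1
    intro x
    rw [abs_of_pos (Real.exp_pos _), one_mul]
    apply Real.exp_le_exp.2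
    calc t * x ≤ t * |x| := mul_le_mul_of_nonneg_left (le_abs_self x) ht
      _ ≤ lc1h / (2 * σ) * |x| := mul_le_mul_of_nonneg_right (by linarith) (abs_nonneg x)
  have hR := lc1_dom h hσ hi h2 (φ := fun x : ℝ => (t * x) ^ 2 * Real.exp |t * x|) (by fun_prop)
    (K := 32 / lc1h ^ 2 * (t ^ 2 * σ ^ 2)) ?_
  · have hx : Integrable (fun x : ℝ => x) μ := by
      have : Integrable (fun x : ℝ => 1 + x ^ 2) μ := (integrable_const 1).add hi
      refine this.mono' (by fun_prop) (Eventually.of_forall fun x => ?_)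
      rw [Real.norm_eq_abs]
      nlinarith [sq_nonneg (|x| - 1), sq_abs x]
    have hle : ∫ x, Real.exp (t * x) ∂μ ≤ 1 + 96 / lc1h ^ 2 * (t ^ 2 * σ ^ 2) := by
      calc ∫ x, Real.exp (t * x) ∂μ ≤ ∫ x, (1 + t * x + (t * x) ^ 2 * Real.exp |t * x|) ∂μ :=
            integral_mono hE (((integrable_const 1).add (hx.const_mul t)).add hR.1) (fun x => lc1_exp_taylor (t * x))
        _ = 1 + t * 0 + ∫ x, (t * x) ^ 2 * Real.exp |t * x| ∂μ := by
            have hA : Integrable (fun x : ℝ => 1 + t * x) μ := (integrable_const 1).add (hx.const_mul t)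
            rw [integral_add hA hR.1, integral_add (integrable_const 1) (hx.const_mul t),
              integral_const_mul, h1]
            simp
        _ ≤ 1 + t * 0 + 3 * (32 / lc1h ^ 2 * (t ^ 2 * σ ^ 2)) := by gcongr; exact hR.2
        _ = 1 + 96 / lc1h ^ 2 * (t ^ 2 * σ ^ 2) := by ring
    refine ⟨hE, hle, ?_⟩
    have hpos : 0 < ∫ x, Real.exp (t * x) ∂μ := integral_exp_pos hE
    have := Real.log_le_sub_one_of_pos hpos
    linarith
  · intro x
    have hy : 0 ≤ lc1h / (2 * σ) / 2 * |x| := by positivity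
    have hq := Real.pow_div_factorial_le_exp _ hy 2
    have hf : ((2 : ℕ).factorial : ℝ) = 2 := by norm_num [Nat.factorial]
    rw [hf, div_le_iff₀ (by norm_num)] at hq
    have hexp : Real.exp |t * x| ≤ Real.exp (lc1h / (2 * σ) / 2 * |x|) := by
      apply Real.exp_le_exp.2
      rw [abs_mul, abs_of_nonneg ht]
      exact mul_le_mul_of_nonneg_right hta (abs_nonneg x)
    have e : (t * x) ^ 2 = t ^ 2 * ((4 * σ / lc1h) ^ 2 * (lc1h / (2 * σ) / 2 * |x|) ^ 2) := by
      rw [mul_pow, ← sq_abs x]; field_simp; ring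
    rw [abs_of_nonneg (by positivity), e]
    calc t ^ 2 * ((4 * σ / lc1h) ^ 2 * (lc1h / (2 * σ) / 2 * |x|) ^ 2) * Real.exp |t * x|
        ≤ t ^ 2 * ((4 * σ / lc1h) ^ 2 * (Real.exp (lc1h / (2 * σ) / 2 * |x|) * 2)) * Real.exp (lc1h / (2 * σ) / 2 * |x|) := by gcongr
      _ = 32 / lc1h ^ 2 * (t ^ 2 * σ ^ 2) * (Real.exp (lc1h / (2 * σ) / 2 * |x|) * Real.exp (lc1h / (2 * σ) / 2 * |x|)) := by
          field_simp; ring
      _ = 32 / lc1h ^ 2 * (t ^ 2 * σ ^ 2) * Real.exp (lc1h / (2 * σ) * |x|) := by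
          rw [← Real.exp_add]; congr 2; ring

end

section

variable {μ : Measure ℝ} [IsProbabilityMeasure μ] {σ : ℝ}

theorem lc1_int_id (hi : Integrable (fun x : ℝ => x ^ 2) μ) : Integrable (fun x : ℝ => x) μ := by
  have : Integrable (fun x : ℝ => 1 + x ^ 2) μ := (integrable_const 1).add hi
  refine this.mono' (by fun_prop) (Eventually.of_forall fun x => ?_)
  rw [Real.norm_eq_abs]
  nlinarith [sq_nonneg (|x| - 1), sq_abs x]

/-- first absolute moment from below: `E |X| ≥ σ / (4 M)` -/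
theorem lc1_abs_ge (h : LcTail μ) (hσ : 0 < σ)
    (hi : Integrable (fun x : ℝ => x ^ 2) μ) (h2 : ∫ x, x ^ 2 ∂μ = σ ^ 2) :
    σ / (4 * lc1M) ≤ ∫ x, |x| ∂μ := by
  have hM := lc1M_ge
  obtain ⟨h4i, h4⟩ := lc1_four h hσ hi h2
  have hx := lc1_int_id hi
  set A : ℝ := 2 * lc1M with hA
  have hA0 : 0 < A := by positivity
  have hpt : ∀ x : ℝ, x ^ 2 ≤ A * σ * |x| + x ^ 4 / (A * σ) ^ 2 := by
    intro x
    have hAs : 0 < A * σ := by positivity
    rcases le_or_gt |x| (A * σ) with hc | hc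
    · have : x ^ 2 ≤ A * σ * |x| := by
        rw [← sq_abs x, sq]; exact mul_le_mul_of_nonneg_right hc (abs_nonneg x)
      have h0 : 0 ≤ x ^ 4 / (A * σ) ^ 2 := by positivity
      linarith
    · have : x ^ 2 ≤ x ^ 4 / (A * σ) ^ 2 := by
        rw [le_div_iff₀ (by positivity)]
        have h1 : (A * σ) ^ 2 ≤ x ^ 2 := by rw [← sq_abs x]; exact pow_le_pow_left₀ hAs.le hc.le 2
        have : x ^ 4 = x ^ 2 * x ^ 2 := by ring
        rw [this]; exact mul_le_mul_of_nonneg_left h1 (sq_nonneg x)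
      have h0 : 0 ≤ A * σ * |x| := by positivity
      linarith
  have hint : ∫ x, x ^ 2 ∂μ ≤ ∫ x, (A * σ * |x| + x ^ 4 / (A * σ) ^ 2) ∂μ :=
    integral_mono hi ((hx.abs.const_mul (A * σ)).add (h4i.div_const ((A * σ) ^ 2))) hpt
  rw [h2, integral_add (hx.abs.const_mul (A * σ)) (h4i.div_const ((A * σ) ^ 2)), integral_const_mul, integral_div] at hint
  have h5 : (∫ x, x ^ 4 ∂μ) / (A * σ) ^ 2 ≤ σ ^ 2 / 2 := by
    rw [div_le_iff₀ (by positivity)]
    refine h4.trans ?_
    rw [hA]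
    have : lc1M * σ ^ 4 ≤ lc1M * lc1M * σ ^ 4 * 2 := by
      have h6 : 0 < lc1M * σ ^ 4 := by positivity
      nlinarith
    calc lc1M * σ ^ 4 ≤ lc1M * lc1M * σ ^ 4 * 2 := this
      _ = σ ^ 2 / 2 * (2 * lc1M * σ) ^ 2 := by ring
  have h7 : σ ^ 2 / 2 ≤ A * σ * ∫ x, |x| ∂μ := by linarith
  rw [div_le_iff₀ (by positivity)]
  have h8 : σ * (σ / 2) ≤ σ * (A * ∫ x, |x| ∂μ) := by nlinarith
  have h9 := le_of_mul_le_mul_left h8 hσ
  rw [hA] at h9
  linarith

/-- the mass constant -/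
noncomputable def lc1c : ℝ := 1 / (512 * lc1M ^ 2)

theorem lc1c_pos : 0 < lc1c := by
  unfold lc1c
  have := lc1M_ge
  positivity

/-- **(c) positive mass on the right**: `P(X ≥ c σ) ≥ c` -/
theorem lc1_mass (h : LcTail μ) (hσ : 0 < σ)
    (hi : Integrable (fun x : ℝ => x ^ 2) μ) (h2 : ∫ x, x ^ 2 ∂μ = σ ^ 2) (h1 : ∫ x, x ∂μ = 0) :
    lc1c ≤ μ.real (Ici (lc1c * σ)) := by
  have hM := lc1M_ge
  have hab := lc1_abs_ge h hσ hi h2
  have hx := lc1_int_id hi
  -- `E X₊ = E |X| / 2`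
  have hplus : ∫ x, max x 0 ∂μ = (∫ x, |x| ∂μ) / 2 := by
    have e : ∀ x : ℝ, max x 0 = (x + |x|) / 2 := by
      intro x
      rcases le_total 0 x with h0 | h0
      · rw [max_eq_left h0, abs_of_nonneg h0]; ring
      · rw [max_eq_right h0, abs_of_nonpos h0]; ring
    simp_rw [e]
    rw [integral_div, integral_add hx hx.abs, h1, zero_add]
  obtain ⟨c1, hc1⟩ : ∃ c1 : ℝ, c1 = 1 / (32 * lc1M) := ⟨_, rfl⟩
  obtain ⟨B, hB⟩ : ∃ B : ℝ, B = 32 * lc1M := ⟨_, rfl⟩
  have hB0 : 0 < B := by rw [hB]; positivity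
  have hc10 : 0 < c1 := by rw [hc1]; positivity
  have hpt : ∀ x : ℝ, max x 0 ≤ c1 * σ + (Ici (c1 * σ)).indicator (fun _ => B * σ) x + x ^ 2 / (B * σ) := by
    intro x
    have hBs : 0 < B * σ := by positivity
    have hq : 0 ≤ x ^ 2 / (B * σ) := by positivity
    have hcs : 0 < c1 * σ := by positivity
    by_cases hxc : c1 * σ ≤ x
    · rw [indicator_of_mem (show x ∈ Ici (c1 * σ) from hxc), max_eq_left (hcs.le.trans hxc)]
      rcases le_or_gt x (B * σ) with hb | hb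
      · linarith
      · have : x ≤ x ^ 2 / (B * σ) := by
          rw [le_div_iff₀ hBs, sq]; exact mul_le_mul_of_nonneg_left hb.le (hcs.le.trans hxc)
        linarith
    · rw [indicator_of_notMem (show x ∉ Ici (c1 * σ) from hxc)]
      have : max x 0 ≤ c1 * σ := max_le (not_le.1 hxc).le hcs.le
      linarith
  have hind : Integrable ((Ici (c1 * σ)).indicator (fun _ : ℝ => B * σ)) μ :=
    (integrable_const (B * σ)).indicator measurableSet_Ici
  have hmaxi : Integrable (fun x : ℝ => max x 0) μ := by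
    refine hx.abs.mono' (by fun_prop) (Eventually.of_forall fun x => ?_)
    rw [Real.norm_eq_abs, abs_of_nonneg (le_max_right _ _)]
    exact max_le (le_abs_self x) (abs_nonneg x)
  have hI1 : Integrable (fun x : ℝ => c1 * σ + (Ici (c1 * σ)).indicator (fun _ => B * σ) x) μ := (integrable_const _).add hind
  have hint : ∫ x, max x 0 ∂μ ≤ ∫ x, (c1 * σ + (Ici (c1 * σ)).indicator (fun _ => B * σ) x + x ^ 2 / (B * σ)) ∂μ :=
    integral_mono hmaxi (hI1.add (hi.div_const (B * σ))) hpt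
  rw [hplus, integral_add hI1 (hi.div_const (B * σ)), integral_add (integrable_const _) hind, integral_div, h2,
    integral_indicator measurableSet_Ici] at hint
  simp only [integral_const, probReal_univ, smul_eq_mul, one_mul, measureReal_restrict_apply_univ] at hint
  -- `σ/(8M) ≤ σ/(32M) + P·32Mσ + σ/(32M)`
  have e1 : σ ^ 2 / (B * σ) = σ / (32 * lc1M) := by rw [hB]; field_simp
  have e2 : c1 * σ = σ / (32 * lc1M) := by rw [hc1]; field_simp
  have e3 : σ / (4 * lc1M) = 8 * (σ / (32 * lc1M)) := by field_simp; norm_num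
  rw [e1] at hint
  set P : ℝ := μ.real (Ici (c1 * σ)) with hP
  rw [e2] at hint
  have h10 : 2 * (σ / (32 * lc1M)) ≤ P * (B * σ) := by linarith
  have h11 : lc1c ≤ P := by
    have : lc1c * (B * σ) = 2 * (σ / (32 * lc1M)) := by
      unfold lc1c; rw [hB]; field_simp; norm_num
    rw [← this] at h10
    exact le_of_mul_le_mul_right h10 (by positivity)
  refine h11.trans (measureReal_mono ?_ (measure_ne_top _ _))
  apply Ici_subset_Ici.2
  apply mul_le_mul_of_nonneg_right _ hσ.le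
  unfold lc1c
  rw [hc1]
  apply one_div_le_one_div_of_le (by positivity)
  nlinarith

/-- **(c') lower bound of the moment generating function**, lintegral form (no integrability needed) -/
theorem lc1_lmgf_ge (h : LcTail μ) (hσ : 0 < σ)
    (hi : Integrable (fun x : ℝ => x ^ 2) μ) (h2 : ∫ x, x ^ 2 ∂μ = σ ^ 2) (h1 : ∫ x, x ∂μ = 0) {t : ℝ} (ht : 0 ≤ t) :
    ENNReal.ofReal (lc1c * Real.exp (lc1c * t * σ)) ≤ ∫⁻ x, ENNReal.ofReal (Real.exp (t * x)) ∂μ := by
  have hm := lc1_mass h hσ hi h2 h1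
  calc ENNReal.ofReal (lc1c * Real.exp (lc1c * t * σ))
      ≤ ENNReal.ofReal (μ.real (Ici (lc1c * σ)) * Real.exp (lc1c * t * σ)) :=
        ENNReal.ofReal_le_ofReal (mul_le_mul_of_nonneg_right hm (Real.exp_pos _).le)
    _ = ENNReal.ofReal (Real.exp (lc1c * t * σ)) * μ (Ici (lc1c * σ)) := by
        rw [ENNReal.ofReal_mul measureReal_nonneg, measureReal_def, ENNReal.ofReal_toReal (measure_ne_top _ _), mul_comm]
    _ = ∫⁻ _ in Ici (lc1c * σ), ENNReal.ofReal (Real.exp (lc1c * t * σ)) ∂μ := by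
        rw [setLIntegral_const]
    _ ≤ ∫⁻ x in Ici (lc1c * σ), ENNReal.ofReal (Real.exp (t * x)) ∂μ := by
        refine setLIntegral_mono' measurableSet_Ici fun x hx => ENNReal.ofReal_le_ofReal (Real.exp_le_exp.2 ?_)
        have : t * (lc1c * σ) ≤ t * x := mul_le_mul_of_nonneg_left hx ht
        linarith
    _ ≤ ∫⁻ x, ENNReal.ofReal (Real.exp (t * x)) ∂μ := setLIntegral_le_lintegral _ _

/-- **(c'')** the same for the Bochner integral -/
theorem lc1_mgf_ge (h : LcTail μ) (hσ : 0 < σ)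
    (hi : Integrable (fun x : ℝ => x ^ 2) μ) (h2 : ∫ x, x ^ 2 ∂μ = σ ^ 2) (h1 : ∫ x, x ∂μ = 0) {t : ℝ} (ht : 0 ≤ t)
    (hE : Integrable (fun x : ℝ => Real.exp (t * x)) μ) :
    lc1c * Real.exp (lc1c * t * σ) ≤ ∫ x, Real.exp (t * x) ∂μ ∧
      lc1c * t * σ + Real.log lc1c ≤ Real.log (∫ x, Real.exp (t * x) ∂μ) := by
  have hl := lc1_lmgf_ge h hσ hi h2 h1 ht
  rw [← ofReal_integral_eq_lintegral_ofReal hE (Eventually.of_forall fun x => (Real.exp_pos _).le)] at hl
  have hpos : 0 < ∫ x, Real.exp (t * x) ∂μ := integral_exp_pos hE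
  have h3 := (ENNReal.ofReal_le_ofReal_iff hpos.le).1 hl
  refine ⟨h3, ?_⟩
  have := Real.log_le_log (mul_pos lc1c_pos (Real.exp_pos _)) h3
  rw [Real.log_mul lc1c_pos.ne' (Real.exp_pos _).ne', Real.log_exp] at this
  linarith

end

/-- **PE Lemma 7.7** (`fl:one-dimensional`), items 1-3, with universal constants.      TEX[PE:fl:one-dimensional] -/
theorem lc1_main : ∃ c C : ℝ, 0 < c ∧ c < 1 ∧ 0 < C ∧ ∀ (μ : Measure ℝ) [IsProbabilityMeasure μ] (σ : ℝ), LcTail μ → 0 < σ →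
    Integrable (fun x : ℝ => x ^ 2) μ → ∫ x, x ^ 2 ∂μ = σ ^ 2 → ∫ x, x ∂μ = 0 →
    (∀ t : ℝ, μ.real {x : ℝ | t * σ ≤ |x|} ≤ 2 * Real.exp (-(c * t))) ∧
    (∀ t : ℝ, 0 ≤ t → t * σ ≤ c → Integrable (fun x : ℝ => Real.exp (t * |x|)) μ ∧ ∫ x, Real.exp (t * |x|) ∂μ ≤ 3) ∧
    (∀ t : ℝ, 0 ≤ t → t * σ ≤ c → Integrable (fun x : ℝ => Real.exp (t * x)) μ ∧
      Real.log (∫ x, Real.exp (t * x) ∂μ) ≤ C * (t ^ 2 * σ ^ 2)) ∧
    c ≤ μ.real (Ici (c * σ)) ∧
    (∀ t : ℝ, 0 ≤ t → Integrable (fun x : ℝ => Real.exp (t * x)) μ →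
      c * t * σ + Real.log c ≤ Real.log (∫ x, Real.exp (t * x) ∂μ)) ∧
    (Integrable (fun x : ℝ => x ^ 4) μ ∧ ∫ x, x ^ 4 ∂μ ≤ C * σ ^ 4) := by
  have hh := lc1h_pos
  have hh1 := lc1h_lt
  have hM := lc1M_ge
  have hc := lc1c_pos
  have hcl : lc1c ≤ lc1h / 4 := by
    unfold lc1c lc1M
    rw [div_le_div_iff₀ (by positivity) (by norm_num)]
    have e : lc1h * (512 * (1152 / lc1h ^ 4) ^ 2) = 512 * 1152 ^ 2 / lc1h ^ 7 := by field_simp
    rw [e, le_div_iff₀ (by positivity)]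
    have : lc1h ^ 7 ≤ 1 := pow_le_one₀ hh.le hh1.le
    nlinarith
  refine ⟨lc1c, max (96 / lc1h ^ 2) lc1M, hc, by linarith, by positivity, ?_⟩
  intro μ _ σ h hσ hi h2 h1
  refine ⟨?_, ?_, ?_, lc1_mass h hσ hi h2 h1, ?_, ?_⟩
  · intro t
    rcases le_or_gt 0 t with ht | ht
    · refine (lc1_tail h hσ hi h2 t).trans ?_
      gcongr
      linarith
    · have h3 : μ.real {x : ℝ | t * σ ≤ |x|} ≤ 1 := measureReal_le_one
      have : 1 ≤ Real.exp (-(lc1c * t)) := Real.one_le_exp (by nlinarith)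
      linarith
  · intro t ht htσ
    exact lc1_exp_abs h hσ hi h2 ht (by linarith)
  · intro t ht htσ
    obtain ⟨a, _, b⟩ := lc1_mgf_le h hσ hi h2 h1 ht (by linarith)
    refine ⟨a, b.trans ?_⟩
    gcongr
    exact le_max_left _ _
  · intro t ht hE
    exact (lc1_mgf_ge h hσ hi h2 h1 ht hE).2
  · obtain ⟨a, b⟩ := lc1_four h hσ hi h2
    refine ⟨a, b.trans ?_⟩
    gcongr
    exact le_max_right _ _

end Claimed.Agent.R286
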