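import Claimed.Agent.R286.Lib.Helly
import Claimed.Agent.R286.Lib.MonoKit

/-!
# Row 286, PE Lemma 5.7 (`prof:macro-variational`): the constrained class of quantiles.  Owner: helper232.

`r286QClass Q η z` : `z 0 = 0`, `z 1 = 1`, slopes on `[0,1]` in `[1/Q, 1/η]`  (= Z_n of notes P11, O4).

* `.monotoneOn`, `.mem_Icc`, `.convex`, `.continuousOn`, `.of_tendsto`, `r286QClass_id`
* `r286_proj_ineq`      variational inequality against ONE competitor `zt` gives
                        `blo ∫ (z-S)² ≤ bhi ∫ (zt-S)²`   (replaces bathtub + potential geometry)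
* `r286_qclass_approx`  every monotone `[0,1]`-valued `S` on `(0,1)` has `z` in the class with
                        `∫₀¹ (z-S)² ≤ 3/Q² + 6η`  (competitor for the line above AND density of the
                        classes in all quantiles, l.708-722)
* `r286QClass_compact`, `r286QClass_exists_min`   Helly compactness, direct method
* `r286_first_variation`  one-sided derivative at a minimum along a segment is `≥ 0`
-/

set_option autoImplicit false

open Filter Topology Set MeasureTheory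
open scoped Interval NNReal ENNReal

namespace Claimed.Agent.R286

/-- The constrained class of quantiles of PE Lemma 5.7 (`prof:macro-variational`): `z(0)=0`,
`z(1)=1`, all slopes on `[0,1]` between `1/Q` and `1/η`. -/
def r286QClass (Q η : ℝ) (z : ℝ → ℝ) : Prop :=
  z 0 = 0 ∧ z 1 = 1 ∧ ∀ u ∈ Icc (0 : ℝ) 1, ∀ v ∈ Icc (0 : ℝ) 1, u ≤ v →
    (v - u) / Q ≤ z v - z u ∧ z v - z u ≤ (v - u) / η

theorem r286QClass.monotoneOn {Q η : ℝ} {z : ℝ → ℝ} (hQ : 0 < Q) (h : r286QClass Q η z) :
    MonotoneOn z (Icc 0 1) := fun u hu v hv huv => by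
  have := (h.2.2 u hu v hv huv).1
  have h0 : 0 ≤ (v - u) / Q := div_nonneg (by linarith) hQ.le
  linarith

theorem r286QClass.mem_Icc {Q η : ℝ} {z : ℝ → ℝ} (hQ : 0 < Q) (h : r286QClass Q η z)
    {u : ℝ} (hu : u ∈ Icc (0 : ℝ) 1) : z u ∈ Icc (0 : ℝ) 1 := by
  have hm := h.monotoneOn hQ
  constructor
  · rw [← h.1]; exact hm (by simp) hu hu.1
  · rw [← h.2.1]; exact hm hu (by simp) hu.2

theorem r286QClass.convex {Q η θ : ℝ} {z w : ℝ → ℝ} (hz : r286QClass Q η z)
    (hw : r286QClass Q η w) (h0 : 0 ≤ θ) (h1 : θ ≤ 1) :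
    r286QClass Q η (fun u => z u + θ * (w u - z u)) := by
  refine ⟨by simp [hz.1, hw.1], by simp [hz.2.1, hw.2.1], fun u hu v hv huv => ?_⟩
  obtain ⟨a1, a2⟩ := hz.2.2 u hu v hv huv
  obtain ⟨b1, b2⟩ := hw.2.2 u hu v hv huv
  constructor
  · have : z v + θ * (w v - z v) - (z u + θ * (w u - z u))
        = (1 - θ) * (z v - z u) + θ * (w v - w u) := by ring
    rw [this]
    nlinarith [mul_le_mul_of_nonneg_left a1 (sub_nonneg.mpr h1), mul_le_mul_of_nonneg_left b1 h0]
  · have : z v + θ * (w v - z v) - (z u + θ * (w u - z u))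
        = (1 - θ) * (z v - z u) + θ * (w v - w u) := by ring
    rw [this]
    nlinarith [mul_le_mul_of_nonneg_left a2 (sub_nonneg.mpr h1), mul_le_mul_of_nonneg_left b2 h0]

theorem r286QClass.continuousOn {Q η : ℝ} {z : ℝ → ℝ} (hQ : 0 < Q) (hη : 0 < η)
    (h : r286QClass Q η z) : ContinuousOn z (Icc 0 1) := by
  have hl : LipschitzOnWith (Real.toNNReal (1 / η)) z (Icc 0 1) := by
    refine LipschitzOnWith.of_dist_le_mul fun u hu v hv => ?_
    rw [Real.coe_toNNReal _ (by positivity), Real.dist_eq, Real.dist_eq]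
    rcases le_total u v with huv | huv
    · obtain ⟨a1, a2⟩ := h.2.2 u hu v hv huv
      have h0 : 0 ≤ (v - u) / Q := div_nonneg (by linarith) hQ.le
      rw [abs_sub_comm (z u), abs_of_nonneg (by linarith), abs_sub_comm u,
        abs_of_nonneg (by linarith)]
      calc z v - z u ≤ (v - u) / η := a2
        _ = 1 / η * (v - u) := by ring
    · obtain ⟨a1, a2⟩ := h.2.2 v hv u hu huv
      have h0 : 0 ≤ (u - v) / Q := div_nonneg (by linarith) hQ.le
      rw [abs_of_nonneg (by linarith), abs_of_nonneg (by linarith)]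
      calc z u - z v ≤ (u - v) / η := a2
        _ = 1 / η * (u - v) := by ring
  exact hl.continuousOn

/-- The class is closed under pointwise limits on `[0,1]`. -/
theorem r286QClass.of_tendsto {Q η : ℝ} {zs : ℕ → ℝ → ℝ} {z : ℝ → ℝ}
    (h : ∀ n, r286QClass Q η (zs n))
    (hlim : ∀ u ∈ Icc (0 : ℝ) 1, Tendsto (fun n => zs n u) atTop (𝓝 (z u))) :
    r286QClass Q η z := by
  refine ⟨?_, ?_, fun u hu v hv huv => ⟨?_, ?_⟩⟩
  · exact tendsto_nhds_unique (hlim 0 (by simp)) (by simp [(h _).1])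
  · exact tendsto_nhds_unique (hlim 1 (by simp)) (by simp [(h _).2.1])
  · exact ge_of_tendsto' ((hlim v hv).sub (hlim u hu)) fun n => ((h n).2.2 u hu v hv huv).1
  · exact le_of_tendsto' ((hlim v hv).sub (hlim u hu)) fun n => ((h n).2.2 u hu v hv huv).2

/-- Weighted `L²` projection inequality: the variational inequality at `z` against ONE competitor
`zt` already gives `‖z - S‖² ≤ (bhi/blo) ‖zt - S‖²`.  (Replaces the bathtub / potential geometry in
the proof of PE Lemma 5.7.) -/
theorem r286_proj_ineq {α : Type*} [MeasurableSpace α] (μ : Measure α) [IsFiniteMeasure μ]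
    (b z S zt : α → ℝ) (blo bhi : ℝ)
    (hb : MemLp b ∞ μ) (hz : MemLp z ∞ μ) (hS : MemLp S ∞ μ) (hzt : MemLp zt ∞ μ)
    (hblo0 : 0 ≤ blo) (hblo : ∀ᵐ x ∂μ, blo ≤ b x) (hbhi : ∀ᵐ x ∂μ, b x ≤ bhi)
    (hvar : 0 ≤ ∫ x, b x * (z x - S x) * (zt x - z x) ∂μ) :
    blo * ∫ x, (z x - S x) ^ 2 ∂μ ≤ bhi * ∫ x, (zt x - S x) ^ 2 ∂μ := by
  have i1 : MemLp (fun x => z x - S x) ∞ μ := hz.sub hS
  have i2 : MemLp (fun x => zt x - S x) ∞ μ := hzt.sub hS
  have i3 : MemLp (fun x => zt x - z x) ∞ μ := hzt.sub hz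
  have sq1 : MemLp (fun x => (z x - S x) ^ 2) ∞ μ := by
    have := i1.mul i1 (r := ∞); simpa [pow_two, Pi.mul_def] using this
  have sq2 : MemLp (fun x => (zt x - S x) ^ 2) ∞ μ := by
    have := i2.mul i2 (r := ∞); simpa [pow_two, Pi.mul_def] using this
  have I1 : Integrable (fun x => (z x - S x) ^ 2) μ := sq1.integrable le_top
  have I2 : Integrable (fun x => (zt x - S x) ^ 2) μ := sq2.integrable le_top
  have I3 : Integrable (fun x => b x * (z x - S x) ^ 2) μ := by
    have := sq1.mul hb (r := ∞); exact (by simpa [Pi.mul_def] using this : MemLp _ ∞ μ).integrable le_top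
  have I4 : Integrable (fun x => b x * (zt x - S x) ^ 2) μ := by
    have := sq2.mul hb (r := ∞); exact (by simpa [Pi.mul_def] using this : MemLp _ ∞ μ).integrable le_top
  have I5 : Integrable (fun x => b x * (z x - S x) * (zt x - z x)) μ := by
    have h1 := i1.mul hb (r := ∞)
    have h2 := i3.mul h1 (r := ∞)
    exact (by simpa [Pi.mul_def] using h2 : MemLp _ ∞ μ).integrable le_top
  have step1 : blo * ∫ x, (z x - S x) ^ 2 ∂μ ≤ ∫ x, b x * (z x - S x) ^ 2 ∂μ := by
    rw [← integral_const_mul]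
    refine integral_mono_ae (I1.const_mul _) I3 ?_
    filter_upwards [hblo] with x hx
    exact mul_le_mul_of_nonneg_right hx (sq_nonneg _)
  have step3 : ∫ x, b x * (zt x - S x) ^ 2 ∂μ ≤ bhi * ∫ x, (zt x - S x) ^ 2 ∂μ := by
    rw [← integral_const_mul]
    refine integral_mono_ae I4 (I2.const_mul _) ?_
    filter_upwards [hbhi] with x hx
    exact mul_le_mul_of_nonneg_right hx (sq_nonneg _)
  have step2 : ∫ x, b x * (z x - S x) ^ 2 ∂μ ≤ ∫ x, b x * (zt x - S x) ^ 2 ∂μ := by
    have hle : ∫ x, (b x * (z x - S x) ^ 2 + 2 * (b x * (z x - S x) * (zt x - z x))) ∂μ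
        ≤ ∫ x, b x * (zt x - S x) ^ 2 ∂μ := by
      refine integral_mono_ae (I3.add (I5.const_mul 2)) I4 ?_
      filter_upwards [hblo] with x hx
      have hbx : 0 ≤ b x := le_trans hblo0 hx
      have : b x * (zt x - S x) ^ 2 - (b x * (z x - S x) ^ 2
          + 2 * (b x * (z x - S x) * (zt x - z x))) = b x * (zt x - z x) ^ 2 := by ring
      nlinarith [mul_nonneg hbx (sq_nonneg (zt x - z x))]
    rw [integral_add I3 (I5.const_mul 2), integral_const_mul] at hle
    linarith
  linarith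

/-- Auxiliary profile: `0` left of `0`, `S` on `(0,1-η]`, `1` right of `1-η`. -/
noncomputable def r286Stil (η : ℝ) (S : ℝ → ℝ) (w : ℝ) : ℝ :=
  if w ≤ 0 then 0 else if w ≤ 1 - η then S w else 1

theorem r286Stil_mem {η : ℝ} (hη0 : 0 < η) {S : ℝ → ℝ}
    (hSb : ∀ u ∈ Ioo (0 : ℝ) 1, S u ∈ Icc (0 : ℝ) 1) (w : ℝ) :
    r286Stil η S w ∈ Icc (0 : ℝ) 1 := by
  unfold r286Stil
  split_ifs with h1 h2
  · simp
  · exact hSb w ⟨not_le.mp h1, by linarith⟩
  · simp

theorem r286Stil_mono {η : ℝ} (hη0 : 0 < η) {S : ℝ → ℝ} (hSm : MonotoneOn S (Ioo 0 1))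
    (hSb : ∀ u ∈ Ioo (0 : ℝ) 1, S u ∈ Icc (0 : ℝ) 1) : Monotone (r286Stil η S) := by
  intro w w' hww
  by_cases h1 : w ≤ 0
  · have : r286Stil η S w = 0 := by simp [r286Stil, h1]
    rw [this]; exact (r286Stil_mem hη0 hSb w').1
  · have h1' : ¬ w' ≤ 0 := fun h => h1 (le_trans hww h)
    by_cases h2' : w' ≤ 1 - η
    · have h2 : w ≤ 1 - η := le_trans hww h2'
      simp only [r286Stil, h1, h1', h2, h2', if_true, if_false]
      exact hSm ⟨not_le.mp h1, by linarith⟩ ⟨not_le.mp h1', by linarith⟩ hww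
    · have : r286Stil η S w' = 1 := by simp [r286Stil, h1', h2']
      rw [this]; exact (r286Stil_mem hη0 hSb w).2

/-- **Approximation in the constrained class**: every `[0,1]`-valued monotone profile on `(0,1)` is
`L²(0,1)`-close to an element of the class with slopes in `[1/Q, 1/η]`. -/
theorem r286_qclass_approx {Q η : ℝ} (hQ : 1 ≤ Q) (hη0 : 0 < η) (hη1 : η ≤ 1) (S : ℝ → ℝ)
    (hSm : MonotoneOn S (Ioo 0 1)) (hSb : ∀ u ∈ Ioo (0 : ℝ) 1, S u ∈ Icc (0 : ℝ) 1) :
    ∃ z : ℝ → ℝ, r286QClass Q η z ∧ ∫ u in (0 : ℝ)..1, (z u - S u) ^ 2 ≤ 3 / Q ^ 2 + 6 * η := by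
  have hQ0 : 0 < Q := by linarith
  set St := r286Stil η S with hSt
  have hmono : Monotone St := r286Stil_mono hη0 hSm hSb
  have hmem : ∀ w, St w ∈ Icc (0 : ℝ) 1 := r286Stil_mem hη0 hSb
  have hint : ∀ a b : ℝ, IntervalIntegrable St volume a b := fun a b => hmono.intervalIntegrable
  have hint' : ∀ a b : ℝ, IntervalIntegrable (fun w => St (w - η)) volume a b := fun a b =>
    (hmono.comp (fun x y hxy => by linarith : Monotone fun w : ℝ => w - η)).intervalIntegrable
  -- basic integrals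
  have hI_le : ∀ a b : ℝ, a ≤ b → ∫ w in a..b, St w ≤ b - a := fun a b hab => by
    have := intervalIntegral.integral_mono_on hab (hint a b) (intervalIntegrable_const (c := (1:ℝ)))
      (fun w _ => (hmem w).2)
    simpa using this
  have hI_nonneg : ∀ a b : ℝ, a ≤ b → 0 ≤ ∫ w in a..b, St w := fun a b hab =>
    intervalIntegral.integral_nonneg hab fun w _ => (hmem w).1
  have hI_left : ∫ w in (-η)..0, St w = 0 := by
    have : ∫ w in (-η)..0, St w = ∫ w in (-η)..0, (0 : ℝ) := by
      refine intervalIntegral.integral_congr_ae (Eventually.of_forall fun w hw => ?_)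
      rw [uIoc_of_le (by linarith)] at hw
      simp [hSt, r286Stil, hw.2]
    rw [this]; simp
  have hI_right : ∫ w in (1 - η)..1, St w = η := by
    have : ∫ w in (1 - η)..1, St w = ∫ w in (1 - η)..1, (1 : ℝ) := by
      refine intervalIntegral.integral_congr_ae (Eventually.of_forall fun w hw => ?_)
      rw [uIoc_of_le (by linarith)] at hw
      have h1 : ¬ w ≤ 0 := by linarith [hw.1]
      have h2 : ¬ w ≤ 1 - η := by linarith [hw.1]
      simp [hSt, r286Stil, h1, h2]
    rw [this]; simp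
  have hshift : ∀ a b : ℝ, ∫ w in a..b, St (w - η) = ∫ w in (a - η)..(b - η), St w := fun a b =>
    intervalIntegral.integral_comp_sub_right (fun w => St w) η
  set z₁ : ℝ → ℝ := fun u => η⁻¹ * ∫ w in (u - η)..u, St w with hz₁
  have hdiff : ∀ u v : ℝ, z₁ v - z₁ u
      = η⁻¹ * ((∫ w in u..v, St w) - ∫ w in u..v, St (w - η)) := fun u v => by
    have h := intervalIntegral.integral_interval_sub_interval_comm
      (hint (v - η) v) (hint (u - η) u) (hint (v - η) (u - η))
    rw [hshift]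
    simp only [hz₁]
    rw [← mul_sub, h, intervalIntegral.integral_symm (u - η) (v - η),
      intervalIntegral.integral_symm u v]
    ring
  have hz₁up : ∀ u v : ℝ, u ≤ v → z₁ v - z₁ u ≤ (v - u) / η := fun u v huv => by
    rw [hdiff, hshift, div_eq_inv_mul]
    refine mul_le_mul_of_nonneg_left ?_ (inv_nonneg.mpr hη0.le)
    linarith [hI_le u v huv, hI_nonneg (u - η) (v - η) (by linarith)]
  have hz₁lo : ∀ u v : ℝ, u ≤ v → 0 ≤ z₁ v - z₁ u := fun u v huv => by
    rw [hdiff]
    refine mul_nonneg (inv_nonneg.mpr hη0.le) (sub_nonneg.mpr ?_)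
    exact intervalIntegral.integral_mono_on huv (hint' u v) (hint u v)
      fun w _ => hmono (by linarith)
  have hz₁0 : z₁ 0 = 0 := by simp only [hz₁, zero_sub, hI_left, mul_zero]
  have hz₁1 : z₁ 1 = 1 := by simp only [hz₁, hI_right]; field_simp
  have hz₁le : ∀ u, z₁ u ≤ St u := fun u => by
    have := intervalIntegral.integral_mono_on (show u - η ≤ u by linarith) (hint (u - η) u)
      (intervalIntegrable_const (c := St u)) (fun w hw => hmono hw.2)
    simp only [intervalIntegral.integral_const, smul_eq_mul, sub_sub_cancel] at this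
    simp only [hz₁]
    rw [inv_mul_le_iff₀ hη0]; exact this
  have hz₁ge : ∀ u, St (u - η) ≤ z₁ u := fun u => by
    have := intervalIntegral.integral_mono_on (show u - η ≤ u by linarith)
      (intervalIntegrable_const (c := St (u - η))) (hint (u - η) u) (fun w hw => hmono hw.1)
    simp only [intervalIntegral.integral_const, smul_eq_mul, sub_sub_cancel] at this
    simp only [hz₁]
    rw [le_inv_mul_iff₀ hη0]; exact this
  have hz₁mem : ∀ u ∈ Icc (0 : ℝ) 1, z₁ u ∈ Icc (0 : ℝ) 1 := fun u hu =>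
    ⟨by have := hz₁lo 0 u hu.1; linarith, by have := hz₁lo u 1 hu.2; linarith⟩
  have hQinv : 0 ≤ 1 - 1 / Q := by
    rw [sub_nonneg, div_le_one hQ0]; exact hQ
  refine ⟨fun u => (1 - 1 / Q) * z₁ u + u / Q, ⟨?_, ?_, ?_⟩, ?_⟩
  · simp [hz₁0]
  · simp only [hz₁1]; ring
  · intro u hu v hv huv
    have e : (1 - 1 / Q) * z₁ v + v / Q - ((1 - 1 / Q) * z₁ u + u / Q)
        = (1 - 1 / Q) * (z₁ v - z₁ u) + (v - u) / Q := by ring
    rw [e]
    constructor
    · have := mul_nonneg hQinv (hz₁lo u v huv); linarith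
    · have h1 := mul_le_mul_of_nonneg_left (hz₁up u v huv) hQinv
      have h2 : (v - u) / Q ≤ 1 / Q * ((v - u) / η) := by
        have h3 : v - u ≤ (v - u) / η := by
          rw [le_div_iff₀ hη0]; nlinarith
        calc (v - u) / Q = 1 / Q * (v - u) := by ring
          _ ≤ 1 / Q * ((v - u) / η) := mul_le_mul_of_nonneg_left h3 (by positivity)
      calc (1 - 1 / Q) * (z₁ v - z₁ u) + (v - u) / Q
          ≤ (1 - 1 / Q) * ((v - u) / η) + 1 / Q * ((v - u) / η) := by linarith
        _ = (v - u) / η := by ring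
  · -- the L² bound
    set T : ℝ → ℝ := fun u => if u ≤ 1 - η then 0 else 1 with hT
    have hTmono : Monotone T := by
      intro x y hxy
      simp only [hT]
      split_ifs with h1 h2 h2
      · exact le_rfl
      · exact zero_le_one
      · exact absurd (le_trans hxy h2) h1
      · exact le_rfl
    have hTint : ∀ a b : ℝ, IntervalIntegrable T volume a b := fun a b => hTmono.intervalIntegrable
    have hT1 : ∫ u in (0 : ℝ)..1, T u = η := by
      rw [← intervalIntegral.integral_add_adjacent_intervals (hTint 0 (1 - η)) (hTint (1 - η) 1)]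
      have e1 : ∫ u in (0 : ℝ)..(1 - η), T u = ∫ u in (0 : ℝ)..(1 - η), (0 : ℝ) := by
        refine intervalIntegral.integral_congr_ae (Eventually.of_forall fun w hw => ?_)
        rw [uIoc_of_le (by linarith)] at hw
        simp [hT, hw.2]
      have e2 : ∫ u in (1 - η)..1, T u = ∫ u in (1 - η)..1, (1 : ℝ) := by
        refine intervalIntegral.integral_congr_ae (Eventually.of_forall fun w hw => ?_)
        rw [uIoc_of_le (by linarith)] at hw
        have h2 : ¬ w ≤ 1 - η := by linarith [hw.1]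
        simp [hT, h2]
      rw [e1, e2]; simp
    have hD1 : (∫ u in (0 : ℝ)..1, St u) - ∫ u in (0 : ℝ)..1, St (u - η) = η := by
      rw [hshift]
      have h := intervalIntegral.integral_interval_sub_interval_comm
        (hint 0 1) (hint (0 - η) (1 - η)) (hint 0 (0 - η))
      rw [h, intervalIntegral.integral_symm (0 - η) 0, intervalIntegral.integral_symm (1 - η) 1,
        zero_sub, hI_left, hI_right]
      ring
    set R : ℝ → ℝ := fun u => 3 / Q ^ 2 + 3 * (St u - St (u - η)) + 3 * T u with hR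
    have hRint : IntervalIntegrable R volume 0 1 :=
      (intervalIntegrable_const.add (((hint 0 1).sub (hint' 0 1)).const_mul 3)).add
        ((hTint 0 1).const_mul 3)
    have hRval : ∫ u in (0 : ℝ)..1, R u = 3 / Q ^ 2 + 6 * η := by
      simp only [hR]
      rw [intervalIntegral.integral_add
          (intervalIntegrable_const.add (((hint 0 1).sub (hint' 0 1)).const_mul 3))
          ((hTint 0 1).const_mul 3),
        intervalIntegral.integral_add intervalIntegrable_const
          (((hint 0 1).sub (hint' 0 1)).const_mul 3),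
        intervalIntegral.integral_const_mul, intervalIntegral.integral_const_mul,
        intervalIntegral.integral_sub (hint 0 1) (hint' 0 1), hD1, hT1]
      simp; ring
    rw [← hRval, intervalIntegral.integral_of_le zero_le_one,
      intervalIntegral.integral_of_le zero_le_one]
    refine integral_mono_of_nonneg (Eventually.of_forall fun u => sq_nonneg _)
      ((intervalIntegrable_iff_integrableOn_Ioc_of_le zero_le_one).mp hRint) ?_
    have hne : ∀ᵐ x : ℝ, x ≠ 1 := by simp [ae_iff, measure_singleton]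
    rw [Filter.EventuallyLE, ae_restrict_iff' measurableSet_Ioc]
    filter_upwards [hne] with u hu1 hu
    have huo : u ∈ Ioo (0 : ℝ) 1 := ⟨hu.1, lt_of_le_of_ne hu.2 hu1⟩
    have huc : u ∈ Icc (0 : ℝ) 1 := ⟨hu.1.le, hu.2⟩
    have hzm := hz₁mem u huc
    -- three errors
    have ha : ((u - z₁ u) / Q) ^ 2 ≤ 1 / Q ^ 2 := by
      rw [div_pow]
      refine div_le_div_of_nonneg_right ?_ (by positivity)
      have : |u - z₁ u| ≤ 1 := by rw [abs_le]; constructor <;> linarith [hzm.1, hzm.2, huc.1, huc.2]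
      calc (u - z₁ u) ^ 2 = |u - z₁ u| ^ 2 := (sq_abs _).symm
        _ ≤ 1 ^ 2 := pow_le_pow_left₀ (abs_nonneg _) this 2
        _ = 1 := one_pow 2
    have hD0 : 0 ≤ St u - St (u - η) := sub_nonneg.mpr (hmono (by linarith))
    have hDle : St u - St (u - η) ≤ 1 := by linarith [(hmem u).2, (hmem (u - η)).1]
    have hc : (z₁ u - St u) ^ 2 ≤ St u - St (u - η) := by
      have h1 := hz₁le u
      have h2 := hz₁ge u
      nlinarith
    have he : (St u - S u) ^ 2 ≤ T u := by
      have h1 : ¬ u ≤ 0 := not_le.mpr hu.1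
      by_cases h2 : u ≤ 1 - η
      · simp [hSt, hT, r286Stil, h1, h2]
      · have hs := hSb u huo
        simp only [hSt, hT, r286Stil, h1, h2, if_false]
        nlinarith [hs.1, hs.2]
    have hsplit : (1 - 1 / Q) * z₁ u + u / Q - S u
        = (u - z₁ u) / Q + (z₁ u - St u) + (St u - S u) := by ring
    simp only [hR]
    rw [hsplit]
    have h3 : ∀ x y w : ℝ, (x + y + w) ^ 2 ≤ 3 * (x ^ 2 + y ^ 2 + w ^ 2) := fun x y w => by
      nlinarith [sq_nonneg (x - y), sq_nonneg (y - w), sq_nonneg (x - w)]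
    have := h3 ((u - z₁ u) / Q) (z₁ u - St u) (St u - S u)
    have e3 : 3 / Q ^ 2 = 3 * (1 / Q ^ 2) := by ring
    rw [e3]
    linarith

theorem r286QClass_id {Q η : ℝ} (hQ : 1 ≤ Q) (hη0 : 0 < η) (hη1 : η ≤ 1) :
    r286QClass Q η (fun u => u) := by
  refine ⟨rfl, rfl, fun u _ v _ huv => ⟨?_, ?_⟩⟩
  · rw [div_le_iff₀ (by linarith)]; nlinarith
  · rw [le_div_iff₀ hη0]; nlinarith

/-- Sequential compactness of the class: pointwise on `[0,1]` and in `L¹(0,1)`. -/
theorem r286QClass_compact {Q η : ℝ} (hQ : 0 < Q) (zs : ℕ → ℝ → ℝ)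
    (h : ∀ n, r286QClass Q η (zs n)) :
    ∃ φ : ℕ → ℕ, StrictMono φ ∧ ∃ z : ℝ → ℝ, r286QClass Q η z ∧
      (∀ u ∈ Icc (0 : ℝ) 1, Tendsto (fun k => zs (φ k) u) atTop (𝓝 (z u))) ∧
      Tendsto (fun k => ∫ u in (0 : ℝ)..1, |zs (φ k) u - z u|) atTop (𝓝 0) := by
  obtain ⟨φ, g, hφ, -, -, hlim⟩ := sk_helly_on (Icc 0 1) zs 0 1
    (fun n => (h n).monotoneOn hQ) (fun n x hx => (h n).mem_Icc hQ hx)
  refine ⟨φ, hφ, g, r286QClass.of_tendsto (fun n => h (φ n)) hlim, hlim, ?_⟩
  refine r286_mono_L1 (fun k => zs (φ k)) g (M := 1) zero_le_one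
    (fun n => ((h (φ n)).monotoneOn hQ).mono Ioo_subset_Icc_self)
    (fun n x hx => ?_) (Eventually.of_forall fun x hx => hlim x (Ioo_subset_Icc_self hx))
  have := (h (φ n)).mem_Icc hQ (Ioo_subset_Icc_self hx)
  rw [abs_le]; constructor <;> linarith [this.1, this.2]

/-- Direct method: an `L¹(0,1)`-Lipschitz functional attains its minimum on the class. -/
theorem r286QClass_exists_min {Q η : ℝ} (hQ : 1 ≤ Q) (hη0 : 0 < η) (hη1 : η ≤ 1)
    (J : (ℝ → ℝ) → ℝ) (C : ℝ)
    (hJ : ∀ z w, r286QClass Q η z → r286QClass Q η w →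
      |J z - J w| ≤ C * ∫ u in (0 : ℝ)..1, |z u - w u|) :
    ∃ z, r286QClass Q η z ∧ ∀ w, r286QClass Q η w → J z ≤ J w := by
  have hQ0 : 0 < Q := by linarith
  have hid := r286QClass_id hQ hη0 hη1
  set V : Set ℝ := J '' {z | r286QClass Q η z} with hV
  have hne : V.Nonempty := ⟨J (fun u => u), (fun u => u), hid, rfl⟩
  have hdist : ∀ z w, r286QClass Q η z → r286QClass Q η w →
      ∫ u in (0 : ℝ)..1, |z u - w u| ≤ 1 := by
    intro z w hz hw
    have hzc := hz.continuousOn hQ0 hη0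
    have hwc := hw.continuousOn hQ0 hη0
    have hi : IntervalIntegrable (fun u => |z u - w u|) volume 0 1 := by
      apply ContinuousOn.intervalIntegrable
      rw [uIcc_of_le zero_le_one]
      exact (hzc.sub hwc).abs
    have := intervalIntegral.integral_mono_on zero_le_one hi (intervalIntegrable_const (c := (1:ℝ)))
      (fun u hu => by
        have a := hz.mem_Icc hQ0 hu
        have b := hw.mem_Icc hQ0 hu
        rw [abs_le]; constructor <;> linarith [a.1, a.2, b.1, b.2])
    simpa using this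
  have hbd : BddBelow V := by
    refine ⟨J (fun u => u) - |C|, ?_⟩
    rintro _ ⟨z, hz, rfl⟩
    have h1 := hJ z _ hz hid
    have h2 := hdist z _ hz hid
    have h3 : 0 ≤ ∫ u in (0 : ℝ)..1, |z u - u| :=
      intervalIntegral.integral_nonneg zero_le_one fun u _ => abs_nonneg _
    have h4 : C * ∫ u in (0 : ℝ)..1, |z u - u| ≤ |C| := by
      calc C * ∫ u in (0 : ℝ)..1, |z u - u| ≤ |C| * ∫ u in (0 : ℝ)..1, |z u - u| :=
            mul_le_mul_of_nonneg_right (le_abs_self C) h3
        _ ≤ |C| * 1 := mul_le_mul_of_nonneg_left h2 (abs_nonneg C)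
        _ = |C| := mul_one _
    have := (abs_le.mp h1).1
    linarith
  obtain ⟨v, -, hvlim, hvmem⟩ := exists_seq_tendsto_sInf hne hbd
  choose zs hzs hzv using hvmem
  obtain ⟨φ, hφ, z, hz, -, hL1⟩ := r286QClass_compact hQ0 zs hzs
  have hJlim : Tendsto (fun k => J (zs (φ k))) atTop (𝓝 (J z)) := by
    rw [tendsto_iff_dist_tendsto_zero]
    refine squeeze_zero (fun k => dist_nonneg) (fun k => ?_) (by simpa using hL1.const_mul C)
    rw [Real.dist_eq]
    exact hJ _ _ (hzs _) hz
  have hJz : J z = sInf V := by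
    refine tendsto_nhds_unique hJlim ?_
    have : (fun k => J (zs (φ k))) = v ∘ φ := by funext k; simp [hzv]
    rw [this]
    exact hvlim.comp hφ.tendsto_atTop
  exact ⟨z, hz, fun w hw => by rw [hJz]; exact csInf_le hbd ⟨w, hw, rfl⟩⟩

/-- First variation at a minimum along a segment: the one-sided derivative is nonnegative. -/
theorem r286_first_variation {f : ℝ → ℝ} {D : ℝ} (hd : HasDerivWithinAt f D (Icc 0 1) 0)
    (hmin : ∀ θ ∈ Icc (0 : ℝ) 1, f 0 ≤ f θ) : 0 ≤ D := by
  have h1 := hasDerivWithinAt_iff_tendsto_slope.mp hd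
  have hset : Icc (0 : ℝ) 1 \ {0} = Ioc 0 1 := by
    ext x; simp only [mem_diff, mem_Icc, mem_singleton_iff, mem_Ioc]
    constructor
    · rintro ⟨⟨a, b⟩, c⟩; exact ⟨lt_of_le_of_ne a (Ne.symm c), b⟩
    · rintro ⟨a, b⟩; exact ⟨⟨a.le, b⟩, a.ne'⟩
  rw [hset] at h1
  have : (𝓝[Ioc (0 : ℝ) 1] 0).NeBot := by
    rw [nhdsWithin_Ioc_eq_nhdsGT (zero_lt_one)]; infer_instance
  refine ge_of_tendsto h1 (eventually_nhdsWithin_of_forall fun θ hθ => ?_)
  rw [slope_def_field]
  exact div_nonneg (sub_nonneg.mpr (hmin θ ⟨hθ.1.le, hθ.2⟩)) (by linarith [hθ.1])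

end Claimed.Agent.R286
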